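import Vale.Agent.P365.Flow.Kick
import Vale.Agent.P365.L1.Alg

set_option linter.all false

/-!
# P365, open conductance: exact one-site updates under a Cauchy kick.

`kickW z h W t = W + h (t + i) 1_z`, `h < e_z = -Im W_z`.  With `κ = h / (m_z - h K_zz)`:
* `E K'_xy = K_xy + κ K_xz K_zy`;
* `E En' = En - 2 κ (m_z μ_z)^2` for the energy `En = ∑ e_x e_y K_xy (f_x - f_y)^2`;
* transmission `S → Y` drops by at least `h K_zS^2 / m_z` for `z ∈ Y`.
-/

namespace P365O

open MeasureTheory ProbabilityTheory Complex P365L P365L.Poi P365F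
open scoped ENNReal NNReal Real ComplexConjugate

/-! ### one variable -/

theorem nu_integral_real (f : ℝ → ℝ) :
    ∫ t, f t ∂nu = ∫ t, (π⁻¹ * (t ^ 2 + 1)⁻¹) * f t := by
  have h1 : nu = volume.withDensity (cauchyPDF 0 1) :=
    cauchyMeasure_of_scale_ne_zero 0 one_ne_zero
  rw [h1, integral_withDensity_eq_integral_toReal_smul (measurable_cauchyPDF 0 1)
    (Filter.Eventually.of_forall fun x => ENNReal.ofReal_lt_top)]
  refine integral_congr_ae (Filter.Eventually.of_forall fun t => ?_)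
  simp only [cauchyPDF, ENNReal.toReal_ofReal (cauchyPDF_pos 0 one_ne_zero t).le]
  rw [smul_eq_mul]
  congr 1
  simp only [cauchyPDFReal, NNReal.coe_one, mul_one, sub_zero, one_pow]

/-- `E|θ|² = h / (Im g - h |g|²)` -/
theorem integral_norm_sq_tz {h : ℝ} (hh : 0 < h) {g : ℂ} (hg : h * ‖g‖ ^ 2 < g.im) :
    ∫ t, ‖tz h g t‖ ^ 2 ∂nu = h / (g.im - h * ‖g‖ ^ 2) := by
  have hg0 := cau_ne_zero hh hg
  have hp := cau_p_pos hh hg
  have hgn : 0 < ‖g‖ := norm_pos_iff.2 hg0
  have e1 : ∀ t : ℝ, (π⁻¹ * (t ^ 2 + 1)⁻¹) * ‖tz h g t‖ ^ 2 =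
      (π⁻¹ * (‖g‖ ^ 2)⁻¹) * (‖(t : ℂ) - cau_p h g‖ ^ 2)⁻¹ := by
    intro t
    have h2 : ‖(t : ℂ) + I‖ ^ 2 = t ^ 2 + 1 := by
      rw [Complex.sq_norm, Complex.normSq_apply]
      simp
      ring
    have h3 : 0 < ‖(t : ℂ) - cau_p h g‖ := norm_pos_iff.2 (cau_sub_ne hp t)
    unfold tz
    rw [cau_den hh hg0, norm_div, norm_mul, norm_mul, norm_mul, Complex.norm_real,
      Real.norm_of_nonneg hh.le, div_pow, mul_pow, mul_pow, mul_pow, h2]
    have h4 : t ^ 2 + 1 ≠ 0 := by positivity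
    have h5 : (π : ℝ) ≠ 0 := Real.pi_ne_zero
    field_simp
  rw [nu_integral_real]
  simp only [e1]
  rw [integral_const_mul, cau_integral_sq hp, cau_p_im hh hg0]
  have h5 : (π : ℝ) ≠ 0 := Real.pi_ne_zero
  have h6 : 0 < g.im - h * ‖g‖ ^ 2 := by linarith
  have h7 : -1 + g.im / (h * ‖g‖ ^ 2) = (g.im - h * ‖g‖ ^ 2) / (h * ‖g‖ ^ 2) := by
    field_simp
    ring
  rw [h7]
  field_simp

/-- quadratic one-site average -/
theorem integral_norm_sq_sub {h : ℝ} (hh : 0 < h) {g : ℂ} (hg : h * ‖g‖ ^ 2 < g.im) (a b : ℂ) :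
    ∫ t, ‖a - b * tz h g t‖ ^ 2 ∂nu =
      ‖a‖ ^ 2 + ‖b‖ ^ 2 * (h / (g.im - h * ‖g‖ ^ 2)) := by
  have e1 : ∀ t : ℝ, ‖a - b * tz h g t‖ ^ 2 =
      (‖a‖ ^ 2 - 2 * (((starRingEnd ℂ) a * b) * tz h g t).re) + ‖b‖ ^ 2 * ‖tz h g t‖ ^ 2 := by
    intro t
    rw [norm_sub_sq_ge, ← mul_assoc, norm_mul, mul_pow]
  have i1 : Integrable (fun t => ‖a‖ ^ 2 - 2 * (((starRingEnd ℂ) a * b) * tz h g t).re) nu :=
    (integrable_const _).sub ((integrable_re_mul_tz hh hg _).const_mul 2)
  have i2 : Integrable (fun t => ‖b‖ ^ 2 * ‖tz h g t‖ ^ 2) nu := by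
    have := integrable_norm_pow_sub_mul_tz hh hg 0 1 2
    simp only [one_mul, zero_sub, norm_neg] at this
    exact this.const_mul _
  simp only [e1]
  rw [integral_add i1 i2, integral_sub (integrable_const _)
    ((integrable_re_mul_tz hh hg _).const_mul 2), integral_const_mul, integral_const_mul,
    integral_re_mul_tz hh hg, integral_norm_sq_tz hh hg]
  simp

/-! ### kicks -/

variable {ι : Type*} [Fintype ι] [DecidableEq ι] {A : Matrix ι ι ℝ} {W : ι → ℂ}

/-- `κ = h/(m_z - h K_zz)` -/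
noncomputable def kap (A : Matrix ι ι ℝ) (W : ι → ℂ) (z : ι) (h : ℝ) : ℝ :=
  h / (mm A W z - h * KK A W z z)

omit [Fintype ι] in
theorem kickW_self (z : ι) (h : ℝ) (W : ι → ℂ) (t : ℝ) :
    kickW z h W t z = W z + h * ((t : ℂ) + I) := by
  unfold kickW
  rw [Function.update_self]

omit [Fintype ι] in
theorem kickW_ne {z x : ι} (hx : x ≠ z) (h : ℝ) (W : ι → ℂ) (t : ℝ) :
    kickW z h W t x = W x := by
  unfold kickW
  rw [Function.update_of_ne hx]

omit [Fintype ι] in
theorem kickW_im (z : ι) (h : ℝ) (W : ι → ℂ) (t : ℝ) (x : ι) :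
    -(kickW z h W t x).im = -(W x).im - if x = z then h else 0 := by
  by_cases hx : x = z
  · subst hx
    rw [kickW_self, if_pos rfl]
    simp
    ring
  · rw [kickW_ne hx, if_neg hx, sub_zero]

omit [Fintype ι] in
theorem kickW_neg (hW : ∀ x, (W x).im < 0) {z : ι} {h : ℝ} (hz : h < -(W z).im) (t : ℝ) (x : ι) :
    (kickW z h W t x).im < 0 := by
  have h1 := kickW_im z h W t x
  by_cases hx : x = z
  · subst hx
    rw [if_pos rfl] at h1
    linarith
  · rw [kickW_ne hx]
    exact hW x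

theorem hK_lt (hA : A.IsSymm) (hW : ∀ x, (W x).im < 0) {z : ι} {h : ℝ} (hz : h < -(W z).im) :
    h * KK A W z z < mm A W z := by
  refine lt_of_lt_of_le ?_ (e_mul_KK_le hA hW z z)
  exact mul_lt_mul_of_pos_right hz (pow_pos (norm_pos_iff.2 (Gr_self_ne_zero hA hW z)) 2)

theorem kap_pos (hA : A.IsSymm) (hW : ∀ x, (W x).im < 0) {z : ι} {h : ℝ} (hh : 0 < h)
    (hz : h < -(W z).im) : 0 < kap A W z h :=
  div_pos hh (by linarith [hK_lt hA hW hz])

theorem le_kap (hA : A.IsSymm) (hW : ∀ x, (W x).im < 0) {z : ι} {h : ℝ} (hh : 0 < h)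
    (hz : h < -(W z).im) : h / mm A W z ≤ kap A W z h := by
  unfold kap
  have h1 := hK_lt hA hW hz
  refine div_le_div_of_nonneg_left hh.le (by linarith) ?_
  have := mul_nonneg hh.le (KK_nonneg (A := A) (W := W) z z)
  linarith

/-- rank one formula for a kick -/
theorem Gr_kick (hA : A.IsSymm) (hW : ∀ x, (W x).im < 0) {z : ι} {h : ℝ}
    (hz : h < -(W z).im) (t : ℝ) (x y : ι) :
    Gr A (kickW z h W t) x y =
      Gr A W x y - Gr A W x z * Gr A W z y * tz h (Gr A W z z) t := by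
  have hδ : (W z + (h : ℂ) * ((t : ℂ) + I)).im < 0 := by
    simp
    linarith
  exact (Gr_update hA hW z ((h : ℂ) * ((t : ℂ) + I)) hδ).2 x y

theorem hg_of (hA : A.IsSymm) (hW : ∀ x, (W x).im < 0) {z : ι} {h : ℝ} (hz : h < -(W z).im) :
    h * ‖Gr A W z z‖ ^ 2 < (Gr A W z z).im := hK_lt hA hW hz

theorem integrable_KK_kick (hA : A.IsSymm) (hW : ∀ x, (W x).im < 0) {z : ι} {h : ℝ}
    (hh : 0 < h) (hz : h < -(W z).im) (x y : ι) :
    Integrable (fun t => KK A (kickW z h W t) x y) nu := by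
  unfold KK
  simp only [Gr_kick hA hW hz]
  exact integrable_norm_pow_sub_mul_tz hh (hg_of hA hW hz) _ _ 2

/-- **exact one-site average of `K`** -/
theorem integral_KK_kick (hA : A.IsSymm) (hW : ∀ x, (W x).im < 0) {z : ι} {h : ℝ}
    (hh : 0 < h) (hz : h < -(W z).im) (x y : ι) :
    ∫ t, KK A (kickW z h W t) x y ∂nu =
      KK A W x y + KK A W x z * KK A W z y * kap A W z h := by
  unfold KK kap
  simp only [Gr_kick hA hW hz]
  rw [integral_norm_sq_sub hh (hg_of hA hW hz), norm_mul, mul_pow]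
  rfl

/-! ### energy -/

/-- `En = ∑ e_x e_y K_xy (f_x - f_y)²` -/
noncomputable def En (A : Matrix ι ι ℝ) (W : ι → ℂ) (f : ι → ℝ) : ℝ :=
  ∑ x, ∑ y, (-(W x).im) * (-(W y).im) * KK A W x y * (f x - f y) ^ 2

/-- transmission from `S` to `Y`: `∑_{x∈S, y∈Y} e_x e_y K_xy` -/
noncomputable def Trm (A : Matrix ι ι ℝ) (W : ι → ℂ) (S Y : Finset ι) : ℝ :=
  ∑ x ∈ S, ∑ y ∈ Y, (-(W x).im) * (-(W y).im) * KK A W x y

/-- `K_zS = ∑_{a∈S} e_a K_za` -/
noncomputable def KS (A : Matrix ι ι ℝ) (W : ι → ℂ) (S : Finset ι) (z : ι) : ℝ :=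
  ∑ a ∈ S, (-(W a).im) * KK A W z a

theorem KS_nonneg (hW : ∀ x, (W x).im < 0) (S : Finset ι) (z : ι) : 0 ≤ KS A W S z :=
  Finset.sum_nonneg fun a _ => mul_nonneg (by linarith [hW a]) (KK_nonneg _ _)

theorem KS_le_mm (hA : A.IsSymm) (hW : ∀ x, (W x).im < 0) (S : Finset ι) (z : ι) :
    KS A W S z ≤ mm A W z := by
  rw [mm_eq hA hW]
  exact Finset.sum_le_sum_of_subset_of_nonneg (Finset.subset_univ S)
    fun a _ _ => mul_nonneg (by linarith [hW a]) (KK_nonneg _ _)

theorem KS_add_le_mm (hA : A.IsSymm) (hW : ∀ x, (W x).im < 0) {S Y : Finset ι}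
    (hSY : Disjoint S Y) (z : ι) : KS A W S z + KS A W Y z ≤ mm A W z := by
  unfold KS
  rw [← Finset.sum_union hSY]
  exact KS_le_mm hA hW (S ∪ Y) z

omit [Fintype ι] in
theorem sum_upd [Fintype ι] (e F : ι → ℝ) (z : ι) (h : ℝ) :
    ∑ x, (e x - if x = z then h else 0) * F x = (∑ x, e x * F x) - h * F z := by
  simp only [sub_mul, Finset.sum_sub_distrib, ite_mul, zero_mul, Finset.sum_ite_eq',
    Finset.mem_univ, if_true]

theorem sum_sum_sq {ι : Type*} [Fintype ι] (p a : ι → ℝ) :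
    ∑ x, ∑ y, p x * p y * (a x - a y) ^ 2 =
      2 * (∑ x, p x) * (∑ x, p x * a x ^ 2) - 2 * (∑ x, p x * a x) ^ 2 := by
  have h1 : ∀ x, ∑ y, p x * p y * (a x - a y) ^ 2 =
      (p x * a x ^ 2) * (∑ y, p y) - 2 * (p x * a x) * (∑ y, p y * a y) +
        p x * (∑ y, p y * a y ^ 2) := by
    intro x
    rw [Finset.mul_sum, Finset.mul_sum, Finset.mul_sum, ← Finset.sum_sub_distrib,
      ← Finset.sum_add_distrib]
    exact Finset.sum_congr rfl fun y _ => by ring
  simp only [h1]
  rw [Finset.sum_add_distrib, Finset.sum_sub_distrib, ← Finset.sum_mul, ← Finset.sum_mul,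
    ← Finset.sum_mul]
  have h2 : ∑ x, 2 * (p x * a x) = 2 * ∑ x, p x * a x := (Finset.mul_sum _ _ _).symm
  rw [h2]
  ring

/-- the algebra behind the energy drop -/
theorem energy_algebra (e k f : ι → ℝ) (K : ι → ι → ℝ) (hK : ∀ x y, K x y = K y x) (z : ι)
    (h κ : ℝ) (hk : ∀ x, k x = K z x) (hκ : κ * ((∑ x, e x * k x) - h * k z) = h) :
    ∑ x, ∑ y, (e x - if x = z then h else 0) * (e y - if y = z then h else 0) *
        (K x y + k x * k y * κ) * (f x - f y) ^ 2 =
      (∑ x, ∑ y, e x * e y * K x y * (f x - f y) ^ 2) -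
        2 * κ * (∑ y, e y * k y * (f y - f z)) ^ 2 := by
  set d : ι → ℝ := fun x => if x = z then h else 0 with hd
  set D : ℝ := ∑ y, e y * k y * (f y - f z) ^ 2 with hD
  set B : ℝ := ∑ y, e y * k y * (f y - f z) with hB
  -- the `K` part
  have h1 : ∑ x, ∑ y, (e x - d x) * (e y - d y) * K x y * (f x - f y) ^ 2 =
      (∑ x, ∑ y, e x * e y * K x y * (f x - f y) ^ 2) - 2 * h * D := by
    have a1 : ∀ x, ∑ y, (e x - d x) * (e y - d y) * K x y * (f x - f y) ^ 2 =
        (e x - d x) * ((∑ y, e y * (K x y * (f x - f y) ^ 2)) -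
          h * (K x z * (f x - f z) ^ 2)) := by
      intro x
      rw [← sum_upd e (fun y => K x y * (f x - f y) ^ 2) z h, Finset.mul_sum]
      exact Finset.sum_congr rfl fun y _ => by ring
    simp only [a1]
    rw [hd, sum_upd e (fun x => (∑ y, e y * (K x y * (f x - f y) ^ 2)) -
          h * (K x z * (f x - f z) ^ 2)) z h]
    have a2 : ∑ x, e x * ((∑ y, e y * (K x y * (f x - f y) ^ 2)) -
          h * (K x z * (f x - f z) ^ 2)) =
        (∑ x, ∑ y, e x * e y * K x y * (f x - f y) ^ 2) - h * D := by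
      simp only [mul_sub, Finset.sum_sub_distrib]
      congr 1
      · refine Finset.sum_congr rfl fun x _ => ?_
        rw [Finset.mul_sum]
        exact Finset.sum_congr rfl fun y _ => by ring
      · rw [hD, Finset.mul_sum]
        refine Finset.sum_congr rfl fun x _ => ?_
        rw [hk x, hK x z]
        ring
    have a3 : ∑ y, e y * (K z y * (f z - f y) ^ 2) = D := by
      rw [hD]
      refine Finset.sum_congr rfl fun y _ => ?_
      rw [hk y]
      ring
    rw [a2, a3]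
    ring
  -- the rank one part
  have h2 : ∑ x, ∑ y, (e x - d x) * (e y - d y) * (k x * k y) * (f x - f y) ^ 2 =
      2 * ((∑ x, e x * k x) - h * k z) * D - 2 * B ^ 2 := by
    have b1 : ∀ x y, (e x - d x) * (e y - d y) * (k x * k y) * (f x - f y) ^ 2 =
        ((e x - d x) * k x) * ((e y - d y) * k y) * ((f x - f z) - (f y - f z)) ^ 2 := by
      intro x y
      ring
    simp only [b1]
    rw [sum_sum_sq (fun x => (e x - d x) * k x) (fun x => f x - f z)]
    have b2 : ∑ x, (e x - d x) * k x = (∑ x, e x * k x) - h * k z := sum_upd e k z h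
    have b3 : ∑ x, (e x - d x) * k x * (f x - f z) ^ 2 = D := by
      have := sum_upd e (fun x => k x * (f x - f z) ^ 2) z h
      rw [hD]
      simp only [sub_self, ne_eq, OfNat.ofNat_ne_zero, not_false_eq_true, zero_pow, mul_zero,
        sub_zero, ← mul_assoc] at this
      exact this
    have b4 : ∑ x, (e x - d x) * k x * (f x - f z) = B := by
      have := sum_upd e (fun x => k x * (f x - f z)) z h
      rw [hB]
      simp only [sub_self, mul_zero, sub_zero, ← mul_assoc] at this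
      exact this
    rw [b2, b3, b4]
  have h3 : ∑ x, ∑ y, (e x - d x) * (e y - d y) * (K x y + k x * k y * κ) * (f x - f y) ^ 2 =
      (∑ x, ∑ y, (e x - d x) * (e y - d y) * K x y * (f x - f y) ^ 2) +
        κ * ∑ x, ∑ y, (e x - d x) * (e y - d y) * (k x * k y) * (f x - f y) ^ 2 := by
    rw [Finset.mul_sum, ← Finset.sum_add_distrib]
    refine Finset.sum_congr rfl fun x _ => ?_
    rw [Finset.mul_sum, ← Finset.sum_add_distrib]
    exact Finset.sum_congr rfl fun y _ => by ring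
  rw [h3, h1, h2]
  linear_combination 2 * D * hκ

theorem integrable_En_kick (hA : A.IsSymm) (hW : ∀ x, (W x).im < 0) {z : ι} {h : ℝ}
    (hh : 0 < h) (hz : h < -(W z).im) (f : ι → ℝ) :
    Integrable (fun t => En A (kickW z h W t) f) nu := by
  unfold En
  simp only [kickW_im]
  refine integrable_finset_sum _ fun x _ => integrable_finset_sum _ fun y _ => ?_
  exact ((integrable_KK_kick hA hW hh hz x y).const_mul _).mul_const _

/-- **exact energy drop** -/
theorem integral_En_kick (hA : A.IsSymm) (hW : ∀ x, (W x).im < 0) {z : ι} {h : ℝ}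
    (hh : 0 < h) (hz : h < -(W z).im) (f : ι → ℝ) :
    ∫ t, En A (kickW z h W t) f ∂nu =
      En A W f - 2 * kap A W z h * (∑ y, (-(W y).im) * KK A W z y * (f y - f z)) ^ 2 := by
  unfold En
  simp only [kickW_im]
  rw [integral_finset_sum _ fun x _ => integrable_finset_sum _ fun y _ =>
    ((integrable_KK_kick hA hW hh hz x y).const_mul _).mul_const _]
  have h1 : ∀ x, ∫ t, ∑ y, (-(W x).im - if x = z then h else 0) *
      (-(W y).im - if y = z then h else 0) * KK A (kickW z h W t) x y * (f x - f y) ^ 2 ∂nu =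
      ∑ y, (-(W x).im - if x = z then h else 0) * (-(W y).im - if y = z then h else 0) *
        (KK A W x y + KK A W z x * KK A W z y * kap A W z h) * (f x - f y) ^ 2 := by
    intro x
    rw [integral_finset_sum _ fun y _ =>
      ((integrable_KK_kick hA hW hh hz x y).const_mul _).mul_const _]
    refine Finset.sum_congr rfl fun y _ => ?_
    rw [integral_mul_const, integral_const_mul, integral_KK_kick hA hW hh hz, KK_symm hA x z]
  rw [Finset.sum_congr rfl fun x _ => h1 x]
  refine energy_algebra (fun x => -(W x).im) (fun x => KK A W z x) f (fun x y => KK A W x y)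
    (fun x y => KK_symm hA x y) z h (kap A W z h) (fun x => rfl) ?_
  show kap A W z h * ((∑ x, -(W x).im * KK A W z x) - h * KK A W z z) = h
  rw [← mm_eq hA hW, kap, div_mul_cancel₀]
  have := hK_lt hA hW hz
  linarith

theorem integral_En_kick_le (hA : A.IsSymm) (hW : ∀ x, (W x).im < 0) {z : ι} {h : ℝ}
    (hh : 0 < h) (hz : h < -(W z).im) (f : ι → ℝ) :
    ∫ t, En A (kickW z h W t) f ∂nu ≤ En A W f := by
  rw [integral_En_kick hA hW hh hz f]
  have := mul_nonneg (mul_nonneg zero_le_two (kap_pos hA hW hh hz).le)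
    (sq_nonneg (∑ y, (-(W y).im) * KK A W z y * (f y - f z)))
  linarith

/-! ### transmission -/

theorem integrable_Trm_kick (hA : A.IsSymm) (hW : ∀ x, (W x).im < 0) {z : ι} {h : ℝ}
    (hh : 0 < h) (hz : h < -(W z).im) (S Y : Finset ι) :
    Integrable (fun t => Trm A (kickW z h W t) S Y) nu := by
  unfold Trm
  simp only [kickW_im]
  refine integrable_finset_sum _ fun x _ => integrable_finset_sum _ fun y _ => ?_
  exact (integrable_KK_kick hA hW hh hz x y).const_mul _

/-- **transmission drop** when the absorption at a site `z ∈ Y` is lowered -/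
theorem integral_Trm_kick_le (hA : A.IsSymm) (hW : ∀ x, (W x).im < 0) {z : ι} {h : ℝ}
    (hh : 0 < h) (hz : h < -(W z).im) {S Y : Finset ι} (hSY : Disjoint S Y) (hzY : z ∈ Y) :
    ∫ t, Trm A (kickW z h W t) S Y ∂nu ≤ Trm A W S Y - h / mm A W z * KS A W S z ^ 2 := by
  have hzS : z ∉ S := fun h => Finset.disjoint_left.1 hSY h hzY
  have hk := kap_pos hA hW hh hz
  have hK := hK_lt hA hW hz
  have e0 : ∫ t, Trm A (kickW z h W t) S Y ∂nu =
      ∑ x ∈ S, ∑ y ∈ Y, (-(W x).im) * (-(W y).im - if y = z then h else 0) *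
        (KK A W x y + KK A W z x * KK A W z y * kap A W z h) := by
    unfold Trm
    simp only [kickW_im]
    rw [integral_finset_sum _ fun x _ => integrable_finset_sum _ fun y _ =>
      (integrable_KK_kick hA hW hh hz x y).const_mul _]
    refine Finset.sum_congr rfl fun x hx => ?_
    rw [integral_finset_sum _ fun y _ => (integrable_KK_kick hA hW hh hz x y).const_mul _]
    refine Finset.sum_congr rfl fun y _ => ?_
    have hxz : x ≠ z := fun h => hzS (h ▸ hx)
    rw [integral_const_mul, integral_KK_kick hA hW hh hz, if_neg hxz, sub_zero,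
      KK_symm hA x z]
  have e1 : ∀ F : ι → ℝ, ∑ y ∈ Y, (-(W y).im - if y = z then h else 0) * F y =
      (∑ y ∈ Y, (-(W y).im) * F y) - h * F z := by
    intro F
    simp only [sub_mul, Finset.sum_sub_distrib, ite_mul, zero_mul, Finset.sum_ite_eq', hzY,
      if_true]
  have e2 : ∑ x ∈ S, ∑ y ∈ Y, (-(W x).im) * (-(W y).im - if y = z then h else 0) *
        (KK A W x y + KK A W z x * KK A W z y * kap A W z h) =
      Trm A W S Y - h * KS A W S z +
        kap A W z h * KS A W S z * (KS A W Y z - h * KK A W z z) := by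
    have a1 : ∀ x, ∑ y ∈ Y, (-(W x).im) * (-(W y).im - if y = z then h else 0) *
        (KK A W x y + KK A W z x * KK A W z y * kap A W z h) =
        (∑ y ∈ Y, (-(W x).im) * (-(W y).im) * KK A W x y) - h * ((-(W x).im) * KK A W z x) +
          (kap A W z h * (KS A W Y z - h * KK A W z z)) * ((-(W x).im) * KK A W z x) := by
      intro x
      have a2 : ∑ y ∈ Y, (-(W x).im) * (-(W y).im - if y = z then h else 0) *
          (KK A W x y + KK A W z x * KK A W z y * kap A W z h) =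
          (-(W x).im) * (∑ y ∈ Y, (-(W y).im - if y = z then h else 0) * KK A W x y) +
          ((-(W x).im) * KK A W z x * kap A W z h) *
            (∑ y ∈ Y, (-(W y).im - if y = z then h else 0) * KK A W z y) := by
        rw [Finset.mul_sum, Finset.mul_sum, ← Finset.sum_add_distrib]
        exact Finset.sum_congr rfl fun y _ => by ring
      rw [a2, e1, e1, KK_symm hA x z]
      have a3 : (-(W x).im) * ∑ y ∈ Y, (-(W y).im) * KK A W x y =
          ∑ y ∈ Y, (-(W x).im) * (-(W y).im) * KK A W x y := by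
        rw [Finset.mul_sum]
        exact Finset.sum_congr rfl fun y _ => by ring
      rw [mul_sub, a3]
      unfold KS
      ring
    simp only [a1]
    rw [Finset.sum_add_distrib, Finset.sum_sub_distrib, ← Finset.mul_sum, ← Finset.mul_sum]
    unfold Trm KS
    ring
  rw [e0, e2]
  set a := KS A W S z with ha
  set Q := KS A W Y z with hQ
  set m := mm A W z with hm
  set κ := kap A W z h with hκ
  have ha0 : 0 ≤ a := KS_nonneg hW S z
  have h1 : a + Q ≤ m := KS_add_le_mm hA hW hSY z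
  have h2 : κ * (m - h * KK A W z z) = h := by
    rw [hκ, kap, div_mul_cancel₀]
    linarith
  have h3 : h / m ≤ κ := le_kap hA hW hh hz
  have h4 : κ * a * (Q - h * KK A W z z) ≤ κ * a * (m - a - h * KK A W z z) :=
    mul_le_mul_of_nonneg_left (by linarith) (mul_nonneg hk.le ha0)
  have h5 : h / m * a ^ 2 ≤ κ * a ^ 2 := mul_le_mul_of_nonneg_right h3 (sq_nonneg _)
  have h6 : κ * a * (m - a - h * KK A W z z) = h * a - κ * a ^ 2 := by
    linear_combination a * h2
  linarith

/-! ### squares of `K_zS` -/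

/-- weighted column sums -/
noncomputable def Kw (A : Matrix ι ι ℝ) (W : ι → ℂ) (w : ι → ℝ) (S : Finset ι) (z : ι) : ℝ :=
  ∑ a ∈ S, w a * KK A W z a

theorem Kw_nonneg {w : ι → ℝ} (hw : ∀ a, 0 ≤ w a) (S : Finset ι) (z : ι) : 0 ≤ Kw A W w S z :=
  Finset.sum_nonneg fun a _ => mul_nonneg (hw a) (KK_nonneg _ _)

theorem integrable_Kw_kick_pow (hA : A.IsSymm) (hW : ∀ x, (W x).im < 0) {z : ι} {h : ℝ}
    (hh : 0 < h) (hz : h < -(W z).im) (w : ι → ℝ) (S : Finset ι) (x : ι) (k : ℕ) :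
    Integrable (fun t => Kw A (kickW z h W t) w S x ^ k) nu := by
  obtain ⟨C, hC⟩ := bounded_tz hh (hg_of hA hW hz)
  have hm : Measurable fun t => Kw A (kickW z h W t) w S x ^ k := by
    unfold Kw KK
    simp only [Gr_kick hA hW hz]
    have := measurable_tz h (Gr A W z z)
    fun_prop
  refine Integrable.of_bound hm.aestronglyMeasurable
    ((∑ a ∈ S, |w a| * (‖Gr A W x a‖ + ‖Gr A W x z * Gr A W z a‖ * C) ^ 2) ^ k)
    (Filter.Eventually.of_forall fun t => ?_)
  rw [norm_pow]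
  refine pow_le_pow_left₀ (norm_nonneg _) ?_ k
  unfold Kw
  refine (norm_sum_le _ _).trans (Finset.sum_le_sum fun a _ => ?_)
  rw [norm_mul, Real.norm_eq_abs, KK, Gr_kick hA hW hz, norm_pow, norm_norm]
  refine mul_le_mul_of_nonneg_left (pow_le_pow_left₀ (norm_nonneg _) ?_ 2) (abs_nonneg _)
  refine (norm_sub_le _ _).trans ?_
  rw [norm_mul]
  have := mul_le_mul_of_nonneg_left (hC t) (norm_nonneg (Gr A W x z * Gr A W z a))
  linarith

theorem le_integral_Kw_kick (hA : A.IsSymm) (hW : ∀ x, (W x).im < 0) {z : ι} {h : ℝ}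
    (hh : 0 < h) (hz : h < -(W z).im) {w : ι → ℝ} (hw : ∀ a, 0 ≤ w a) (S : Finset ι) (x : ι) :
    Kw A W w S x ≤ ∫ t, Kw A (kickW z h W t) w S x ∂nu := by
  unfold Kw
  rw [integral_finset_sum _ fun a _ => (integrable_KK_kick hA hW hh hz x a).const_mul _]
  refine Finset.sum_le_sum fun a _ => ?_
  rw [integral_const_mul, integral_KK_kick hA hW hh hz]
  refine mul_le_mul_of_nonneg_left ?_ (hw a)
  have := mul_nonneg (mul_nonneg (KK_nonneg (A := A) (W := W) x z)
    (KK_nonneg (A := A) (W := W) z a)) (kap_pos hA hW hh hz).le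
  linarith

/-- Jensen for the square: `(E X)² ≤ E X²` -/
theorem sq_integral_le {X : ℝ → ℝ} (h1 : Integrable X nu) (h2 : Integrable (fun t => X t ^ 2) nu) :
    (∫ t, X t ∂nu) ^ 2 ≤ ∫ t, X t ^ 2 ∂nu := by
  set m := ∫ t, X t ∂nu with hm
  have h3 : 0 ≤ ∫ t, (X t - m) ^ 2 ∂nu := integral_nonneg fun t => sq_nonneg _
  have h4 : ∀ t, (X t - m) ^ 2 = X t ^ 2 - 2 * m * X t + m ^ 2 := fun t => by ring
  simp only [h4] at h3
  have i1 : Integrable (fun t => X t ^ 2 - 2 * m * X t) nu := h2.sub (h1.const_mul _)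
  rw [integral_add i1 (integrable_const _), integral_sub h2 (h1.const_mul _),
    integral_const_mul, ← hm] at h3
  simp at h3
  nlinarith [h3]

/-- the square of `∑ w_a K_xa` grows in mean under a kick -/
theorem sq_Kw_le_kick (hA : A.IsSymm) (hW : ∀ x, (W x).im < 0) {z : ι} {h : ℝ}
    (hh : 0 < h) (hz : h < -(W z).im) {w : ι → ℝ} (hw : ∀ a, 0 ≤ w a) (S : Finset ι) (x : ι) :
    Kw A W w S x ^ 2 ≤ ∫ t, Kw A (kickW z h W t) w S x ^ 2 ∂nu := by
  have i1 := integrable_Kw_kick_pow hA hW hh hz w S x 1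
  simp only [pow_one] at i1
  have i2 := integrable_Kw_kick_pow hA hW hh hz w S x 2
  refine le_trans ?_ (sq_integral_le i1 i2)
  exact pow_le_pow_left₀ (Kw_nonneg hw S x) (le_integral_Kw_kick hA hW hh hz hw S x) 2

end P365O
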