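import Vale.Agent.P365.L1.Alg
import Vale.Agent.P365.Flow.Kick

set_option linter.all false

/-!
# P365, block OPEN: expectations in an absorption profile.

Profile `e : ι → ℝ`, `0 < e x ≤ γ`: potential `v_x = U_x + (γ - e_x) c_x - i e_x`.
`EEp γ e U F = E F(v)`.  Lowering `e z` by `h` is the same as the kick `v_z ↦ v_z + h (t + i)`.
-/

namespace P365L

open MeasureTheory ProbabilityTheory Complex P365L.Poi P365F
open scoped ENNReal NNReal Real

variable {ι : Type*} [Fintype ι] [DecidableEq ι]

/-- the potential in the absorption profile `e` -/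
noncomputable def Wp (γ : ℝ) (e U c : ι → ℝ) : ι → ℂ := Wc U (fun x => γ - e x) e c

/-- the expectation in the absorption profile `e` -/
noncomputable def EEp (γ : ℝ) (e U : ι → ℝ) (F : (ι → ℂ) → ℝ) : ℝ :=
  ∫ c, F (Wp γ e U c) ∂(mu ι)

omit [Fintype ι] [DecidableEq ι] in
theorem Wp_im (γ : ℝ) (e U c : ι → ℝ) (x : ι) : (Wp γ e U c x).im = -e x := Wc_im _ _ _ _ _

omit [Fintype ι] [DecidableEq ι] in
theorem measurable_Wp (γ : ℝ) (e U : ι → ℝ) : Measurable fun c : ι → ℝ => Wp γ e U c := by
  refine measurable_pi_lambda _ fun x => ?_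
  unfold Wp Wc
  exact (((Complex.measurable_ofReal.comp (measurable_pi_apply x)).const_mul _).const_add _).sub_const _

/-- admissible observables: measurable, and bounded on `{W | ∀ x, Im W x ≤ -η}` for every `η > 0` -/
structure Adm (F : (ι → ℂ) → ℝ) : Prop where
  meas : Measurable F
  bdd : ∀ η : ℝ, 0 < η → ∃ C : ℝ, ∀ W : ι → ℂ, (∀ x, (W x).im ≤ -η) → |F W| ≤ C

omit [DecidableEq ι] in
theorem exists_lower' {e : ι → ℝ} (he : ∀ x, 0 < e x) : ∃ η : ℝ, 0 < η ∧ ∀ x, η ≤ e x := by
  rcases isEmpty_or_nonempty ι with h | h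
  · exact ⟨1, one_pos, fun x => (h.false x).elim⟩
  · obtain ⟨x0, _, hx0⟩ := Finset.exists_min_image Finset.univ e Finset.univ_nonempty
    exact ⟨e x0, he x0, fun x => hx0 x (Finset.mem_univ x)⟩

omit [DecidableEq ι] in
theorem Adm.integrable {F : (ι → ℂ) → ℝ} (hF : Adm F) {e : ι → ℝ} (he : ∀ x, 0 < e x)
    (γ : ℝ) (U : ι → ℝ) : Integrable (fun c => F (Wp γ e U c)) (mu ι) := by
  obtain ⟨η, hη, hηe⟩ := exists_lower' he
  obtain ⟨C, hC⟩ := hF.bdd η hη
  refine Integrable.of_bound (hF.meas.comp (measurable_Wp γ e U)).aestronglyMeasurable C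
    (Filter.Eventually.of_forall fun c => ?_)
  exact hC _ fun x => by rw [Wp_im]; linarith [hηe x]

omit [Fintype ι] in
theorem Wp_update (γ : ℝ) (e U c : ι → ℝ) (z : ι) (h : ℝ) :
    Wp γ (Function.update e z (e z - h)) U c =
      Wc U (Function.update (fun x => γ - e x) z ((γ - e z) + h)) (Function.update e z (e z - h))
        c := by
  unfold Wp
  congr 1
  funext x
  by_cases hx : x = z
  · subst hx
    rw [Function.update_self, Function.update_self]
    ring
  · rw [Function.update_of_ne hx, Function.update_of_ne hx]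

theorem update_pos {e : ι → ℝ} (he : ∀ x, 0 < e x) {z : ι} {h : ℝ} (hz : h < e z) (x : ι) :
    0 < Function.update e z (e z - h) x := by
  by_cases hx : x = z
  · subst hx
    rw [Function.update_self]
    linarith
  · rw [Function.update_of_ne hx]
    exact he x

/-- lowering one absorption = kicking the potential of that site -/
theorem EEp_lower_one {F : (ι → ℂ) → ℝ} (hF : Adm F) {γ : ℝ} {e : ι → ℝ} (U : ι → ℝ)
    (he : ∀ x, 0 < e x) (z : ι) (hz : e z ≤ γ) {h : ℝ} (hh : 0 < h) (hhz : h < e z) :
    EEp γ (Function.update e z (e z - h)) U F =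
      EEp γ e U (fun W => ∫ t, F (kickW z h W t) ∂nu) := by
  have hi := hF.integrable (update_pos he hhz) γ U
  unfold EEp
  simp only [Wp_update] at hi ⊢
  exact integral_lower U (fun x => γ - e x) e z (by linarith) hh hi

theorem integrable_kick {F : (ι → ℂ) → ℝ} (hF : Adm F) {γ : ℝ} {e : ι → ℝ} (U : ι → ℝ)
    (he : ∀ x, 0 < e x) (z : ι) (hz : e z ≤ γ) {h : ℝ} (hh : 0 < h) (hhz : h < e z) :
    Integrable (fun c => ∫ t, F (kickW z h (Wp γ e U c) t) ∂nu) (mu ι) := by
  have hi := hF.integrable (update_pos he hhz) γ U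
  simp only [Wp_update] at hi
  exact (integrable_lower_iff U (fun x => γ - e x) e z (by linarith) hh hi).integral_prod_left

/-- `F` increases in mean under kicks at the sites of `Z` -/
def KickUp (Z : Set ι) (F : (ι → ℂ) → ℝ) : Prop :=
  ∀ z ∈ Z, ∀ h : ℝ, 0 < h → ∀ W : ι → ℂ, (∀ x, (W x).im < 0) → h < -(W z).im →
    F W ≤ ∫ t, F (kickW z h W t) ∂nu

theorem EEp_mono_one {F : (ι → ℂ) → ℝ} (hF : Adm F) {Z : Set ι} (hK : KickUp Z F)
    {γ : ℝ} {e : ι → ℝ} (U : ι → ℝ) (he : ∀ x, 0 < e x) (z : ι) (hzZ : z ∈ Z) (hz : e z ≤ γ)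
    {h : ℝ} (hh : 0 < h) (hhz : h < e z) :
    EEp γ e U F ≤ EEp γ (Function.update e z (e z - h)) U F := by
  rw [EEp_lower_one hF U he z hz hh hhz]
  refine integral_mono (hF.integrable he γ U) (integrable_kick hF U he z hz hh hhz) fun c => ?_
  refine hK z hzZ h hh _ (fun x => ?_) ?_
  · rw [Wp_im]; linarith [he x]
  · rw [Wp_im]; linarith

/-- **monotonicity in the profile**: if `F` increases in mean under kicks at the sites where the
profile is lowered, then `E F` increases. -/
theorem EEp_mono {F : (ι → ℂ) → ℝ} (hF : Adm F) {Z : Set ι} (hK : KickUp Z F)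
    {γ : ℝ} {e e' : ι → ℝ} (U : ι → ℝ) (he' : ∀ x, 0 < e' x) (hle : ∀ x, e' x ≤ e x)
    (heγ : ∀ x, e x ≤ γ) (hZ : ∀ x, x ∉ Z → e' x = e x) :
    EEp γ e U F ≤ EEp γ e' U F := by
  have he : ∀ x, 0 < e x := fun x => (he' x).trans_le (hle x)
  have key : ∀ S : Finset ι, EEp γ e U F ≤ EEp γ (fun x => if x ∈ S then e' x else e x) U F := by
    intro S
    induction S using Finset.induction_on with
    | empty => simp
    | insert z S hz ih =>
      refine ih.trans ?_
      have hpos : ∀ x, 0 < (fun x => if x ∈ S then e' x else e x) x := by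
        intro x
        show 0 < if x ∈ S then e' x else e x
        split_ifs
        · exact he' x
        · exact he x
      have hval : (fun x => if x ∈ S then e' x else e x) z = e z := by
        show (if z ∈ S then e' z else e z) = e z
        rw [if_neg hz]
      have hnew : (fun x => if x ∈ insert z S then e' x else e x) =
          Function.update (fun x => if x ∈ S then e' x else e x) z
            ((fun x => if x ∈ S then e' x else e x) z - (e z - e' z)) := by
        funext x
        by_cases hx : x = z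
        · subst hx
          rw [Function.update_self, hval]
          show (if x ∈ insert x S then e' x else e x) = _
          rw [if_pos (Finset.mem_insert_self _ _)]
          ring
        · rw [Function.update_of_ne hx]
          show (if x ∈ insert z S then e' x else e x) = if x ∈ S then e' x else e x
          simp only [Finset.mem_insert, hx, false_or]
      rw [hnew]
      rcases (hle z).eq_or_lt with heq | hlt
      · rw [heq, sub_self, sub_zero, Function.update_eq_self]
      · have hzZ : z ∈ Z := by
          by_contra h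
          exact hlt.ne (hZ z h)
        refine EEp_mono_one hF hK U hpos z hzZ ?_ (by linarith) ?_
        · simp only [if_neg hz]; exact heγ z
        · simp only [if_neg hz]; linarith [he' z]
  have h := key Finset.univ
  simpa using h

end P365L
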