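import Vale.Agent.P365.Open.Asm

/-!
# P365, block OPEN: the theorem in the form consumed by the composition step.
-/

set_option linter.all false

namespace P365L.Op

open MeasureTheory ProbabilityTheory Complex P365L P365L.Poi P365F P365O
open scoped ENNReal NNReal Real ComplexConjugate

/-- the slope bound, weakest form: for every `b` it is enough to have it on arbitrarily large
tori -/
def LOC5w (γ : ℝ) (ρ : Measure ℝ) : Prop :=
  ∀ δ : ℝ, 0 < δ → ∃ C : ℝ, ∀ b : ℝ, 0 < b → b ≤ γ / 2 → b ≤ 1 → ∀ M : ℕ,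
    ∃ (N : ℕ) (_ : NeZero N), M ≤ N ∧
      EU ρ γ (fun _ : Tor N => b) (Lm (AT N) b 0) ≤ -(1 - δ) * Real.log (1 / b) + C

/-- open conductance tends to zero -/
def OpenEU (γ : ℝ) (ρ : Measure ℝ) : Prop :=
  ∀ θ : ℝ, 0 < θ → ∃ l0 : ℕ, ∀ l : ℕ, l0 ≤ l → ∀ M : ℕ, ∃ (N : ℕ) (_ : NeZero N), M ≤ N ∧
    ∃ e1 : ℝ, 0 < e1 ∧ ∀ e0 : ℝ, 0 < e0 → e0 ≤ e1 →
      EU ρ γ (pr γ e0 (ball N l ∪ ext N (2 * l)))
        (fun W => Trm (AT N) W (ball N l) (ext N (2 * l))) ≤ θ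

theorem openEU {γ B : ℝ} (hγ : 0 < γ) (ρ : Measure ℝ) [IsProbabilityMeasure ρ]
    (hB : ρ (Set.Icc (-B) B)ᶜ = 0) (h5 : LOC5w γ ρ) : OpenEU γ ρ := by
  classical
  intro θ hθ
  have hC : ∀ δ : ℝ, ∃ C : ℝ, 0 < δ → ∀ b : ℝ, 0 < b → b ≤ γ / 2 → b ≤ 1 → ∀ M : ℕ,
    ∃ (N : ℕ) (_ : NeZero N), M ≤ N ∧
      EU ρ γ (fun _ : Tor N => b) (Lm (AT N) b 0) ≤ -(1 - δ) * Real.log (1 / b) + C := by
    intro δ
    by_cases hδ : 0 < δ
    · obtain ⟨C, hC⟩ := h5 δ hδ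
      exact ⟨C, fun _ => hC⟩
    · exact ⟨0, fun h => absurd h hδ⟩
  choose C5 hC5 using hC
  obtain ⟨δ, k, l0, hδ, hk, hl0, H⟩ := open_main (B := B) hγ hθ C5
  refine ⟨l0, fun l hl M => ?_⟩
  obtain ⟨hb1, hbγ, H2⟩ := H l hl
  have hl' : (0 : ℝ) < l := by
    have : 0 < l := by omega
    exact_mod_cast this
  have hb : 0 < k / (l : ℝ) ^ 2 := by
    have : 0 < k := by linarith
    positivity
  obtain ⟨N, hN, hMN, h⟩ := hC5 δ hδ (k / (l : ℝ) ^ 2) hb hbγ hb1 M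
  exact ⟨N, hN, hMN, k / (l : ℝ) ^ 2, hb, fun e0 h0 h1 => H2 ρ hB N h e0 h0 h1⟩

/-- the transmission as an explicit sum -/
theorem EEp_Trm_eq {N : ℕ} [NeZero N] {γ e0 : ℝ} (U : Tor N → ℝ) (l : ℕ) :
    EEp γ (pr γ e0 (ball N l ∪ ext N (2 * l))) U
        (fun W => Trm (AT N) W (ball N l) (ext N (2 * l))) =
      EEp γ (fun x => if nrm x ≤ l ∨ 2 * l ≤ nrm x then γ else e0) U
        (fun W => ∑ a ∈ ball N l, ∑ y ∈ ext N (2 * l), γ ^ 2 * KK (AT N) W a y) := by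
  have h1 : pr γ e0 (ball N l ∪ ext N (2 * l)) =
      fun x => if nrm x ≤ l ∨ 2 * l ≤ nrm x then γ else e0 := by
    funext x
    unfold pr
    simp only [Finset.mem_union, mem_ball, mem_ext]
  rw [← h1]
  refine EEp_congr fun W hW => ?_
  unfold Trm
  refine Finset.sum_congr rfl fun a ha => Finset.sum_congr rfl fun y hy => ?_
  rw [hW, hW, pr_mem (Finset.mem_union_left _ ha), pr_mem (Finset.mem_union_right _ hy)]
  ring

/-- shift of the energy -/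
theorem EU_map_sub {ι : Type*} [Fintype ι] [DecidableEq ι] (ρ : Measure ℝ)
    [IsProbabilityMeasure ρ] (E γ : ℝ) {e : ι → ℝ} (he : ∀ x, 0 < e x) {F : (ι → ℂ) → ℝ}
    (hF : Adm F) :
    EU (ρ.map fun t => t - E) γ e F =
      ∫ w, EEp γ e (fun x => w x - E) F ∂(Measure.pi fun _ : ι => ρ) := by
  have hm : Measurable fun t : ℝ => t - E := by fun_prop
  haveI : IsProbabilityMeasure (ρ.map fun t => t - E) :=
    Measure.isProbabilityMeasure_map hm.aemeasurable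
  have h1 : (Measure.pi fun _ : ι => ρ).map (fun w : ι → ℝ => fun x => w x - E) =
      Measure.pi fun _ : ι => ρ.map fun t => t - E :=
    Measure.pi_map_pi (fun _ => hm.aemeasurable)
  have hm2 : Measurable fun w : ι → ℝ => fun x => w x - E := by fun_prop
  have hi := integrable_EEp (ρ.map fun t => t - E) hF he γ
  unfold EU
  rw [← h1] at hi ⊢
  exact integral_map hm2.aemeasurable hi.aestronglyMeasurable

theorem map_sub_bounded {ρ : Measure ℝ} {B : ℝ} (hB : ρ (Set.Icc (-B) B)ᶜ = 0) (E : ℝ) :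
    (ρ.map fun t => t - E) (Set.Icc (-(B + |E|)) (B + |E|))ᶜ = 0 := by
  have hm : Measurable fun t : ℝ => t - E := by fun_prop
  rw [Measure.map_apply hm measurableSet_Icc.compl]
  refine measure_mono_null ?_ hB
  intro t ht h
  apply ht
  have h1 := neg_abs_le E
  have h2 := le_abs_self E
  exact ⟨by linarith [h.1], by linarith [h.2]⟩

end P365L.Op
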