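import Vale.Agent.P365.Open.Defs
import Vale.Agent.P365.Open.OneSite

set_option linter.all false

/-!
# P365, open conductance: energy bound, transmission and the sweep, for expectations in a profile.
-/

namespace P365O

open MeasureTheory ProbabilityTheory Complex P365L P365L.Poi P365F
open scoped ENNReal NNReal Real ComplexConjugate

variable {ι : Type*} [Fintype ι] [DecidableEq ι] {A : Matrix ι ι ℝ} {W : ι → ℂ}

/-! ### pointwise bounds -/

theorem mm_le_inv (hA : A.IsSymm) (hW : ∀ x, (W x).im < 0) (x : ι) :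
    mm A W x ≤ 1 / (-(W x).im) := by
  have he : 0 < -(W x).im := by linarith [hW x]
  have hm := mm_pos hA hW x
  have h1 := e_mul_KK_le hA hW x x
  have h2 : mm A W x ^ 2 ≤ KK A W x x := by
    unfold mm KK
    have h3 : |(Gr A W x x).im| ≤ ‖Gr A W x x‖ := Complex.abs_im_le_norm _
    rw [← sq_abs]
    exact pow_le_pow_left₀ (abs_nonneg _) h3 2
  rw [le_div_iff₀ he]
  have h3 : (-(W x).im) * mm A W x ^ 2 ≤ mm A W x :=
    (mul_le_mul_of_nonneg_left h2 he.le).trans h1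
  have h4 : (mm A W x * (-(W x).im)) * mm A W x ≤ 1 * mm A W x := by
    calc (mm A W x * (-(W x).im)) * mm A W x = (-(W x).im) * mm A W x ^ 2 := by ring
      _ ≤ mm A W x := h3
      _ = 1 * mm A W x := (one_mul _).symm
  exact le_of_mul_le_mul_right h4 hm

theorem ee_KK_le_one (hA : A.IsSymm) (hW : ∀ x, (W x).im < 0) (x y : ι) :
    (-(W x).im) * (-(W y).im) * KK A W x y ≤ 1 := by
  have he : 0 < -(W x).im := by linarith [hW x]
  have h1 := e_mul_KK_le hA hW x y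
  have h2 := mm_le_inv hA hW x
  rw [le_div_iff₀ he] at h2
  calc (-(W x).im) * (-(W y).im) * KK A W x y = (-(W x).im) * ((-(W y).im) * KK A W x y) := by ring
    _ ≤ (-(W x).im) * mm A W x := mul_le_mul_of_nonneg_left h1 he.le
    _ ≤ 1 := by linarith

theorem ee_KK_nonneg (hW : ∀ x, (W x).im < 0) (x y : ι) :
    0 ≤ (-(W x).im) * (-(W y).im) * KK A W x y :=
  mul_nonneg (mul_nonneg (by linarith [hW x]) (by linarith [hW y])) (KK_nonneg _ _)

/-! ### measurability and admissibility -/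

theorem measurable_Gr_id (x y : ι) : Measurable fun W : ι → ℂ => Gr A W x y :=
  measurable_Gr (fun W : ι → ℂ => W) (fun z => measurable_pi_apply z) x y

theorem measurable_KK (x y : ι) : Measurable fun W : ι → ℂ => KK A W x y :=
  ((measurable_Gr_id x y).norm).pow_const 2

theorem measurable_mm (x : ι) : Measurable fun W : ι → ℂ => mm A W x :=
  Complex.measurable_im.comp (measurable_Gr_id x x)

omit [Fintype ι] [DecidableEq ι] in
theorem measurable_ab (x : ι) : Measurable fun W : ι → ℂ => -(W x).im :=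
  (Complex.measurable_im.comp (measurable_pi_apply x)).neg

theorem neg_of_le {η : ℝ} (hη : 0 < η) {W : ι → ℂ} (hW : ∀ x, (W x).im ≤ -η) (x : ι) :
    (W x).im < 0 := (hW x).trans_lt (neg_lt_zero.2 hη)

theorem KK_le (hA : A.IsSymm) {η : ℝ} (hη : 0 < η) {W : ι → ℂ} (hW : ∀ x, (W x).im ≤ -η)
    (x y : ι) : KK A W x y ≤ (1 / η) ^ 2 :=
  pow_le_pow_left₀ (norm_nonneg _) (norm_Gr_le hA hη hW x y) 2

theorem Adm_KK (hA : A.IsSymm) (x y : ι) : Adm (fun W => KK A W x y) where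
  meas := measurable_KK x y
  bdd := fun η hη => ⟨(1 / η) ^ 2, fun W hW => by
    rw [abs_of_nonneg (KK_nonneg _ _)]
    exact KK_le hA hη hW x y⟩

theorem Adm_mm (hA : A.IsSymm) (x : ι) : Adm (fun W => mm A W x) where
  meas := measurable_mm x
  bdd := fun η hη => ⟨1 / η, fun W hW =>
    (Complex.abs_im_le_norm _).trans (norm_Gr_le hA hη hW x x)⟩

omit [Fintype ι] [DecidableEq ι] in
theorem Adm_const (r : ℝ) : Adm (ι := ι) (fun _ => r) where
  meas := measurable_const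
  bdd := fun _ _ => ⟨|r|, fun _ _ => le_rfl⟩

omit [Fintype ι] [DecidableEq ι] in
theorem adm_add {F G : (ι → ℂ) → ℝ} (hF : Adm F) (hG : Adm G) : Adm (fun W => F W + G W) where
  meas := hF.meas.add hG.meas
  bdd := fun η hη => by
    obtain ⟨C, hC⟩ := hF.bdd η hη
    obtain ⟨D, hD⟩ := hG.bdd η hη
    exact ⟨C + D, fun W hW => (abs_add_le _ _).trans (add_le_add (hC W hW) (hD W hW))⟩

omit [Fintype ι] [DecidableEq ι] in
theorem adm_neg {F : (ι → ℂ) → ℝ} (hF : Adm F) : Adm (fun W => -F W) where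
  meas := hF.meas.neg
  bdd := fun η hη => by
    obtain ⟨C, hC⟩ := hF.bdd η hη
    exact ⟨C, fun W hW => by rw [abs_neg]; exact hC W hW⟩

omit [Fintype ι] [DecidableEq ι] in
theorem adm_mul {F G : (ι → ℂ) → ℝ} (hF : Adm F) (hG : Adm G) : Adm (fun W => F W * G W) where
  meas := hF.meas.mul hG.meas
  bdd := fun η hη => by
    obtain ⟨C, hC⟩ := hF.bdd η hη
    obtain ⟨D, hD⟩ := hG.bdd η hη
    refine ⟨C * D, fun W hW => ?_⟩
    rw [abs_mul]
    exact mul_le_mul (hC W hW) (hD W hW) (abs_nonneg _) ((abs_nonneg _).trans (hC W hW))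

omit [Fintype ι] [DecidableEq ι] in
theorem adm_cmul {F : (ι → ℂ) → ℝ} (hF : Adm F) (r : ℝ) : Adm (fun W => r * F W) :=
  adm_mul (Adm_const r) hF

omit [Fintype ι] [DecidableEq ι] in
theorem adm_pow {F : (ι → ℂ) → ℝ} (hF : Adm F) (k : ℕ) : Adm (fun W => F W ^ k) := by
  induction k with
  | zero => simpa using (Adm_const (ι := ι) 1)
  | succ k ih => simpa only [pow_succ] using adm_mul ih hF

omit [Fintype ι] [DecidableEq ι] in
theorem Adm_sum {κ : Type*} (S : Finset κ) {F : κ → (ι → ℂ) → ℝ} (hF : ∀ i ∈ S, Adm (F i)) :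
    Adm (fun W => ∑ i ∈ S, F i W) := by
  classical
  induction S using Finset.induction_on with
  | empty => simpa using (Adm_const (ι := ι) 0)
  | insert i S hi ih =>
    simp only [Finset.sum_insert hi]
    exact adm_add (hF i (Finset.mem_insert_self _ _)) (ih fun j hj => hF j (Finset.mem_insert_of_mem hj))

theorem Adm_Kw (hA : A.IsSymm) (w : ι → ℝ) (S : Finset ι) (z : ι) :
    Adm (fun W => Kw A W w S z) :=
  Adm_sum S fun a _ => adm_cmul (Adm_KK hA z a) (w a)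

theorem Adm_eeKK (hA : A.IsSymm) (x y : ι) :
    Adm (fun W => (-(W x).im) * (-(W y).im) * KK A W x y) where
  meas := ((measurable_ab x).mul (measurable_ab y)).mul (measurable_KK x y)
  bdd := fun η hη => ⟨1, fun W hW => by
    rw [abs_of_nonneg (ee_KK_nonneg (neg_of_le hη hW) x y)]
    exact ee_KK_le_one hA (neg_of_le hη hW) x y⟩

theorem Adm_En (hA : A.IsSymm) (f : ι → ℝ) : Adm (fun W => En A W f) := by
  unfold En
  refine Adm_sum _ fun x _ => Adm_sum _ fun y _ => ?_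
  exact adm_mul (Adm_eeKK hA x y) (Adm_const _)

theorem Adm_Trm (hA : A.IsSymm) (S Y : Finset ι) : Adm (fun W => Trm A W S Y) := by
  unfold Trm
  exact Adm_sum _ fun x _ => Adm_sum _ fun y _ => Adm_eeKK hA x y

theorem Adm_KS (hA : A.IsSymm) (S : Finset ι) (z : ι) : Adm (fun W => KS A W S z) where
  meas := by
    unfold KS
    exact Finset.measurable_sum _ fun a _ => (measurable_ab a).mul (measurable_KK z a)
  bdd := fun η hη => ⟨1 / η, fun W hW => by
    rw [abs_of_nonneg (KS_nonneg (neg_of_le hη hW) S z)]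
    exact (KS_le_mm hA (neg_of_le hη hW) S z).trans ((le_abs_self _).trans
      ((Complex.abs_im_le_norm _).trans (norm_Gr_le hA hη hW z z)))⟩

/-- `m_z P_z(S)² = K_zS²/m_z` -/
theorem Adm_KS_sq_div (hA : A.IsSymm) (S : Finset ι) (z : ι) :
    Adm (fun W => KS A W S z ^ 2 / mm A W z) where
  meas := ((Adm_KS hA S z).meas.pow_const 2).div (measurable_mm z)
  bdd := fun η hη => ⟨1 / η, fun W hW => by
    have hW' := neg_of_le hη hW
    have hm := mm_pos hA hW' z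
    rw [abs_of_nonneg (by positivity), div_le_iff₀ hm]
    have h1 := KS_le_mm hA hW' S z
    have h2 := KS_nonneg (A := A) hW' S z
    have h3 : mm A W z ≤ 1 / η := (le_abs_self _).trans
      ((Complex.abs_im_le_norm _).trans (norm_Gr_le hA hη hW z z))
    calc KS A W S z ^ 2 ≤ mm A W z ^ 2 := pow_le_pow_left₀ h2 h1 2
      _ = mm A W z * mm A W z := sq _
      _ ≤ 1 / η * mm A W z := mul_le_mul_of_nonneg_right h3 hm.le⟩

/-! ### expectations -/

theorem EEp_congr {γ : ℝ} {e : ι → ℝ} {U : ι → ℝ} {F G : (ι → ℂ) → ℝ}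
    (h : ∀ W : ι → ℂ, (∀ x, (W x).im = -e x) → F W = G W) : EEp γ e U F = EEp γ e U G := by
  unfold EEp
  refine integral_congr_ae (Filter.Eventually.of_forall fun c => ?_)
  exact h _ fun x => Wp_im γ e U c x

theorem EEp_le {γ : ℝ} {e : ι → ℝ} (he : ∀ x, 0 < e x) {U : ι → ℝ} {F G : (ι → ℂ) → ℝ}
    (hF : Adm F) (hG : Adm G) (h : ∀ W : ι → ℂ, (∀ x, (W x).im = -e x) → F W ≤ G W) :
    EEp γ e U F ≤ EEp γ e U G :=
  integral_mono (hF.integrable he γ U) (hG.integrable he γ U) fun c =>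
    h _ fun x => Wp_im γ e U c x

theorem EEp_nonneg {γ : ℝ} {e : ι → ℝ} {U : ι → ℝ} {F : (ι → ℂ) → ℝ}
    (h : ∀ W : ι → ℂ, (∀ x, (W x).im = -e x) → 0 ≤ F W) : 0 ≤ EEp γ e U F :=
  integral_nonneg fun c => h _ fun x => Wp_im γ e U c x

theorem EEp_const {γ : ℝ} {e : ι → ℝ} {U : ι → ℝ} (r : ℝ) : EEp γ e U (fun _ => r) = r := by
  unfold EEp
  simp

theorem EEp_add {γ : ℝ} {e : ι → ℝ} (he : ∀ x, 0 < e x) {U : ι → ℝ} {F G : (ι → ℂ) → ℝ}
    (hF : Adm F) (hG : Adm G) :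
    EEp γ e U (fun W => F W + G W) = EEp γ e U F + EEp γ e U G :=
  integral_add (hF.integrable he γ U) (hG.integrable he γ U)

theorem EEp_sub {γ : ℝ} {e : ι → ℝ} (he : ∀ x, 0 < e x) {U : ι → ℝ} {F G : (ι → ℂ) → ℝ}
    (hF : Adm F) (hG : Adm G) :
    EEp γ e U (fun W => F W - G W) = EEp γ e U F - EEp γ e U G :=
  integral_sub (hF.integrable he γ U) (hG.integrable he γ U)

omit [DecidableEq ι] in
theorem EEp_mul [DecidableEq ι] {γ : ℝ} {e : ι → ℝ} {U : ι → ℝ} {F : (ι → ℂ) → ℝ} (r : ℝ) :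
    EEp γ e U (fun W => r * F W) = r * EEp γ e U F :=
  integral_const_mul _ _

theorem EEp_neg {γ : ℝ} {e : ι → ℝ} {U : ι → ℝ} {F : (ι → ℂ) → ℝ} :
    EEp γ e U (fun W => -F W) = -EEp γ e U F :=
  integral_neg _

theorem EEp_sum {γ : ℝ} {e : ι → ℝ} (he : ∀ x, 0 < e x) {U : ι → ℝ} {κ : Type*} (S : Finset κ)
    {F : κ → (ι → ℂ) → ℝ} (hF : ∀ i ∈ S, Adm (F i)) :
    EEp γ e U (fun W => ∑ i ∈ S, F i W) = ∑ i ∈ S, EEp γ e U (F i) :=
  integral_finset_sum _ fun i hi => (hF i hi).integrable he γ U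

/-! ### energy -/

theorem kickUp_neg_En (hA : A.IsSymm) (f : ι → ℝ) :
    KickUp Set.univ (fun W => -En A W f) := by
  intro z _ h hh W hW hz
  show -En A W f ≤ ∫ t, -En A (kickW z h W t) f ∂nu
  rw [integral_neg]
  exact neg_le_neg (integral_En_kick_le hA hW hh hz f)

theorem En_mono (hA : A.IsSymm) {γ : ℝ} {e e' : ι → ℝ} (U : ι → ℝ) (he' : ∀ x, 0 < e' x)
    (hle : ∀ x, e' x ≤ e x) (heγ : ∀ x, e x ≤ γ) (f : ι → ℝ) :
    EEp γ e' U (fun W => En A W f) ≤ EEp γ e U (fun W => En A W f) := by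
  have h := EEp_mono (adm_neg (Adm_En hA f)) (kickUp_neg_En hA f) U he' hle heγ
    (fun x hx => absurd (Set.mem_univ x) hx)
  rw [EEp_neg, EEp_neg] at h
  linarith

/-- Hilbert–Schmidt bound for `G M` -/
theorem hs_mul_le (hA : A.IsSymm) {η : ℝ} (hη : 0 < η) (hW : ∀ x, (W x).im ≤ -η)
    (M : Matrix ι ι ℂ) :
    ∑ x, ∑ y, ‖(Gr A W * M) x y‖ ^ 2 ≤ 1 / η ^ 2 * ∑ x, ∑ y, ‖M x y‖ ^ 2 := by
  rw [Finset.sum_comm, Finset.sum_comm (f := fun x y => ‖M x y‖ ^ 2), Finset.mul_sum]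
  refine Finset.sum_le_sum fun y _ => ?_
  have h := solve_le (W := W) hA hη hW (u := fun x => (Gr A W * M) x y) (b := fun x => M x y) (by
    have h1 : Kmat A W * (Gr A W * M) = M := by
      rw [← Matrix.mul_assoc, Kmat_mul_Gr hA (neg_of_le hη hW), Matrix.one_mul]
    funext x
    exact congrFun (congrFun h1 x) y)
  exact h

/-- the energy at constant absorption -/
theorem En_const_le (hA : A.IsSymm) {γ : ℝ} (hγ : 0 < γ) (hW : ∀ x, (W x).im = -γ) (f : ι → ℝ) :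
    En A W f ≤ 1 / γ ^ 2 * ∑ x, ∑ y, A x y ^ 2 * (f x - f y) ^ 2 := by
  have hW1 : ∀ x, (W x).im ≤ -γ := fun x => (hW x).le
  have hW0 := neg_of_le hγ hW1
  have h1 : En A W f = γ ^ 2 * ∑ x, ∑ y, ‖(Gr A W * (Bm A f * Gr A W)) x y‖ ^ 2 := by
    rw [← Matrix.mul_assoc, Gr_Bm_Gr hA hW0]
    unfold En
    rw [Finset.mul_sum]
    refine Finset.sum_congr rfl fun x _ => ?_
    rw [Finset.mul_sum]
    refine Finset.sum_congr rfl fun y _ => ?_
    rw [hW, hW, neg_neg, Matrix.sub_apply, Matrix.diagonal_mul, Matrix.mul_diagonal, KK]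
    have h2 : (f x : ℂ) * Gr A W x y - Gr A W x y * (f y : ℂ) =
        ((f x - f y : ℝ) : ℂ) * Gr A W x y := by
      push_cast
      ring
    rw [h2, norm_mul, Complex.norm_real, mul_pow, Real.norm_eq_abs, sq_abs]
    ring
  have h2 := hs_mul_le hA hγ hW1 (Bm A f * Gr A W)
  have h3 : ∑ x, ∑ y, ‖(Bm A f * Gr A W) x y‖ ^ 2 ≤ 1 / γ ^ 2 * ∑ x, ∑ y, ‖Bm A f x y‖ ^ 2 := by
    have h4 := hs_mul_le hA hγ hW1 (Bm A f).transpose
    have h5 : ∀ x y, (Bm A f * Gr A W) x y = (Gr A W * (Bm A f).transpose) y x := by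
      intro x y
      rw [Matrix.mul_apply, Matrix.mul_apply]
      refine Finset.sum_congr rfl fun k _ => ?_
      rw [Matrix.transpose_apply, Gr_symm hA k y]
      ring
    have h6 : ∑ x, ∑ y, ‖(Bm A f * Gr A W) x y‖ ^ 2 =
        ∑ x, ∑ y, ‖(Gr A W * (Bm A f).transpose) x y‖ ^ 2 := by
      rw [Finset.sum_comm]
      exact Finset.sum_congr rfl fun y _ => Finset.sum_congr rfl fun x _ => by rw [h5]
    have h7 : ∑ x, ∑ y, ‖(Bm A f).transpose x y‖ ^ 2 = ∑ x, ∑ y, ‖Bm A f x y‖ ^ 2 := by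
      rw [Finset.sum_comm]
      rfl
    rw [h6]
    rw [h7] at h4
    exact h4
  have h8 : ∑ x, ∑ y, ‖Bm A f x y‖ ^ 2 = ∑ x, ∑ y, A x y ^ 2 * (f x - f y) ^ 2 := by
    refine Finset.sum_congr rfl fun x _ => Finset.sum_congr rfl fun y _ => ?_
    rw [Bm, Matrix.of_apply, Complex.norm_real, Real.norm_eq_abs, sq_abs]
    ring
  rw [h1]
  rw [h8] at h3
  have hγ2 : (0 : ℝ) < γ ^ 2 := by positivity
  calc γ ^ 2 * ∑ x, ∑ y, ‖(Gr A W * (Bm A f * Gr A W)) x y‖ ^ 2
      ≤ γ ^ 2 * (1 / γ ^ 2 * (1 / γ ^ 2 * ∑ x, ∑ y, A x y ^ 2 * (f x - f y) ^ 2)) := by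
        refine mul_le_mul_of_nonneg_left (h2.trans ?_) hγ2.le
        exact mul_le_mul_of_nonneg_left h3 (by positivity)
    _ = 1 / γ ^ 2 * ∑ x, ∑ y, A x y ^ 2 * (f x - f y) ^ 2 := by
        field_simp

/-- **(E2) energy bound in every profile** -/
theorem energy_le (hA : A.IsSymm) {γ : ℝ} (hγ : 0 < γ) {e : ι → ℝ} (U : ι → ℝ)
    (he : ∀ x, 0 < e x) (heγ : ∀ x, e x ≤ γ) (f : ι → ℝ) :
    EEp γ e U (fun W => En A W f) ≤ 1 / γ ^ 2 * ∑ x, ∑ y, A x y ^ 2 * (f x - f y) ^ 2 := by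
  refine (En_mono hA U he (e := fun _ => γ) heγ (fun _ => le_rfl) f).trans ?_
  rw [← EEp_const (γ := γ) (e := fun _ : ι => γ) (U := U)
    (1 / γ ^ 2 * ∑ x, ∑ y, A x y ^ 2 * (f x - f y) ^ 2)]
  exact EEp_le (fun _ => hγ) (Adm_En hA f) (Adm_const _) fun W hW => En_const_le hA hγ hW f

theorem two_Trm_le_En (hW : ∀ x, (W x).im < 0) {S Y : Finset ι} (hSY : Disjoint S Y) (f : ι → ℝ)
    (hS : ∀ x ∈ S, f x = 1) (hY : ∀ y ∈ Y, f y = 0) (hA : A.IsSymm) :
    2 * Trm A W S Y ≤ En A W f := by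
  unfold Trm En
  have h1 : ∑ x ∈ S, ∑ y ∈ Y, -(W x).im * -(W y).im * KK A W x y ≤
      ∑ x ∈ S, ∑ y, -(W x).im * -(W y).im * KK A W x y * (f x - f y) ^ 2 := by
    refine Finset.sum_le_sum fun x hx => ?_
    calc ∑ y ∈ Y, -(W x).im * -(W y).im * KK A W x y
        = ∑ y ∈ Y, -(W x).im * -(W y).im * KK A W x y * (f x - f y) ^ 2 := by
          refine Finset.sum_congr rfl fun y hy => ?_
          rw [hS x hx, hY y hy]
          ring
      _ ≤ _ := Finset.sum_le_sum_of_subset_of_nonneg (Finset.subset_univ Y)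
          fun y _ _ => mul_nonneg (ee_KK_nonneg hW x y) (sq_nonneg _)
  have h2 : ∑ x ∈ S, ∑ y ∈ Y, -(W x).im * -(W y).im * KK A W x y ≤
      ∑ x ∈ Y, ∑ y, -(W x).im * -(W y).im * KK A W x y * (f x - f y) ^ 2 := by
    rw [Finset.sum_comm]
    refine Finset.sum_le_sum fun y hy => ?_
    calc ∑ x ∈ S, -(W x).im * -(W y).im * KK A W x y
        = ∑ x ∈ S, -(W y).im * -(W x).im * KK A W y x * (f y - f x) ^ 2 := by
          refine Finset.sum_congr rfl fun x hx => ?_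
          rw [hS x hx, hY y hy, KK_symm hA y x]
          ring
      _ ≤ _ := Finset.sum_le_sum_of_subset_of_nonneg (Finset.subset_univ S)
          fun x _ _ => mul_nonneg (ee_KK_nonneg hW y x) (sq_nonneg _)
  have h3 : ∑ x ∈ S ∪ Y, ∑ y, -(W x).im * -(W y).im * KK A W x y * (f x - f y) ^ 2 ≤
      ∑ x, ∑ y, -(W x).im * -(W y).im * KK A W x y * (f x - f y) ^ 2 :=
    Finset.sum_le_sum_of_subset_of_nonneg (Finset.subset_univ _)
      fun x _ _ => Finset.sum_nonneg fun y _ => mul_nonneg (ee_KK_nonneg hW x y) (sq_nonneg _)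
  rw [Finset.sum_union hSY] at h3
  linarith

/-- **(E3) transmission bound in every profile** -/
theorem trm_le (hA : A.IsSymm) {γ : ℝ} (hγ : 0 < γ) {e : ι → ℝ} (U : ι → ℝ)
    (he : ∀ x, 0 < e x) (heγ : ∀ x, e x ≤ γ) {S Y : Finset ι} (hSY : Disjoint S Y) (f : ι → ℝ)
    (hS : ∀ x ∈ S, f x = 1) (hY : ∀ y ∈ Y, f y = 0) :
    EEp γ e U (fun W => Trm A W S Y) ≤
      1 / (2 * γ ^ 2) * ∑ x, ∑ y, A x y ^ 2 * (f x - f y) ^ 2 := by
  have h1 := energy_le hA hγ U he heγ f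
  have h2 : EEp γ e U (fun W => 2 * Trm A W S Y) ≤ EEp γ e U (fun W => En A W f) :=
    EEp_le he (adm_cmul (Adm_Trm hA S Y) 2) (Adm_En hA f) fun W hW =>
      two_Trm_le_En (fun x => by rw [hW]; linarith [he x]) hSY f hS hY hA
  rw [EEp_mul] at h2
  have h3 : 1 / (2 * γ ^ 2) * ∑ x, ∑ y, A x y ^ 2 * (f x - f y) ^ 2 =
      1 / 2 * (1 / γ ^ 2 * ∑ x, ∑ y, A x y ^ 2 * (f x - f y) ^ 2) := by
    field_simp
  rw [h3]
  linarith

/-! ### transmission drop -/

theorem EEp_Trm_lower (hA : A.IsSymm) {γ : ℝ} {e : ι → ℝ} (U : ι → ℝ) (he : ∀ x, 0 < e x)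
    (z : ι) (hz : e z ≤ γ) {h : ℝ} (hh : 0 < h) (hhz : h < e z) {S Y : Finset ι}
    (hSY : Disjoint S Y) (hzY : z ∈ Y) :
    EEp γ (Function.update e z (e z - h)) U (fun W => Trm A W S Y) +
        h * EEp γ e U (fun W => KS A W S z ^ 2 / mm A W z) ≤
      EEp γ e U (fun W => Trm A W S Y) := by
  rw [EEp_lower_one (Adm_Trm hA S Y) U he z hz hh hhz, ← EEp_mul]
  have i1 : Integrable (fun c => ∫ t, Trm A (kickW z h (Wp γ e U c) t) S Y ∂nu) (mu ι) :=
    integrable_kick (Adm_Trm hA S Y) U he z hz hh hhz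
  have i2 := (adm_cmul (Adm_KS_sq_div hA S z) h).integrable he γ U
  have i3 := (Adm_Trm hA S Y).integrable he γ U
  unfold EEp
  rw [← integral_add i1 i2]
  refine integral_mono (i1.add i2) i3 fun c => ?_
  have hW : ∀ x, (Wp γ e U c x).im < 0 := fun x => by rw [Wp_im]; linarith [he x]
  have h1 := integral_Trm_kick_le hA hW hh (z := z) (by rw [Wp_im]; linarith) hSY hzY
  show ∫ t, Trm A (kickW z h (Wp γ e U c) t) S Y ∂nu +
    h * (KS A (Wp γ e U c) S z ^ 2 / mm A (Wp γ e U c) z) ≤ Trm A (Wp γ e U c) S Y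
  have h2 : h * (KS A (Wp γ e U c) S z ^ 2 / mm A (Wp γ e U c) z) =
      h / mm A (Wp γ e U c) z * KS A (Wp γ e U c) S z ^ 2 := by ring
  rw [h2]
  linarith

theorem kickUp_Kw_sq (hA : A.IsSymm) {w : ι → ℝ} (hw : ∀ a, 0 ≤ w a) (S : Finset ι) (x : ι) :
    KickUp Set.univ (fun W => Kw A W w S x ^ 2) := by
  intro z _ h hh W hW hz
  exact sq_Kw_le_kick hA hW hh hz hw S x

theorem kickUp_Kw (hA : A.IsSymm) {w : ι → ℝ} (hw : ∀ a, 0 ≤ w a) (S : Finset ι) (x : ι) :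
    KickUp Set.univ (fun W => Kw A W w S x) := by
  intro z _ h hh W hW hz
  exact le_integral_Kw_kick hA hW hh hz hw S x

/-! ### profiles with two values and the sweep -/

/-- absorption `γ` on `T`, `e0` off `T` -/
noncomputable def pr (γ e0 : ℝ) (T : Finset ι) (x : ι) : ℝ := if x ∈ T then γ else e0

omit [Fintype ι] in
theorem pr_mem {γ e0 : ℝ} {T : Finset ι} {x : ι} (h : x ∈ T) : pr γ e0 T x = γ := if_pos h

omit [Fintype ι] in
theorem pr_notMem {γ e0 : ℝ} {T : Finset ι} {x : ι} (h : x ∉ T) : pr γ e0 T x = e0 := if_neg h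

omit [Fintype ι] in
theorem pr_pos {γ e0 : ℝ} (hγ : 0 < γ) (h0 : 0 < e0) (T : Finset ι) (x : ι) :
    0 < pr γ e0 T x := by
  unfold pr
  split_ifs <;> assumption

omit [Fintype ι] in
theorem pr_le {γ e0 : ℝ} (h0 : e0 ≤ γ) (T : Finset ι) (x : ι) : pr γ e0 T x ≤ γ := by
  unfold pr
  split_ifs
  · exact le_rfl
  · exact h0

omit [Fintype ι] in
theorem pr_anti {γ e0 : ℝ} (h0 : e0 ≤ γ) {T T' : Finset ι} (hT : T ⊆ T') (x : ι) :
    pr γ e0 T x ≤ pr γ e0 T' x := by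
  unfold pr
  by_cases h : x ∈ T
  · rw [if_pos h, if_pos (hT h)]
  · rw [if_neg h]
    split_ifs
    · exact h0
    · exact le_rfl

omit [Fintype ι] in
theorem pr_erase {γ e0 : ℝ} {T : Finset ι} {z : ι} (hz : z ∈ T) :
    pr γ e0 (T.erase z) = Function.update (pr γ e0 T) z (pr γ e0 T z - (γ - e0)) := by
  funext x
  by_cases hx : x = z
  · subst hx
    rw [Function.update_self, pr_mem hz, pr_notMem (Finset.notMem_erase _ _)]
    ring
  · rw [Function.update_of_ne hx]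
    unfold pr
    simp only [Finset.mem_erase, ne_eq, hx, not_false_eq_true, true_and]

/-- one step of the sweep -/
theorem sweep_step (hA : A.IsSymm) {γ e0 : ℝ} (h0 : 0 < e0) (h0γ : e0 < γ) (U : ι → ℝ)
    {X Y T : Finset ι} (hXY : Disjoint X Y) (hT : T ⊆ Y) {z : ι} (hz : z ∈ T) :
    EEp γ (pr γ e0 (X ∪ T.erase z)) U (fun W => Trm A W X Y) +
        (γ - e0) * γ ^ 3 * EEp γ (pr γ e0 (X ∪ Y)) U (fun W => (∑ a ∈ X, KK A W z a) ^ 2) ≤
      EEp γ (pr γ e0 (X ∪ T)) U (fun W => Trm A W X Y) := by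
  have hγ : 0 < γ := h0.trans h0γ
  have hzX : z ∉ X := fun h => Finset.disjoint_left.1 hXY h (hT hz)
  have hzT : z ∈ X ∪ T := Finset.mem_union_right _ hz
  have e1 : X ∪ T.erase z = (X ∪ T).erase z := by
    ext x
    simp only [Finset.mem_union, Finset.mem_erase]
    constructor
    · rintro (h | h)
      · exact ⟨fun h' => hzX (h' ▸ h), Or.inl h⟩
      · exact ⟨h.1, Or.inr h.2⟩
    · rintro ⟨h1, h2 | h2⟩
      · exact Or.inl h2
      · exact Or.inr ⟨h1, h2⟩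
  have he := pr_pos (γ := γ) (e0 := e0) hγ h0 (X ∪ T)
  have h1 := EEp_Trm_lower hA U he z (pr_le h0γ.le _ z) (h := γ - e0) (by linarith)
    (by rw [pr_mem hzT]; linarith) hXY (hT hz)
  rw [e1, pr_erase hzT]
  refine le_trans ?_ h1
  refine add_le_add le_rfl ?_
  have h2 : (γ - e0) * γ ^ 3 * EEp γ (pr γ e0 (X ∪ Y)) U (fun W => (∑ a ∈ X, KK A W z a) ^ 2) =
      (γ - e0) * (γ ^ 3 * EEp γ (pr γ e0 (X ∪ Y)) U (fun W => (∑ a ∈ X, KK A W z a) ^ 2)) := by
    ring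
  rw [h2]
  refine mul_le_mul_of_nonneg_left ?_ (by linarith)
  have hK : ∀ W : ι → ℂ, Kw A W (fun _ => 1) X z = ∑ a ∈ X, KK A W z a := by
    intro W
    unfold Kw
    simp
  have h3 : EEp γ (pr γ e0 (X ∪ Y)) U (fun W => (∑ a ∈ X, KK A W z a) ^ 2) ≤
      EEp γ (pr γ e0 (X ∪ T)) U (fun W => (∑ a ∈ X, KK A W z a) ^ 2) := by
    have h4 := EEp_mono (F := fun W => Kw A W (fun _ => 1) X z ^ 2)
      (adm_pow (Adm_Kw hA (fun _ => 1) X z) 2)
      (kickUp_Kw_sq hA (fun _ => zero_le_one) X z) U he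
      (pr_anti h0γ.le (Finset.union_subset_union_right hT)) (pr_le h0γ.le _)
      (fun x hx => absurd (Set.mem_univ x) hx)
    simpa only [hK] using h4
  refine (mul_le_mul_of_nonneg_left h3 (by positivity)).trans ?_
  rw [← EEp_mul]
  refine EEp_le he (adm_cmul (adm_pow (Adm_sum X fun a _ => Adm_KK hA z a) 2) (γ ^ 3))
    (Adm_KS_sq_div hA X z) fun W hW => ?_
  have hW0 : ∀ x, (W x).im < 0 := fun x => by rw [hW]; linarith [he x]
  have hm := mm_pos hA hW0 z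
  have hm1 := mm_le_inv hA hW0 z
  rw [hW z, neg_neg, pr_mem hzT, le_div_iff₀ hγ] at hm1
  have h5 : KS A W X z = γ * ∑ a ∈ X, KK A W z a := by
    unfold KS
    rw [Finset.mul_sum]
    refine Finset.sum_congr rfl fun a ha => ?_
    rw [hW a, neg_neg, pr_mem (Finset.mem_union_left _ ha)]
  rw [h5, le_div_iff₀ hm]
  have h6 : 0 ≤ (∑ a ∈ X, KK A W z a) ^ 2 := sq_nonneg _
  calc γ ^ 3 * (∑ a ∈ X, KK A W z a) ^ 2 * mm A W z
      = (γ ^ 2 * (∑ a ∈ X, KK A W z a) ^ 2) * (mm A W z * γ) := by ring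
    _ ≤ (γ ^ 2 * (∑ a ∈ X, KK A W z a) ^ 2) * 1 :=
        mul_le_mul_of_nonneg_left hm1 (by positivity)
    _ = (γ * ∑ a ∈ X, KK A W z a) ^ 2 := by ring

/-- **(E4) the sweep** -/
theorem sweep (hA : A.IsSymm) {γ e0 : ℝ} (h0 : 0 < e0) (h0γ : e0 ≤ γ) (U : ι → ℝ)
    {X Y Y' : Finset ι} (hXY : Disjoint X Y) (hY : Y' ⊆ Y) :
    EEp γ (pr γ e0 (X ∪ Y')) U (fun W => Trm A W X Y') +
        (γ - e0) * γ ^ 3 * EEp γ (pr γ e0 (X ∪ Y)) U
          (fun W => ∑ z ∈ Y \ Y', (∑ a ∈ X, KK A W z a) ^ 2) ≤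
      EEp γ (pr γ e0 (X ∪ Y)) U (fun W => Trm A W X Y) := by
  have hγ : 0 < γ := h0.trans_le h0γ
  have hadm : ∀ z, Adm (fun W => (∑ a ∈ X, KK A W z a) ^ 2) := fun z =>
    adm_pow (Adm_sum X fun a _ => Adm_KK hA z a) 2
  have hlast : ∀ T : Finset ι, EEp γ (pr γ e0 (X ∪ T)) U (fun W => Trm A W X Y') ≤
      EEp γ (pr γ e0 (X ∪ T)) U (fun W => Trm A W X Y) := by
    intro T
    refine EEp_le (pr_pos hγ h0 _) (Adm_Trm hA X Y') (Adm_Trm hA X Y) fun W hW => ?_
    unfold Trm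
    refine Finset.sum_le_sum fun x _ => Finset.sum_le_sum_of_subset_of_nonneg hY fun y _ _ => ?_
    exact ee_KK_nonneg (fun x => by rw [hW]; linarith [pr_pos hγ h0 (X ∪ T) x]) x y
  rcases h0γ.eq_or_lt with heq | hlt
  · subst heq
    have hp : ∀ T : Finset ι, pr e0 e0 T = fun _ => e0 := by
      intro T
      funext x
      unfold pr
      split_ifs <;> rfl
    have := hlast Y
    simp only [hp] at this ⊢
    simpa using this
  rw [EEp_sum (pr_pos hγ h0 _) _ fun z _ => hadm z]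
  have key : ∀ D : Finset ι, D ⊆ Y → EEp γ (pr γ e0 (X ∪ (Y \ D))) U (fun W => Trm A W X Y) +
        (γ - e0) * γ ^ 3 * ∑ z ∈ D, EEp γ (pr γ e0 (X ∪ Y)) U
          (fun W => (∑ a ∈ X, KK A W z a) ^ 2) ≤
      EEp γ (pr γ e0 (X ∪ Y)) U (fun W => Trm A W X Y) := by
    intro D
    induction D using Finset.induction_on with
    | empty => intro _; simp
    | insert z D hz ih =>
      intro hD
      have hD' : D ⊆ Y := fun x hx => hD (Finset.mem_insert_of_mem hx)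
      have hzY : z ∈ Y := hD (Finset.mem_insert_self _ _)
      have h1 := ih hD'
      have h2 := sweep_step hA h0 hlt U hXY (T := Y \ D) Finset.sdiff_subset (z := z)
        (Finset.mem_sdiff.2 ⟨hzY, hz⟩)
      have e1 : Y \ insert z D = (Y \ D).erase z := by
        ext x
        simp only [Finset.mem_sdiff, Finset.mem_insert, Finset.mem_erase, not_or]
        tauto
      rw [e1, Finset.sum_insert hz, mul_add]
      linarith
  have h1 := key (Y \ Y') Finset.sdiff_subset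
  rw [Finset.sdiff_sdiff_eq_self hY] at h1
  have h2 := hlast Y'
  linarith

/-- **(E6) abstract layers** -/
theorem sweep_layers (hA : A.IsSymm) {γ e0 : ℝ} (h0 : 0 < e0) (h0γ : e0 ≤ γ) (U : ι → ℝ)
    {X : Finset ι} (Y : ℕ → Finset ι) (hXY : ∀ r, Disjoint X (Y r)) (hY : ∀ r, Y (r + 1) ⊆ Y r)
    (r1 n : ℕ) :
    EEp γ (pr γ e0 (X ∪ Y (r1 + n))) U (fun W => Trm A W X (Y (r1 + n))) +
        (γ - e0) * γ ^ 3 * ∑ j ∈ Finset.range n, EEp γ (pr γ e0 (X ∪ Y (r1 + j))) U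
          (fun W => ∑ z ∈ Y (r1 + j) \ Y (r1 + j + 1), (∑ a ∈ X, KK A W z a) ^ 2) ≤
      EEp γ (pr γ e0 (X ∪ Y r1)) U (fun W => Trm A W X (Y r1)) := by
  induction n with
  | zero => simp
  | succ n ih =>
    have h1 := sweep hA h0 h0γ U (hXY (r1 + n)) (hY (r1 + n))
    rw [Finset.sum_range_succ, mul_add]
    have e1 : r1 + (n + 1) = r1 + n + 1 := by ring
    rw [e1]
    linarith

/-! ### exterior bound (pathwise) -/

/-- **(E5)** the mass beyond a layer is at most `d²/γ²` times the mass on the layer -/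
theorem exterior_le (hA : A.IsSymm) (hW : ∀ x, (W x).im < 0) {γ d : ℝ} (hγ : 0 < γ) {Y' S : Finset ι}
    {a : ι} (hYe : ∀ x ∈ Y', γ ≤ -(W x).im) (ha : a ∉ Y')
    (hS : ∀ x ∈ Y', ∀ y, y ∉ Y' → A x y ≠ 0 → y ∈ S) (hd : ∀ x, ∑ y, |A x y| ≤ d) (hSY : Disjoint S Y') :
    ∑ x ∈ Y', KK A W x a ≤ d ^ 2 / γ ^ 2 * ∑ y ∈ S, KK A W y a := by
  set u : ι → ℂ := fun x => Gr A W x a with hu
  have hu2 : ∀ x, KK A W x a = ‖u x‖ ^ 2 := fun x => rfl
  simp only [hu2]
  set N := ∑ x ∈ Y', ‖u x‖ ^ 2 with hN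
  set B := ∑ y ∈ S, ‖u y‖ ^ 2 with hB
  have hN0 : 0 ≤ N := Finset.sum_nonneg fun x _ => sq_nonneg _
  have hB0 : 0 ≤ B := Finset.sum_nonneg fun x _ => sq_nonneg _
  have hd0 : 0 ≤ d := (Finset.sum_nonneg fun y _ => abs_nonneg _).trans (hd a)
  -- the equation on `Y'`
  have heq : ∀ x ∈ Y', (∑ y, (A x y : ℂ) * u y) + W x * u x = 0 := by
    intro x hx
    have h := Kmat_mulVec_Gr (W := W) hA hW a x
    rw [Kmat_mulVec, if_neg (fun h' : x = a => ha (h' ▸ hx))] at h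
    exact h
  -- multiply with the conjugate and take imaginary parts
  have h1 : ∀ x ∈ Y', (∑ y, (A x y : ℂ) * (conj (u x) * u y)).im = (-(W x).im) * ‖u x‖ ^ 2 := by
    intro x hx
    have h2 : ∑ y, (A x y : ℂ) * (conj (u x) * u y) = -(conj (u x) * (W x * u x)) := by
      have h3 : ∑ y, (A x y : ℂ) * (conj (u x) * u y) = conj (u x) * ∑ y, (A x y : ℂ) * u y := by
        rw [Finset.mul_sum]
        exact Finset.sum_congr rfl fun y _ => by ring
      rw [h3, eq_neg_of_add_eq_zero_left (heq x hx)]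
      ring
    rw [h2, Complex.neg_im, conj_mul_W]
    ring
  have h2 : ∑ x ∈ Y', (-(W x).im) * ‖u x‖ ^ 2 =
      ∑ x ∈ Y', ∑ y, A x y * (conj (u x) * u y).im := by
    refine Finset.sum_congr rfl fun x hx => ?_
    rw [← h1 x hx, Complex.im_sum]
    exact Finset.sum_congr rfl fun y _ => by rw [Complex.im_ofReal_mul]
  -- split inside/outside
  have h3 : ∀ x, ∑ y, A x y * (conj (u x) * u y).im =
      (∑ y ∈ Y', A x y * (conj (u x) * u y).im) +
        ∑ y ∈ Finset.univ \ Y', A x y * (conj (u x) * u y).im := by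
    intro x
    rw [← Finset.sum_union Finset.disjoint_sdiff, Finset.union_sdiff_of_subset
      (Finset.subset_univ _)]
  have h4 : ∑ x ∈ Y', ∑ y ∈ Y', A x y * (conj (u x) * u y).im = 0 := by
    have h5 : ∑ x ∈ Y', ∑ y ∈ Y', A x y * (conj (u x) * u y).im =
        -∑ x ∈ Y', ∑ y ∈ Y', A x y * (conj (u x) * u y).im := by
      conv_lhs => rw [Finset.sum_comm]
      rw [← Finset.sum_neg_distrib]
      refine Finset.sum_congr rfl fun x _ => ?_
      rw [← Finset.sum_neg_distrib]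
      refine Finset.sum_congr rfl fun y _ => ?_
      rw [hA.apply x y]
      simp only [Complex.mul_im, Complex.conj_re, Complex.conj_im]
      ring
    linarith
  have h5 : γ * N ≤ ∑ x ∈ Y', ∑ y ∈ Finset.univ \ Y', A x y * (conj (u x) * u y).im := by
    have h6 : γ * N ≤ ∑ x ∈ Y', (-(W x).im) * ‖u x‖ ^ 2 := by
      rw [hN, Finset.mul_sum]
      exact Finset.sum_le_sum fun x hx => mul_le_mul_of_nonneg_right (hYe x hx) (sq_nonneg _)
    rw [h2] at h6
    simp only [h3, Finset.sum_add_distrib, h4, zero_add] at h6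
    exact h6
  have h6 : ∀ x ∈ Y', ∑ y ∈ Finset.univ \ Y', A x y * (conj (u x) * u y).im ≤
      ∑ y ∈ S, |A x y| * (‖u x‖ * ‖u y‖) := by
    intro x hx
    calc ∑ y ∈ Finset.univ \ Y', A x y * (conj (u x) * u y).im
        ≤ ∑ y ∈ Finset.univ \ Y', |A x y| * (‖u x‖ * ‖u y‖) := by
          refine Finset.sum_le_sum fun y _ => ?_
          refine (le_abs_self _).trans ?_
          rw [abs_mul]
          refine mul_le_mul_of_nonneg_left ?_ (abs_nonneg _)
          refine (Complex.abs_im_le_norm _).trans (le_of_eq ?_)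
          rw [norm_mul, RCLike.norm_conj]
      _ ≤ ∑ y ∈ S, |A x y| * (‖u x‖ * ‖u y‖) := by
          have h7 : ∑ y ∈ Finset.univ \ Y', |A x y| * (‖u x‖ * ‖u y‖) =
              ∑ y ∈ (Finset.univ \ Y').filter (fun y => A x y ≠ 0),
                |A x y| * (‖u x‖ * ‖u y‖) := by
            rw [Finset.sum_filter]
            refine Finset.sum_congr rfl fun y _ => ?_
            by_cases h : A x y = 0
            · rw [if_neg (by simpa using h), h]
              simp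
            · rw [if_pos h]
          rw [h7]
          refine Finset.sum_le_sum_of_subset_of_nonneg (fun y hy => ?_) fun y _ _ => by positivity
          rw [Finset.mem_filter, Finset.mem_sdiff] at hy
          exact hS x hx y hy.1.2 hy.2
  -- Young
  have h7 : ∑ x ∈ Y', ∑ y ∈ S, |A x y| * (‖u x‖ * ‖u y‖) ≤ d * (Real.sqrt N * Real.sqrt B) := by
    have h8 : (∑ x ∈ Y', ∑ y ∈ S, |A x y| * (‖u x‖ * ‖u y‖)) ^ 2 ≤ (d * N) * (d * B) := by
      have h9 : ∑ x ∈ Y', ∑ y ∈ S, |A x y| * (‖u x‖ * ‖u y‖) =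
          ∑ p ∈ Y' ×ˢ S, (Real.sqrt |A p.1 p.2| * ‖u p.1‖) * (Real.sqrt |A p.1 p.2| * ‖u p.2‖) := by
        rw [Finset.sum_product]
        refine Finset.sum_congr rfl fun x _ => Finset.sum_congr rfl fun y _ => ?_
        have := Real.mul_self_sqrt (abs_nonneg (A x y))
        calc |A x y| * (‖u x‖ * ‖u y‖) =
            (Real.sqrt |A x y| * Real.sqrt |A x y|) * (‖u x‖ * ‖u y‖) := by rw [this]
          _ = _ := by ring
      rw [h9]
      refine (Finset.sum_mul_sq_le_sq_mul_sq _ _ _).trans ?_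
      have h10 : ∑ p ∈ Y' ×ˢ S, (Real.sqrt |A p.1 p.2| * ‖u p.1‖) ^ 2 ≤ d * N := by
        rw [Finset.sum_product, hN, Finset.mul_sum]
        refine Finset.sum_le_sum fun x _ => ?_
        have h11 : ∑ y ∈ S, (Real.sqrt |A x y| * ‖u x‖) ^ 2 = (∑ y ∈ S, |A x y|) * ‖u x‖ ^ 2 := by
          rw [Finset.sum_mul]
          refine Finset.sum_congr rfl fun y _ => ?_
          rw [mul_pow, Real.sq_sqrt (abs_nonneg _)]
        rw [h11]
        refine mul_le_mul_of_nonneg_right ?_ (sq_nonneg _)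
        exact (Finset.sum_le_sum_of_subset_of_nonneg (Finset.subset_univ S)
          fun y _ _ => abs_nonneg _).trans (hd x)
      have h12 : ∑ p ∈ Y' ×ˢ S, (Real.sqrt |A p.1 p.2| * ‖u p.2‖) ^ 2 ≤ d * B := by
        rw [Finset.sum_product_right, hB, Finset.mul_sum]
        refine Finset.sum_le_sum fun y _ => ?_
        have h11 : ∑ x ∈ Y', (Real.sqrt |A x y| * ‖u y‖) ^ 2 = (∑ x ∈ Y', |A y x|) * ‖u y‖ ^ 2 := by
          rw [Finset.sum_mul]
          refine Finset.sum_congr rfl fun x _ => ?_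
          rw [mul_pow, Real.sq_sqrt (abs_nonneg _), hA.apply x y]
        rw [h11]
        refine mul_le_mul_of_nonneg_right ?_ (sq_nonneg _)
        exact (Finset.sum_le_sum_of_subset_of_nonneg (Finset.subset_univ Y')
          fun x _ _ => abs_nonneg _).trans (hd y)
      exact mul_le_mul h10 h12 (Finset.sum_nonneg fun _ _ => sq_nonneg _) (by positivity)
    refine le_of_sq_le_sq (h8.trans (le_of_eq ?_)) (by positivity)
    rw [mul_pow, mul_pow, Real.sq_sqrt hN0, Real.sq_sqrt hB0]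
    ring
  have h8 : γ * N ≤ d * (Real.sqrt N * Real.sqrt B) :=
    h5.trans ((Finset.sum_le_sum h6).trans h7)
  -- conclude
  rcases hN0.eq_or_lt with h9 | h9
  · rw [← h9]
    positivity
  · have h10 : γ * Real.sqrt N ≤ d * Real.sqrt B := by
      have h11 : 0 < Real.sqrt N := Real.sqrt_pos.2 h9
      have h12 : (γ * Real.sqrt N) * Real.sqrt N ≤ (d * Real.sqrt B) * Real.sqrt N := by
        calc (γ * Real.sqrt N) * Real.sqrt N = γ * (Real.sqrt N * Real.sqrt N) := by ring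
          _ = γ * N := by rw [Real.mul_self_sqrt hN0]
          _ ≤ d * (Real.sqrt N * Real.sqrt B) := h8
          _ = (d * Real.sqrt B) * Real.sqrt N := by ring
      exact le_of_mul_le_mul_right h12 h11
    have h11 : (γ * Real.sqrt N) ^ 2 ≤ (d * Real.sqrt B) ^ 2 :=
      pow_le_pow_left₀ (by positivity) h10 2
    rw [mul_pow, mul_pow, Real.sq_sqrt hN0, Real.sq_sqrt hB0] at h11
    rw [div_mul_eq_mul_div, le_div_iff₀ (by positivity)]
    linarith

end P365O
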