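import Vale.Agent.P365.L1.Alg
import Mathlib.Analysis.SpecialFunctions.Log.PosLog

/-!
# P365, block OPEN: pointwise inequalities for the assembly of the open conductance bound.
-/

set_option linter.all false

namespace P365L.Op

open Matrix Complex
open scoped ComplexConjugate

variable {ι : Type*} [Fintype ι] [DecidableEq ι]

/-- `log⁺ (1/|G_zz|)` -/
noncomputable def lgp (A : Matrix ι ι ℝ) (W : ι → ℂ) (z : ι) : ℝ :=
  Real.posLog (‖Gr A W z z‖⁻¹)

/-- `K_zS = ∑_{a ∈ S} K_za` -/
noncomputable def KS (A : Matrix ι ι ℝ) (W : ι → ℂ) (S : Finset ι) (z : ι) : ℝ :=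
  ∑ a ∈ S, KK A W z a

variable {A : Matrix ι ι ℝ} {W : ι → ℂ}

theorem lgp_nonneg (z : ι) : 0 ≤ lgp A W z := Real.posLog_nonneg

theorem KS_nonneg (S : Finset ι) (z : ι) : 0 ≤ KS A W S z :=
  Finset.sum_nonneg fun _ _ => KK_nonneg _ _

theorem KK_self_pos (hA : A.IsSymm) (hW : ∀ x, (W x).im < 0) (z : ι) : 0 < KK A W z z :=
  pow_pos (norm_pos_iff.2 (Gr_self_ne_zero hA hW z)) 2

theorem mm_le_norm (z : ι) : mm A W z ≤ ‖Gr A W z z‖ :=
  (le_abs_self _).trans (Complex.abs_im_le_norm _)

theorem neg_log_norm_le (z : ι) : -Real.log ‖Gr A W z z‖ ≤ lgp A W z := by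
  rw [← Real.log_inv]
  exact le_max_right _ _

/-- splitting of `m_z` over `S` and its complement -/
theorem mm_split (hA : A.IsSymm) (hW : ∀ x, (W x).im < 0) {S : Finset ι} {g b : ℝ}
    (hS : ∀ x ∈ S, -(W x).im = g) (hSc : ∀ x ∉ S, -(W x).im = b) (z : ι) :
    mm A W z = g * KS A W S z + b * KS A W Sᶜ z := by
  rw [mm_eq hA hW, ← Finset.sum_add_sum_compl S, KS, KS, Finset.mul_sum, Finset.mul_sum]
  congr 1
  · exact Finset.sum_congr rfl fun x hx => by rw [hS x hx]
  · exact Finset.sum_congr rfl fun x hx => by rw [hSc x (Finset.mem_compl.1 hx)]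

/-- **P2**: the loss when the absorption on `S` is lowered to `b` -/
theorem loss_le (hA : A.IsSymm) (hW : ∀ x, (W x).im < 0) {S : Finset ι} {g b : ℝ} (hg : 0 ≤ g)
    (hb : 0 < b) (hb1 : b ≤ 1)
    (hS : ∀ x ∈ S, -(W x).im = g) (hSc : ∀ x ∉ S, -(W x).im = b) {z : ι} (hz : z ∉ S) :
    Real.log (mm A W z) ≤ Real.log (b * KS A W Sᶜ z) +
      (Real.log 2 + 2 * (g * KS A W S z / mm A W z) * Real.log (1 / b) + lgp A W z) := by
  have hm := mm_pos hA hW z
  have hsp := mm_split hA hW hS hSc z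
  have hX : 0 ≤ g * KS A W S z := mul_nonneg hg (KS_nonneg _ _)
  have hK := KK_self_pos hA hW z
  have hBK : b * KK A W z z ≤ b * KS A W Sᶜ z := by
    refine mul_le_mul_of_nonneg_left ?_ hb.le
    exact Finset.single_le_sum (f := fun y => KK A W z y) (fun y _ => KK_nonneg _ _)
      (Finset.mem_compl.2 hz)
  have hB : 0 < b * KS A W Sᶜ z := (mul_pos hb hK).trans_le hBK
  have hlb : 0 ≤ Real.log (1 / b) := Real.log_nonneg (by rw [le_div_iff₀ hb]; linarith)
  have hl2 : 0 ≤ Real.log 2 := Real.log_nonneg one_le_two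
  have hR0 : 0 ≤ g * KS A W S z / mm A W z := div_nonneg hX hm.le
  have hlp := lgp_nonneg (A := A) (W := W) z
  rcases le_total (g * KS A W S z / mm A W z) (1 / 2) with h | h
  · have h1 : mm A W z ≤ 2 * (b * KS A W Sᶜ z) := by
      rw [div_le_iff₀ hm] at h
      linarith
    have h2 : Real.log (mm A W z) ≤ Real.log 2 + Real.log (b * KS A W Sᶜ z) := by
      rw [← Real.log_mul two_ne_zero hB.ne']
      exact Real.log_le_log hm h1
    have h3 : 0 ≤ 2 * (g * KS A W S z / mm A W z) * Real.log (1 / b) := by positivity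
    linarith
  · have h1 : Real.log (mm A W z) ≤ Real.log ‖Gr A W z z‖ :=
      Real.log_le_log hm (mm_le_norm z)
    have h2 : Real.log (b * KK A W z z) ≤ Real.log (b * KS A W Sᶜ z) :=
      Real.log_le_log (mul_pos hb hK) hBK
    have h3 : Real.log (b * KK A W z z) = Real.log b + 2 * Real.log ‖Gr A W z z‖ := by
      rw [Real.log_mul hb.ne' hK.ne', KK, Real.log_pow]
      push_cast
      ring
    have h4 : Real.log (1 / b) = -Real.log b := by rw [one_div, Real.log_inv]
    have h5 : Real.log (1 / b) ≤ 2 * (g * KS A W S z / mm A W z) * Real.log (1 / b) := by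
      nlinarith
    have h6 := neg_log_norm_le (A := A) (W := W) z
    linarith

/-- **P3** -/
theorem log_sum_le (hA : A.IsSymm) (hW : ∀ x, (W x).im < 0) {S : Finset ι} {g b : ℝ}
    (hg : 0 ≤ g) (hb : 0 < b) (hS : ∀ x ∈ S, -(W x).im = g) {z : ι} (hz : z ∉ S)
    (hbz : -(W z).im = b) :
    Real.log (b * KK A W z z + g * KS A W S z) ≤ Real.log (mm A W z) := by
  have hK := KK_self_pos hA hW z
  refine Real.log_le_log (add_pos_of_pos_of_nonneg (mul_pos hb hK)
    (mul_nonneg hg (KS_nonneg _ _))) ?_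
  rw [mm_eq hA hW, KS, Finset.mul_sum]
  have h1 : ∑ y ∈ insert z S, (-(W y).im) * KK A W z y ≤ ∑ y, (-(W y).im) * KK A W z y :=
    Finset.sum_le_sum_of_subset_of_nonneg (Finset.subset_univ _) fun y _ _ =>
      mul_nonneg (by linarith [hW y]) (KK_nonneg _ _)
  rw [Finset.sum_insert hz, hbz] at h1
  refine le_trans (le_of_eq ?_) h1
  congr 1
  exact Finset.sum_congr rfl fun x hx => by rw [hS x hx]

/-- **P4**: pointwise Paley–Zygmund -/
theorem log_ge (hA : A.IsSymm) (hW : ∀ x, (W x).im < 0) (z : ι) {b t lam X : ℝ} (hb : 0 < b)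
    (hbt : b ≤ t) (hlam : 0 < lam) (hX : 0 ≤ X) :
    Real.log b + (2 * Real.log (t / b) / lam) * (X - t - X ^ 2 / (2 * lam)) - 2 * lgp A W z ≤
      Real.log (b * KK A W z z + X) := by
  have ht : 0 < t := hb.trans_le hbt
  have hK := KK_self_pos hA hW z
  have hL : 0 ≤ Real.log (t / b) := Real.log_nonneg (by rw [le_div_iff₀ hb]; linarith)
  have hLe : Real.log (t / b) = Real.log t - Real.log b := Real.log_div ht.ne' hb.ne'
  have hlp := lgp_nonneg (A := A) (W := W) z
  have hq : X ^ 2 / (2 * lam) = (X ^ 2 / lam) / 2 := by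
    field_simp
  rcases le_total t X with h | h
  · -- X ≥ t
    have h1 : Real.log t ≤ Real.log (b * KK A W z z + X) :=
      Real.log_le_log ht (by nlinarith [mul_pos hb hK])
    have h2 : (2 / lam) * (X - t - X ^ 2 / (2 * lam)) ≤ 1 := by
      have h3 : X - X ^ 2 / (2 * lam) ≤ lam / 2 := by
        rw [sub_le_iff_le_add, ← sub_le_iff_le_add']
        rw [le_div_iff₀ (by positivity)]
        nlinarith [sq_nonneg (X - lam)]
      have h4 : (2 / lam) * (lam / 2) = 1 := by field_simp
      calc (2 / lam) * (X - t - X ^ 2 / (2 * lam)) ≤ (2 / lam) * (lam / 2) := by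
            refine mul_le_mul_of_nonneg_left ?_ (by positivity)
            linarith
        _ = 1 := h4
    have h5 : (2 * Real.log (t / b) / lam) * (X - t - X ^ 2 / (2 * lam)) ≤ Real.log (t / b) := by
      have : (2 * Real.log (t / b) / lam) * (X - t - X ^ 2 / (2 * lam)) =
          Real.log (t / b) * ((2 / lam) * (X - t - X ^ 2 / (2 * lam))) := by ring
      rw [this]
      exact mul_le_of_le_one_right hL h2
    linarith
  · have h1 : Real.log (b * KK A W z z) ≤ Real.log (b * KK A W z z + X) :=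
      Real.log_le_log (mul_pos hb hK) (by linarith)
    have h3 : Real.log (b * KK A W z z) = Real.log b + 2 * Real.log ‖Gr A W z z‖ := by
      rw [Real.log_mul hb.ne' hK.ne', KK, Real.log_pow]
      push_cast
      ring
    have h6 := neg_log_norm_le (A := A) (W := W) z
    have h7 : (2 * Real.log (t / b) / lam) * (X - t - X ^ 2 / (2 * lam)) ≤ 0 := by
      refine mul_nonpos_of_nonneg_of_nonpos (by positivity) ?_
      have : 0 ≤ X ^ 2 / (2 * lam) := by positivity
      linarith
    linarith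

/-! ### truncated logarithm `log (b + ·)` -/

/-- **P2**, truncated: the loss when the absorption on `S` is lowered to `b` -/
theorem loss_le' (hA : A.IsSymm) (hW : ∀ x, (W x).im < 0) {S : Finset ι} {g b : ℝ} (hg : 0 ≤ g)
    (hb : 0 < b) (hb1 : b ≤ 1)
    (hS : ∀ x ∈ S, -(W x).im = g) (hSc : ∀ x ∉ S, -(W x).im = b) (z : ι)
    (hm1 : mm A W z ≤ 1 / b) :
    Real.log (b + mm A W z) ≤ Real.log (b + b * KS A W Sᶜ z) +
      (Real.log 2 + 2 * (g * KS A W S z / mm A W z) * (Real.log 2 + 2 * Real.log (1 / b))) := by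
  have hm := mm_pos hA hW z
  have hsp := mm_split hA hW hS hSc z
  have hX : 0 ≤ g * KS A W S z := mul_nonneg hg (KS_nonneg _ _)
  have hB : 0 ≤ b * KS A W Sᶜ z := mul_nonneg hb.le (KS_nonneg _ _)
  have hlb : 0 ≤ Real.log (1 / b) := Real.log_nonneg (by rw [le_div_iff₀ hb]; linarith)
  have hl2 : 0 ≤ Real.log 2 := Real.log_nonneg one_le_two
  have hR0 : 0 ≤ g * KS A W S z / mm A W z := div_nonneg hX hm.le
  rcases le_total (g * KS A W S z / mm A W z) (1 / 2) with h | h
  · have h1 : b + mm A W z ≤ 2 * (b + b * KS A W Sᶜ z) := by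
      rw [div_le_iff₀ hm] at h
      linarith
    have h2 : Real.log (b + mm A W z) ≤ Real.log 2 + Real.log (b + b * KS A W Sᶜ z) := by
      rw [← Real.log_mul two_ne_zero (by positivity)]
      exact Real.log_le_log (by positivity) h1
    have h3 : 0 ≤ 2 * (g * KS A W S z / mm A W z) * (Real.log 2 + 2 * Real.log (1 / b)) := by
      positivity
    linarith
  · have h1 : b + mm A W z ≤ 2 * (1 / b) := by
      have : b ≤ 1 / b := by
        rw [le_div_iff₀ hb]
        nlinarith
      linarith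
    have h2 : Real.log (b + mm A W z) ≤ Real.log 2 + Real.log (1 / b) := by
      rw [← Real.log_mul two_ne_zero (by positivity)]
      exact Real.log_le_log (by positivity) h1
    have h3 : Real.log b ≤ Real.log (b + b * KS A W Sᶜ z) :=
      Real.log_le_log hb (by linarith)
    have h4 : Real.log (1 / b) = -Real.log b := by rw [one_div, Real.log_inv]
    have h5 : Real.log 2 + 2 * Real.log (1 / b) ≤
        2 * (g * KS A W S z / mm A W z) * (Real.log 2 + 2 * Real.log (1 / b)) := by
      nlinarith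
    linarith

/-- **P3**, truncated -/
theorem log_KS_le (hA : A.IsSymm) (hW : ∀ x, (W x).im < 0) {S : Finset ι} {g b : ℝ}
    (hg : 0 ≤ g) (hb : 0 < b) (hS : ∀ x ∈ S, -(W x).im = g) (z : ι) :
    Real.log (b + g * KS A W S z) ≤ Real.log (b + mm A W z) := by
  refine Real.log_le_log (add_pos_of_pos_of_nonneg hb (mul_nonneg hg (KS_nonneg _ _))) ?_
  rw [mm_eq hA hW, KS, Finset.mul_sum]
  have h1 : ∑ y ∈ S, (-(W y).im) * KK A W z y ≤ ∑ y, (-(W y).im) * KK A W z y :=
    Finset.sum_le_sum_of_subset_of_nonneg (Finset.subset_univ _) fun y _ _ =>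
      mul_nonneg (by linarith [hW y]) (KK_nonneg _ _)
  have h2 : ∑ a ∈ S, g * KK A W z a = ∑ y ∈ S, (-(W y).im) * KK A W z y :=
    Finset.sum_congr rfl fun x hx => by rw [hS x hx]
  rw [h2]
  linarith

/-- **P4**, truncated: pointwise Paley–Zygmund -/
theorem log_ge' {b t lam X : ℝ} (hb : 0 < b) (hbt : b ≤ t) (hlam : 0 < lam) (hX : 0 ≤ X) :
    Real.log b + (2 * Real.log (t / b) / lam) * (X - t - X ^ 2 / (2 * lam)) ≤
      Real.log (b + X) := by
  have ht : 0 < t := hb.trans_le hbt
  have hL : 0 ≤ Real.log (t / b) := Real.log_nonneg (by rw [le_div_iff₀ hb]; linarith)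
  have hLe : Real.log (t / b) = Real.log t - Real.log b := Real.log_div ht.ne' hb.ne'
  rcases le_total t X with h | h
  · have h1 : Real.log t ≤ Real.log (b + X) := Real.log_le_log ht (by linarith)
    have h2 : (2 / lam) * (X - t - X ^ 2 / (2 * lam)) ≤ 1 := by
      have h3 : X - X ^ 2 / (2 * lam) ≤ lam / 2 := by
        rw [sub_le_iff_le_add, ← sub_le_iff_le_add']
        rw [le_div_iff₀ (by positivity)]
        nlinarith [sq_nonneg (X - lam)]
      have h4 : (2 / lam) * (lam / 2) = 1 := by field_simp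
      calc (2 / lam) * (X - t - X ^ 2 / (2 * lam)) ≤ (2 / lam) * (lam / 2) := by
            refine mul_le_mul_of_nonneg_left ?_ (by positivity)
            linarith
        _ = 1 := h4
    have h5 : (2 * Real.log (t / b) / lam) * (X - t - X ^ 2 / (2 * lam)) ≤ Real.log (t / b) := by
      have : (2 * Real.log (t / b) / lam) * (X - t - X ^ 2 / (2 * lam)) =
          Real.log (t / b) * ((2 / lam) * (X - t - X ^ 2 / (2 * lam))) := by ring
      rw [this]
      exact mul_le_of_le_one_right hL h2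
    linarith
  · have h1 : Real.log b ≤ Real.log (b + X) := Real.log_le_log hb (by linarith)
    have h7 : (2 * Real.log (t / b) / lam) * (X - t - X ^ 2 / (2 * lam)) ≤ 0 := by
      refine mul_nonpos_of_nonneg_of_nonpos (by positivity) ?_
      have : 0 ≤ X ^ 2 / (2 * lam) := by positivity
      linarith
    linarith

end P365L.Op
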