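import Vale.Agent.P365.Open.Defs
import Vale.Agent.P365.Open.OneSite
import Vale.Agent.P365.Open.Ptw
import Vale.Agent.P365.L1.Alg2

/-!
# P365, block OPEN: moments.

* `EEp_mm_eq`: `E m_z` does not depend on the absorption profile;
* `lgp_bound`: `E log⁺ (1/|G_zz|) ≤ 4 log 2 · C₀`;
* `prob_bound`: `E P_z(S) ≤ (X²/γ) E (γ K_zS) + 2 C₀ / X` for `z ∉ S` (weak type bound).
-/

set_option linter.all false

namespace P365L.Op

open MeasureTheory ProbabilityTheory Complex P365L P365L.Poi P365F P365O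
open scoped ENNReal NNReal Real ComplexConjugate

variable {ι : Type*} [Fintype ι] [DecidableEq ι] {A : Matrix ι ι ℝ} {W : ι → ℂ}

/-- extra absorption `X` at the site `z` -/
noncomputable def addz (X : ℝ) (z : ι) (W : ι → ℂ) : ι → ℂ :=
  Function.update W z (W z - X * I)

/-- `m_z` with extra absorption `X` at `z` -/
noncomputable def mt (A : Matrix ι ι ℝ) (X : ℝ) (z : ι) (W : ι → ℂ) : ℝ := mm A (addz X z W) z

omit [Fintype ι] in
theorem addz_im {X : ℝ} (hX : 0 ≤ X) (z : ι) (W : ι → ℂ) (x : ι) :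
    (addz X z W x).im ≤ (W x).im := by
  unfold addz
  by_cases hx : x = z
  · subst hx
    rw [Function.update_self]
    simp
    exact hX
  · rw [Function.update_of_ne hx]

omit [Fintype ι] in
theorem addz_neg {X : ℝ} (hX : 0 ≤ X) (hW : ∀ x, (W x).im < 0) (z x : ι) :
    (addz X z W x).im < 0 := (addz_im hX z W x).trans_lt (hW x)

omit [Fintype ι] in
theorem addz_kick (X : ℝ) (z y : ι) (h : ℝ) (W : ι → ℂ) (t : ℝ) :
    addz X z (kickW y h W t) = kickW y h (addz X z W) t := by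
  unfold addz kickW
  by_cases hzy : z = y
  · subst hzy
    simp only [Function.update_self, Function.update_idem]
    congr 1
    ring
  · rw [Function.update_of_ne hzy, Function.update_of_ne (Ne.symm hzy),
      Function.update_comm hzy]

theorem integral_Gr_kick (hA : A.IsSymm) (hW : ∀ x, (W x).im < 0) {z : ι} {h : ℝ}
    (hh : 0 < h) (hz : h < -(W z).im) (x y : ι) :
    ∫ t, Gr A (kickW z h W t) x y ∂nu = Gr A W x y := by
  simp only [Gr_kick hA hW hz]
  have hg := hg_of hA hW hz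
  rw [integral_sub (integrable_const _) ((integrable_tz hh hg).const_mul _), integral_const_mul,
    integral_tz hh hg]
  simp

theorem integrable_Gr_kick (hA : A.IsSymm) (hW : ∀ x, (W x).im < 0) {z : ι} {h : ℝ}
    (hh : 0 < h) (hz : h < -(W z).im) (x y : ι) :
    Integrable (fun t => Gr A (kickW z h W t) x y) nu := by
  simp only [Gr_kick hA hW hz]
  have hg := hg_of hA hW hz
  exact (integrable_const _).sub ((integrable_tz hh hg).const_mul _)

/-- `m_x` is harmonic -/
theorem integral_mm_kick (hA : A.IsSymm) (hW : ∀ x, (W x).im < 0) {z : ι} {h : ℝ}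
    (hh : 0 < h) (hz : h < -(W z).im) (x : ι) :
    ∫ t, mm A (kickW z h W t) x ∂nu = mm A W x := by
  have hi := integrable_Gr_kick hA hW hh hz x x
  have h1 : ∫ t, (Gr A (kickW z h W t) x x).im ∂nu = (∫ t, Gr A (kickW z h W t) x x ∂nu).im := by
    have := integral_im hi
    simpa using this
  unfold mm
  rw [h1, integral_Gr_kick hA hW hh hz]

theorem integral_mt_kick (hA : A.IsSymm) {X : ℝ} (hX : 0 ≤ X) (hW : ∀ x, (W x).im < 0) {y : ι}
    {h : ℝ} (hh : 0 < h) (hy : h < -(W y).im) (z : ι) :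
    ∫ t, mt A X z (kickW y h W t) ∂nu = mt A X z W := by
  unfold mt
  simp only [addz_kick]
  refine integral_mm_kick hA (addz_neg hX hW z) hh ?_ z
  have := addz_im hX z W y
  linarith

theorem measurable_mm (z : ι) : Measurable fun W : ι → ℂ => mm A W z :=
  Complex.measurable_im.comp (measurable_Gr (fun W : ι → ℂ => W) (fun x => measurable_pi_apply x) z z)

theorem measurable_KK (x y : ι) : Measurable fun W : ι → ℂ => KK A W x y :=
  ((measurable_Gr (fun W : ι → ℂ => W) (fun x => measurable_pi_apply x) x y).norm).pow_const 2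

theorem measurable_KS (S : Finset ι) (z : ι) : Measurable fun W : ι → ℂ => Op.KS A W S z := by
  unfold Op.KS
  exact Finset.measurable_sum _ fun a _ => measurable_KK z a

theorem measurable_lgp (z : ι) : Measurable fun W : ι → ℂ => lgp A W z := by
  unfold lgp Real.posLog
  exact measurable_const.max (Real.measurable_log.comp
    (measurable_Gr (fun W : ι → ℂ => W) (fun x => measurable_pi_apply x) z z).norm.inv)

omit [Fintype ι] in
theorem measurable_addz (X : ℝ) (z : ι) : Measurable fun W : ι → ℂ => addz X z W := by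
  refine measurable_pi_lambda _ fun x => ?_
  unfold addz
  by_cases hx : x = z
  · subst hx
    simp only [Function.update_self]
    exact (measurable_pi_apply x).sub_const _
  · simp only [Function.update_of_ne hx]
    exact measurable_pi_apply x

theorem measurable_mt (X : ℝ) (z : ι) : Measurable fun W : ι → ℂ => mt A X z W :=
  (measurable_mm z).comp (measurable_addz X z)

theorem adm_mm (hA : A.IsSymm) (z : ι) : Adm fun W : ι → ℂ => mm A W z where
  meas := measurable_mm z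
  bdd := fun η hη => ⟨1 / η, fun W hW => (Complex.abs_im_le_norm _).trans
    (norm_Gr_le hA hη hW z z)⟩

theorem adm_mt (hA : A.IsSymm) {X : ℝ} (hX : 0 ≤ X) (z : ι) :
    Adm fun W : ι → ℂ => mt A X z W where
  meas := measurable_mt X z
  bdd := fun η hη => ⟨1 / η, fun W hW => (Complex.abs_im_le_norm _).trans
    (norm_Gr_le hA hη (fun x => (addz_im hX z W x).trans (hW x)) z z)⟩

theorem Adm.neg {F : (ι → ℂ) → ℝ} (hF : Adm F) : Adm fun W => -F W where
  meas := hF.meas.neg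
  bdd := fun η hη => by
    obtain ⟨C, hC⟩ := hF.bdd η hη
    exact ⟨C, fun W hW => by rw [abs_neg]; exact hC W hW⟩

omit [DecidableEq ι] in
theorem EEp_neg (γ : ℝ) (e U : ι → ℝ) (F : (ι → ℂ) → ℝ) :
    EEp γ e U (fun W => -F W) = -EEp γ e U F := by
  unfold EEp
  rw [integral_neg]

/-- observables preserved in mean by every kick do not depend on the profile -/
theorem EEp_const_of {F : (ι → ℂ) → ℝ} (hF : Adm F)
    (hK : ∀ z : ι, ∀ h : ℝ, 0 < h → ∀ W : ι → ℂ, (∀ x, (W x).im < 0) → h < -(W z).im →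
      ∫ t, F (kickW z h W t) ∂nu = F W)
    {γ : ℝ} {e e' : ι → ℝ} (U : ι → ℝ) (he' : ∀ x, 0 < e' x) (hle : ∀ x, e' x ≤ e x)
    (heγ : ∀ x, e x ≤ γ) : EEp γ e' U F = EEp γ e U F := by
  have h1 : EEp γ e U F ≤ EEp γ e' U F :=
    EEp_mono hF (Z := Set.univ) (fun z _ h hh W hW hz => (hK z h hh W hW hz).ge) U he' hle heγ
      (fun x hx => absurd (Set.mem_univ x) hx)
  have h2 : EEp γ e U (fun W => -F W) ≤ EEp γ e' U (fun W => -F W) :=
    EEp_mono (Adm.neg hF) (Z := Set.univ) (fun z _ h hh W hW hz => by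
      rw [integral_neg, hK z h hh W hW hz]) U he' hle heγ
      (fun x hx => absurd (Set.mem_univ x) hx)
  rw [EEp_neg, EEp_neg] at h2
  linarith

/-- the deterministic potential `U - iγ` -/
noncomputable def W0 (γ : ℝ) (U : ι → ℝ) : ι → ℂ := fun x => (U x : ℂ) - γ * I

omit [Fintype ι] [DecidableEq ι] in
theorem W0_im (γ : ℝ) (U : ι → ℝ) (x : ι) : (W0 γ U x).im = -γ := by
  unfold W0; simp

omit [DecidableEq ι] in
theorem EEp_top (γ : ℝ) (U : ι → ℝ) (F : (ι → ℂ) → ℝ) :
    EEp γ (fun _ => γ) U F = F (W0 γ U) := by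
  have h1 : ∀ c : ι → ℝ, Wp γ (fun _ => γ) U c = W0 γ U := by
    intro c
    funext x
    unfold Wp Wc W0
    simp
  unfold EEp
  simp only [h1]
  simp

/-- `E` of a kick-invariant observable is its value at the deterministic potential -/
theorem EEp_eq_W0 {F : (ι → ℂ) → ℝ} (hF : Adm F)
    (hK : ∀ z : ι, ∀ h : ℝ, 0 < h → ∀ W : ι → ℂ, (∀ x, (W x).im < 0) → h < -(W z).im →
      ∫ t, F (kickW z h W t) ∂nu = F W)
    {γ : ℝ} {e : ι → ℝ} (U : ι → ℝ) (he : ∀ x, 0 < e x) (heγ : ∀ x, e x ≤ γ) :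
    EEp γ e U F = F (W0 γ U) := by
  rw [← EEp_top γ U F]
  exact EEp_const_of hF hK U he heγ (fun _ => le_rfl)

theorem EEp_mm_eq (hA : A.IsSymm) {γ : ℝ} {e : ι → ℝ} (U : ι → ℝ) (he : ∀ x, 0 < e x)
    (heγ : ∀ x, e x ≤ γ) (z : ι) : EEp γ e U (fun W => mm A W z) = mm A (W0 γ U) z :=
  EEp_eq_W0 (adm_mm hA z) (fun y h hh W hW hy => integral_mm_kick hA hW hh hy z) U he heγ

theorem EEp_mt_eq (hA : A.IsSymm) {X : ℝ} (hX : 0 ≤ X) {γ : ℝ} {e : ι → ℝ} (U : ι → ℝ)
    (he : ∀ x, 0 < e x) (heγ : ∀ x, e x ≤ γ) (z : ι) :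
    EEp γ e U (fun W => mt A X z W) = mt A X z (W0 γ U) :=
  EEp_eq_W0 (adm_mt hA hX z) (fun y h hh W hW hy => integral_mt_kick hA hX hW hh hy z) U he heγ

/-! ### the test function `1 - X m̃ = Re (1/(1 - i X G_zz))` -/

theorem Gr_addz (hA : A.IsSymm) (hW : ∀ x, (W x).im < 0) {X : ℝ} (hX : 0 ≤ X) (z : ι) :
    1 - I * X * Gr A W z z ≠ 0 ∧
    Gr A (addz X z W) z z = Gr A W z z / (1 - I * X * Gr A W z z) := by
  have hδ : (W z + (-(X : ℂ) * I)).im < 0 := by
    have := hW z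
    simp
    linarith
  have h := Gr_update hA hW z (-(X : ℂ) * I) hδ
  have h1 : (1 + -(X : ℂ) * I * Gr A W z z) = 1 - I * X * Gr A W z z := by ring
  rw [h1] at h
  refine ⟨h.1, ?_⟩
  have h2 : addz X z W = Function.update W z (W z + (-(X : ℂ) * I)) := by
    unfold addz
    congr 1
    ring
  rw [h2, h.2 z z, eq_div_iff h.1, sub_mul, mul_assoc (Gr A W z z * Gr A W z z),
    div_mul_cancel₀ _ h.1]
  ring

/-- `1 - X m̃_z = (1 + X m)/|1 - iXg|²` -/
theorem one_sub_mt (hA : A.IsSymm) (hW : ∀ x, (W x).im < 0) {X : ℝ} (hX : 0 ≤ X) (z : ι) :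
    1 - X * mt A X z W =
      (1 + X * mm A W z) / (1 + 2 * X * mm A W z + X ^ 2 * KK A W z z) := by
  obtain ⟨h1, h2⟩ := Gr_addz hA hW hX z
  have hm := mm_pos hA hW z
  have hd : 0 < 1 + 2 * X * mm A W z + X ^ 2 * KK A W z z := by
    have := KK_nonneg (A := A) (W := W) z z
    positivity
  rw [mt, mm, h2]
  set g := Gr A W z z with hg
  have hm' : mm A W z = g.im := rfl
  have hn : Complex.normSq (1 - I * X * g) = 1 + 2 * X * mm A W z + X ^ 2 * KK A W z z := by
    rw [hm', KK, ← hg, Complex.sq_norm, Complex.normSq_apply, Complex.normSq_apply]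
    simp
    ring
  have h3 : (1 - I * X * g).re = 1 + X * g.im := by simp
  have h4 : (1 - I * X * g).im = -(X * g.re) := by simp
  rw [Complex.div_im, hn, h3, h4]
  have h5 : KK A W z z = g.re * g.re + g.im * g.im := by
    rw [KK, ← hg, Complex.sq_norm, Complex.normSq_apply]
  have key : ∀ D K : ℝ, D ≠ 0 → D = 1 + 2 * X * mm A W z + X ^ 2 * K →
      K = g.re * g.re + g.im * g.im → 1 - X * (g.im * (1 + X * g.im) / D -
        g.re * -(X * g.re) / D) = (1 + X * mm A W z) / D := by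
    intro D K hD e1 e2
    rw [div_sub_div_same, mul_div_assoc', eq_div_iff hD, sub_mul, div_mul_cancel₀ _ hD, one_mul,
      e1, e2, hm']
    ring
  exact key _ _ hd.ne' rfl h5

theorem half_le_one_sub_mt (hA : A.IsSymm) (hW : ∀ x, (W x).im < 0) {X : ℝ} (hX : 0 ≤ X) (z : ι)
    (h : X * ‖Gr A W z z‖ ≤ 1) : 1 / 2 ≤ 1 - X * mt A X z W := by
  rw [one_sub_mt hA hW hX]
  have hm := mm_pos hA hW z
  have hK := KK_nonneg (A := A) (W := W) z z
  rw [div_le_div_iff₀ (by norm_num) (by positivity)]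
  have h1 : X ^ 2 * KK A W z z ≤ 1 := by
    rw [KK, ← mul_pow]
    exact pow_le_one₀ (by positivity) h
  nlinarith [mul_nonneg hX hm.le]

theorem one_sub_mt_nonneg (hA : A.IsSymm) (hW : ∀ x, (W x).im < 0) {X : ℝ} (hX : 0 ≤ X) (z : ι) :
    0 ≤ 1 - X * mt A X z W := by
  rw [one_sub_mt hA hW hX]
  have hm := mm_pos hA hW z
  have hK := KK_nonneg (A := A) (W := W) z z
  positivity

/-- upper bound by `1/(X|g|)` -/
theorem one_sub_mt_le (hA : A.IsSymm) (hW : ∀ x, (W x).im < 0) {X : ℝ} (hX : 0 < X) (z : ι) :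
    1 - X * mt A X z W ≤ 1 / (X * ‖Gr A W z z‖) := by
  rw [one_sub_mt hA hW hX.le]
  have hm := mm_pos hA hW z
  have hmn := mm_le_norm (A := A) (W := W) z
  have hg : 0 < ‖Gr A W z z‖ := hm.trans_le hmn
  have hKe : KK A W z z = ‖Gr A W z z‖ ^ 2 := rfl
  rw [hKe, div_le_div_iff₀ (by positivity) (by positivity)]
  set m := mm A W z
  set n := ‖Gr A W z z‖
  have hv : 0 ≤ X * m := by positivity
  have hu : X * m ≤ X * n := mul_le_mul_of_nonneg_left hmn hX.le
  have e1 : 1 * (1 + 2 * X * m + X ^ 2 * n ^ 2) - (1 + X * m) * (X * n) =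
      1 + 2 * (X * m) + (X * n) ^ 2 - (X * n) - (X * m) * (X * n) := by ring
  have e2 : 0 ≤ 1 + 2 * (X * m) + (X * n) ^ 2 - (X * n) - (X * m) * (X * n) := by
    generalize X * m = v at *
    generalize X * n = u at *
    nlinarith [mul_nonneg hv (sub_nonneg.2 hu), sq_nonneg (u - 1 / 2), sq_nonneg (u - v),
      mul_nonneg (sub_nonneg.2 hu) (sub_nonneg.2 hu)]
  linarith

/-- lower bound on the deterministic Green function -/
theorem Gr_self_lower (hA : A.IsSymm) {γ : ℝ} (hγ : 0 < γ) (hW : ∀ x, (W x).im ≤ -γ) (z : ι)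
    {d : ℝ} (hd : ∑ y, A z y ^ 2 ≤ d) :
    1 ≤ (2 * (d + ‖W z‖ ^ 2) / γ) * ‖Gr A W z z‖ := by
  have hW' : ∀ x, (W x).im < 0 := fun x => (hW x).trans_lt (by linarith)
  have h1 := Kmat_mulVec_Gr hA hW' z z
  rw [if_pos rfl, Kmat_mulVec] at h1
  have hA2 : ‖∑ y, (A z y : ℂ) * Gr A W y z‖ ^ 2 ≤ d * ∑ y, ‖Gr A W y z‖ ^ 2 := by
    have h2 : ‖∑ y, (A z y : ℂ) * Gr A W y z‖ ≤ ∑ y, |A z y| * ‖Gr A W y z‖ := by
      refine (norm_sum_le _ _).trans (le_of_eq (Finset.sum_congr rfl fun y _ => ?_))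
      rw [norm_mul, Complex.norm_real, Real.norm_eq_abs]
    have h3 := Finset.sum_mul_sq_le_sq_mul_sq Finset.univ (fun y => |A z y|)
      (fun y => ‖Gr A W y z‖)
    simp only [sq_abs] at h3
    calc ‖∑ y, (A z y : ℂ) * Gr A W y z‖ ^ 2 ≤ (∑ y, |A z y| * ‖Gr A W y z‖) ^ 2 :=
          pow_le_pow_left₀ (norm_nonneg _) h2 2
      _ ≤ _ := h3.trans (mul_le_mul_of_nonneg_right hd (Finset.sum_nonneg fun _ _ => sq_nonneg _))
  set S0 := ∑ y, ‖Gr A W y z‖ ^ 2 with hS0
  have hself : ‖Gr A W z z‖ ^ 2 ≤ S0 :=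
    Finset.single_le_sum (f := fun y => ‖Gr A W y z‖ ^ 2) (fun _ _ => sq_nonneg _)
      (Finset.mem_univ z)
  have hflux : γ * S0 ≤ ‖Gr A W z z‖ := by
    have h2 := Gr_flux hA hW' z
    have h3 : γ * S0 ≤ (Gr A W z z).im := by
      rw [h2, hS0, Finset.mul_sum]
      exact Finset.sum_le_sum fun y _ =>
        mul_le_mul_of_nonneg_right (by linarith [hW y]) (sq_nonneg _)
    exact h3.trans ((le_abs_self _).trans (Complex.abs_im_le_norm _))
  have hd0 : 0 ≤ d := (Finset.sum_nonneg fun y _ => sq_nonneg _).trans hd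
  have h4 : (1 : ℝ) ≤ 2 * (d + ‖W z‖ ^ 2) * S0 := by
    have h5 : (1 : ℝ) = ‖∑ y, (A z y : ℂ) * Gr A W y z + W z * Gr A W z z‖ ^ 2 := by
      rw [h1]; simp
    have h6 : ‖∑ y, (A z y : ℂ) * Gr A W y z + W z * Gr A W z z‖ ^ 2 ≤
        2 * (‖∑ y, (A z y : ℂ) * Gr A W y z‖ ^ 2 + ‖W z * Gr A W z z‖ ^ 2) := by
      have h7 := norm_add_le (∑ y, (A z y : ℂ) * Gr A W y z) (W z * Gr A W z z)
      have h8 := pow_le_pow_left₀ (norm_nonneg _) h7 2
      nlinarith [sq_nonneg (‖∑ y, (A z y : ℂ) * Gr A W y z‖ - ‖W z * Gr A W z z‖)]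
    rw [norm_mul, mul_pow] at h6
    have h9 : ‖W z‖ ^ 2 * ‖Gr A W z z‖ ^ 2 ≤ ‖W z‖ ^ 2 * S0 :=
      mul_le_mul_of_nonneg_left hself (sq_nonneg _)
    nlinarith
  have h10 : S0 ≤ ‖Gr A W z z‖ / γ := by
    rw [le_div_iff₀ hγ]; linarith
  calc (1 : ℝ) ≤ 2 * (d + ‖W z‖ ^ 2) * S0 := h4
    _ ≤ 2 * (d + ‖W z‖ ^ 2) * (‖Gr A W z z‖ / γ) :=
        mul_le_mul_of_nonneg_left h10 (by positivity)
    _ = _ := by ring

/-- expectation of the test function -/
theorem EEp_one_sub_mt_le (hA : A.IsSymm) {γ : ℝ} (hγ : 0 < γ) {e : ι → ℝ} (U : ι → ℝ)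
    (he : ∀ x, 0 < e x) (heγ : ∀ x, e x ≤ γ) (z : ι) {X C0 : ℝ} (hX : 0 < X)
    (hC0 : 1 ≤ C0 * ‖Gr A (W0 γ U) z z‖) :
    EEp γ e U (fun W => 1 - X * mt A X z W) ≤ C0 / X := by
  have h0 : ∀ x, (W0 γ U x).im < 0 := fun x => by rw [W0_im]; linarith
  have h1 : EEp γ e U (fun W => 1 - X * mt A X z W) = 1 - X * mt A X z (W0 γ U) := by
    have hi := (adm_mt hA hX.le z).integrable he γ U
    rw [← EEp_mt_eq hA hX.le U he heγ z]
    unfold EEp
    rw [integral_sub (integrable_const _) (hi.const_mul X), integral_const_mul]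
    simp
  rw [h1]
  refine (one_sub_mt_le hA h0 hX z).trans ?_
  have hg : 0 < ‖Gr A (W0 γ U) z z‖ := norm_pos_iff.2 (Gr_self_ne_zero hA h0 z)
  rw [div_le_div_iff₀ (by positivity) hX]
  nlinarith

/-! ### `E log⁺ (1/|G_zz|)` -/

theorem min_lgp_le (hA : A.IsSymm) (hW : ∀ x, (W x).im < 0) (z : ι) (N : ℕ) :
    min (lgp A W z) (N * Real.log 2) ≤
      ∑ j ∈ Finset.range N, 2 * Real.log 2 * (1 - 2 ^ j * mt A (2 ^ j) z W) := by
  have hl2 : 0 < Real.log 2 := Real.log_pos one_lt_two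
  have hnn : ∀ j : ℕ, 0 ≤ 2 * Real.log 2 * (1 - 2 ^ j * mt A (2 ^ j) z W) := fun j =>
    mul_nonneg (by positivity) (one_sub_mt_nonneg hA hW (by positivity) z)
  induction N with
  | zero => simp [lgp_nonneg]
  | succ N ih =>
    rw [Finset.sum_range_succ]
    rcases le_or_gt (lgp A W z) (N * Real.log 2) with h | h
    · rw [min_eq_left h] at ih
      exact (min_le_left _ _).trans (by linarith [hnn N])
    · rw [min_eq_right h.le] at ih
      have hg : 0 < ‖Gr A W z z‖ := norm_pos_iff.2 (Gr_self_ne_zero hA hW z)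
      have h1 : (N : ℝ) * Real.log 2 < Real.log (‖Gr A W z z‖⁻¹) := by
        unfold lgp Real.posLog at h
        rcases lt_max_iff.1 h with h2 | h2
        · have : 0 ≤ (N : ℝ) * Real.log 2 := by positivity
          linarith
        · exact h2
      have h2 : (2 : ℝ) ^ N * ‖Gr A W z z‖ ≤ 1 := by
        rw [← Real.log_pow, Real.log_lt_log_iff (by positivity) (by positivity)] at h1
        rw [inv_eq_one_div, lt_div_iff₀ hg] at h1
        exact h1.le
      have h3 := half_le_one_sub_mt hA hW (X := 2 ^ N) (by positivity) z h2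
      have h4 : Real.log 2 ≤ 2 * Real.log 2 * (1 - 2 ^ N * mt A (2 ^ N) z W) := by nlinarith
      refine (min_le_right _ _).trans ?_
      push_cast
      linarith

theorem Wp_neg {γ : ℝ} {e : ι → ℝ} (he : ∀ x, 0 < e x) (U c : ι → ℝ) (x : ι) :
    (Wp γ e U c x).im < 0 := by
  rw [Wp_im]; linarith [he x]

theorem integral_min_lgp_le (hA : A.IsSymm) {γ : ℝ} (hγ : 0 < γ) {e : ι → ℝ} (U : ι → ℝ)
    (he : ∀ x, 0 < e x) (heγ : ∀ x, e x ≤ γ) (z : ι) {C0 : ℝ}
    (hC0 : 1 ≤ C0 * ‖Gr A (W0 γ U) z z‖) (N : ℕ) :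
    ∫ c, min (lgp A (Wp γ e U c) z) (N * Real.log 2) ∂(mu ι) ≤ 4 * Real.log 2 * C0 := by
  have hl2 : 0 < Real.log 2 := Real.log_pos one_lt_two
  have hC : 0 ≤ C0 := by
    by_contra h
    push Not at h
    have := mul_nonpos_of_nonpos_of_nonneg h.le (norm_nonneg (Gr A (W0 γ U) z z))
    linarith
  have hi : ∀ j : ℕ, Integrable (fun c => 2 * Real.log 2 *
      (1 - 2 ^ j * mt A (2 ^ j) z (Wp γ e U c))) (mu ι) := fun j =>
    ((integrable_const _).sub (((adm_mt hA (by positivity) z).integrable he γ U).const_mul _)).const_mul _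
  have h1 : ∫ c, min (lgp A (Wp γ e U c) z) (N * Real.log 2) ∂(mu ι) ≤
      ∫ c, ∑ j ∈ Finset.range N, 2 * Real.log 2 *
        (1 - 2 ^ j * mt A (2 ^ j) z (Wp γ e U c)) ∂(mu ι) := by
    refine integral_mono_of_nonneg (Filter.Eventually.of_forall fun c =>
      le_min (lgp_nonneg z) (by positivity)) (integrable_finset_sum _ fun j _ => hi j)
      (Filter.Eventually.of_forall fun c => min_lgp_le hA (Wp_neg he U c) z N)
  refine h1.trans ?_
  rw [integral_finset_sum _ fun j _ => hi j]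
  have h2 : ∀ j ∈ Finset.range N, ∫ c, 2 * Real.log 2 *
        (1 - 2 ^ j * mt A (2 ^ j) z (Wp γ e U c)) ∂(mu ι) ≤ (2 * Real.log 2 * C0) * (1 / 2) ^ j := by
    intro j _
    rw [integral_const_mul]
    have := EEp_one_sub_mt_le hA hγ U he heγ z (X := 2 ^ j) (by positivity) hC0
    unfold EEp at this
    calc 2 * Real.log 2 * ∫ c, (1 - 2 ^ j * mt A (2 ^ j) z (Wp γ e U c)) ∂(mu ι)
        ≤ 2 * Real.log 2 * (C0 / 2 ^ j) := mul_le_mul_of_nonneg_left this (by positivity)
      _ = _ := by rw [one_div, inv_pow]; ring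
  refine (Finset.sum_le_sum h2).trans ?_
  rw [← Finset.mul_sum]
  have h3 : ∑ j ∈ Finset.range N, ((1 : ℝ) / 2) ^ j ≤ 2 := by
    have := geom_sum_eq (x := (1 / 2 : ℝ)) (by norm_num) N
    rw [this]
    have h4 : (0 : ℝ) ≤ (1 / 2) ^ N := by positivity
    have h5 : ((1 / 2 : ℝ) ^ N - 1) / (1 / 2 - 1) = 2 - 2 * (1 / 2) ^ N := by ring
    rw [h5]
    linarith
  calc 2 * Real.log 2 * C0 * ∑ j ∈ Finset.range N, ((1 : ℝ) / 2) ^ j
      ≤ 2 * Real.log 2 * C0 * 2 := mul_le_mul_of_nonneg_left h3 (by positivity)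
    _ = 4 * Real.log 2 * C0 := by ring

theorem lintegral_lgp_le (hA : A.IsSymm) {γ : ℝ} (hγ : 0 < γ) {e : ι → ℝ} (U : ι → ℝ)
    (he : ∀ x, 0 < e x) (heγ : ∀ x, e x ≤ γ) (z : ι) {C0 : ℝ}
    (hC0 : 1 ≤ C0 * ‖Gr A (W0 γ U) z z‖) :
    ∫⁻ c, ENNReal.ofReal (lgp A (Wp γ e U c) z) ∂(mu ι) ≤
      ENNReal.ofReal (4 * Real.log 2 * C0) := by
  have hl2 : 0 < Real.log 2 := Real.log_pos one_lt_two
  have hm : Measurable fun c => lgp A (Wp γ e U c) z :=
    (measurable_lgp z).comp (measurable_Wp γ e U)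
  have h1 : ∀ c, ENNReal.ofReal (lgp A (Wp γ e U c) z) =
      ⨆ N : ℕ, ENNReal.ofReal (min (lgp A (Wp γ e U c) z) (N * Real.log 2)) := by
    intro c
    apply le_antisymm
    · obtain ⟨N, hN⟩ := exists_nat_ge (lgp A (Wp γ e U c) z / Real.log 2)
      rw [div_le_iff₀ hl2] at hN
      refine le_iSup_of_le N ?_
      rw [min_eq_left hN]
    · exact iSup_le fun N => ENNReal.ofReal_le_ofReal (min_le_left _ _)
  simp only [h1]
  rw [lintegral_iSup]
  · refine iSup_le fun N => ?_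
    rw [← ofReal_integral_eq_lintegral_ofReal]
    · exact ENNReal.ofReal_le_ofReal (integral_min_lgp_le hA hγ U he heγ z hC0 N)
    · refine Integrable.of_bound (hm.min measurable_const).aestronglyMeasurable
        (N * Real.log 2) (Filter.Eventually.of_forall fun c => ?_)
      rw [Real.norm_of_nonneg (le_min (lgp_nonneg z) (by positivity))]
      exact min_le_right _ _
    · exact Filter.Eventually.of_forall fun c => le_min (lgp_nonneg z) (by positivity)
  · exact fun N => (hm.min measurable_const).ennreal_ofReal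
  · intro N M hNM c
    refine ENNReal.ofReal_le_ofReal (min_le_min_left _ ?_)
    have : (N : ℝ) ≤ M := by exact_mod_cast hNM
    exact mul_le_mul_of_nonneg_right this hl2.le

theorem integrable_lgp (hA : A.IsSymm) {γ : ℝ} (hγ : 0 < γ) {e : ι → ℝ} (U : ι → ℝ)
    (he : ∀ x, 0 < e x) (heγ : ∀ x, e x ≤ γ) (z : ι) :
    Integrable (fun c => lgp A (Wp γ e U c) z) (mu ι) := by
  have h0 : ∀ x, (W0 γ U x).im < 0 := fun x => by rw [W0_im]; linarith
  have hg : 0 < ‖Gr A (W0 γ U) z z‖ := norm_pos_iff.2 (Gr_self_ne_zero hA h0 z)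
  have hC0 : 1 ≤ ‖Gr A (W0 γ U) z z‖⁻¹ * ‖Gr A (W0 γ U) z z‖ := by
    rw [inv_mul_cancel₀ hg.ne']
  have hm : Measurable fun c => lgp A (Wp γ e U c) z :=
    (measurable_lgp z).comp (measurable_Wp γ e U)
  refine ⟨hm.aestronglyMeasurable, ?_⟩
  rw [hasFiniteIntegral_iff_ofReal (Filter.Eventually.of_forall fun c => lgp_nonneg z)]
  exact (lintegral_lgp_le hA hγ U he heγ z hC0).trans_lt ENNReal.ofReal_lt_top

/-- **`E log⁺(1/|G_zz|) ≤ 4 log 2 · C₀`** -/
theorem lgp_bound (hA : A.IsSymm) {γ : ℝ} (hγ : 0 < γ) {e : ι → ℝ} (U : ι → ℝ)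
    (he : ∀ x, 0 < e x) (heγ : ∀ x, e x ≤ γ) (z : ι) {C0 : ℝ}
    (hC0 : 1 ≤ C0 * ‖Gr A (W0 γ U) z z‖) :
    EEp γ e U (fun W => lgp A W z) ≤ 4 * Real.log 2 * C0 := by
  have hl2 : 0 < Real.log 2 := Real.log_pos one_lt_two
  have hC : 0 ≤ C0 := by
    by_contra h
    push Not at h
    have := mul_nonpos_of_nonpos_of_nonneg h.le (norm_nonneg (Gr A (W0 γ U) z z))
    linarith
  unfold EEp
  have h := lintegral_lgp_le hA hγ U he heγ z hC0
  rw [← ofReal_integral_eq_lintegral_ofReal (integrable_lgp hA hγ U he heγ z)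
    (Filter.Eventually.of_forall fun c => lgp_nonneg z)] at h
  exact (ENNReal.ofReal_le_ofReal_iff (by positivity)).1 h

/-! ### the weak type bound on `P_z(S)` -/

/-- `P_z(S)` with `e = γ` on `S` -/
noncomputable def RR (A : Matrix ι ι ℝ) (γ : ℝ) (S : Finset ι) (z : ι) (W : ι → ℂ) : ℝ :=
  γ * Op.KS A W S z / mm A W z

theorem measurable_RR (γ : ℝ) (S : Finset ι) (z : ι) :
    Measurable fun W : ι → ℂ => RR A γ S z W :=
  ((measurable_KS S z).const_mul γ).div (measurable_mm z)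

theorem RR_nonneg (hA : A.IsSymm) {γ : ℝ} (hγ : 0 ≤ γ) (hW : ∀ x, (W x).im < 0) (S : Finset ι)
    (z : ι) : 0 ≤ RR A γ S z W :=
  div_nonneg (mul_nonneg hγ (Op.KS_nonneg _ _)) (mm_pos hA hW z).le

theorem RR_le_one (hA : A.IsSymm) {γ : ℝ} (hW : ∀ x, (W x).im < 0) {S : Finset ι}
    (hS : ∀ a ∈ S, γ ≤ -(W a).im) (z : ι) : RR A γ S z W ≤ 1 := by
  unfold RR
  rw [div_le_one (mm_pos hA hW z), mm_eq hA hW, Op.KS, Finset.mul_sum]
  refine (Finset.sum_le_sum fun a ha =>
    mul_le_mul_of_nonneg_right (hS a ha) (KK_nonneg _ _)).trans ?_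
  exact Finset.sum_le_sum_of_subset_of_nonneg (Finset.subset_univ _) fun y _ _ =>
    mul_nonneg (by linarith [hW y]) (KK_nonneg _ _)

/-- `P_z(S)` does not change under a real shift at `z ∉ S` -/
theorem RR_shift (hA : A.IsSymm) (hW : ∀ x, (W x).im < 0) {γ : ℝ} {S : Finset ι} {z : ι}
    (hz : z ∉ S) (s : ℝ) : RR A γ S z (Function.update W z (W z + s)) = RR A γ S z W := by
  have ht : (W z + (s : ℂ)).im < 0 := by
    rw [Complex.add_im, Complex.ofReal_im, add_zero]
    exact hW z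
  obtain ⟨hne, hup⟩ := Gr_update hA hW z (s : ℂ) ht
  have hn : 0 < ‖1 + (s : ℂ) * Gr A W z z‖ ^ 2 := pow_pos (norm_pos_iff.2 hne) 2
  have h1 : ∀ a, KK A (Function.update W z (W z + s)) z a =
      KK A W z a / ‖1 + (s : ℂ) * Gr A W z z‖ ^ 2 := by
    intro a
    unfold KK
    rw [hup z a, ← div_pow, ← norm_div]
    congr 2
    rw [eq_div_iff hne, sub_mul, mul_assoc (Gr A W z z * Gr A W z a), div_mul_cancel₀ _ hne]
    ring
  have hW' : ∀ x, (Function.update W z (W z + (s : ℂ)) x).im < 0 := upd_neg hW z _ ht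
  have him : ∀ y, (Function.update W z (W z + (s : ℂ)) y).im = (W y).im := by
    intro y
    by_cases hy : y = z
    · subst hy
      rw [Function.update_self, Complex.add_im, Complex.ofReal_im, add_zero]
    · rw [Function.update_of_ne hy]
  have h2 : mm A (Function.update W z (W z + s)) z =
      mm A W z / ‖1 + (s : ℂ) * Gr A W z z‖ ^ 2 := by
    rw [mm_eq hA hW', mm_eq hA hW, Finset.sum_div]
    refine Finset.sum_congr rfl fun y _ => ?_
    rw [him, h1, mul_div_assoc]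
  have h3 : Op.KS A (Function.update W z (W z + s)) S z =
      Op.KS A W S z / ‖1 + (s : ℂ) * Gr A W z z‖ ^ 2 := by
    unfold Op.KS
    rw [Finset.sum_div]
    exact Finset.sum_congr rfl fun y _ => h1 y
  unfold RR
  rw [h2, h3, mul_div_assoc']
  exact div_div_div_cancel_right₀ hn.ne' _ _

omit [Fintype ι] in
theorem Wp_update_c (γ : ℝ) (e U c : ι → ℝ) (z : ι) (t : ℝ) :
    Wp γ e U (Function.update c z t) =
      Function.update (Wp γ e U c) z (Wp γ e U c z + (((γ - e z) * (t - c z) : ℝ) : ℂ)) := by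
  unfold Wp
  exact Wc_update U (fun x => γ - e x) e c z t

omit [Fintype ι] in
theorem Wp_sharp (γ : ℝ) (e U c : ι → ℝ) (z : ι) (t : ℝ) :
    Wp γ e U (Function.update c z t) =
      kickW z (γ - e z) (Wp γ (Function.update e z γ) U c) t := by
  funext x
  unfold kickW
  by_cases hx : x = z
  · subst hx
    rw [Function.update_self]
    unfold Wp Wc
    simp only [Function.update_self]
    push_cast
    ring
  · rw [Function.update_of_ne hx]
    unfold Wp Wc
    simp only [Function.update_of_ne hx]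

theorem integral_mm_update (hA : A.IsSymm) {γ : ℝ} {e : ι → ℝ} (U : ι → ℝ)
    (he : ∀ x, 0 < e x) (heγ : ∀ x, e x ≤ γ) (z : ι) (c : ι → ℝ) :
    ∫ t, mm A (Wp γ e U (Function.update c z t)) z ∂nu =
      mm A (Wp γ (Function.update e z γ) U c) z := by
  simp only [Wp_sharp]
  have he' : ∀ x, 0 < Function.update e z γ x := by
    intro x
    by_cases hx : x = z
    · subst hx; rw [Function.update_self]; exact (he x).trans_le (heγ x)
    · rw [Function.update_of_ne hx]; exact he x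
  rcases (heγ z).eq_or_lt with h | h
  · have h1 : ∀ t : ℝ, kickW z (γ - e z) (Wp γ (Function.update e z γ) U c) t =
        Wp γ (Function.update e z γ) U c := by
      intro t
      unfold kickW
      rw [h]
      simp
    simp only [h1]
    simp
  · refine integral_mm_kick hA (Wp_neg he' U c) (by linarith) ?_ z
    rw [Wp_im, Function.update_self]
    linarith [he z]

/-- **weak type bound**, general weight `w ≤ e` on `S` -/
theorem prob_bound_weight (hA : A.IsSymm) {γ : ℝ} (hγ : 0 < γ) {e : ι → ℝ} (U : ι → ℝ)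
    (he : ∀ x, 0 < e x) (heγ : ∀ x, e x ≤ γ) {S : Finset ι} {w : ℝ} (hw : 0 ≤ w)
    (hS : ∀ a ∈ S, w ≤ e a) {z : ι}
    (hz : z ∉ S) {X C0 : ℝ} (hX : 0 < X) (hC0 : 1 ≤ C0 * ‖Gr A (W0 γ U) z z‖) :
    EEp γ e U (fun W => RR A w S z W) ≤
      X ^ 2 / γ * EEp γ e U (fun W => w * Op.KS A W S z) + 2 * (C0 / X) := by
  have he' : ∀ x, 0 < Function.update e z γ x := by
    intro x
    by_cases hx : x = z
    · subst hx; rw [Function.update_self]; exact hγ
    · rw [Function.update_of_ne hx]; exact he x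
  have heγ' : ∀ x, Function.update e z γ x ≤ γ := by
    intro x
    by_cases hx : x = z
    · subst hx; rw [Function.update_self]
    · rw [Function.update_of_ne hx]; exact heγ x
  set R : (ι → ℝ) → ℝ := fun c => RR A w S z (Wp γ e U c) with hR
  set ms : (ι → ℝ) → ℝ := fun c => mm A (Wp γ (Function.update e z γ) U c) z with hms
  have hR0 : ∀ c, 0 ≤ R c := fun c => RR_nonneg hA hw (Wp_neg he U c) S z
  have hR1 : ∀ c, R c ≤ 1 := fun c => RR_le_one hA (Wp_neg he U c) (fun a ha => by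
    rw [Wp_im, neg_neg]; exact hS a ha) z
  have hRm : Measurable R := (measurable_RR w S z).comp (measurable_Wp γ e U)
  have hRi : Integrable R (mu ι) := Integrable.of_bound hRm.aestronglyMeasurable 1
    (Filter.Eventually.of_forall fun c => by rw [Real.norm_of_nonneg (hR0 c)]; exact hR1 c)
  have hmsi : Integrable ms (mu ι) := (adm_mm hA z).integrable he' γ U
  have hms0 : ∀ c, 0 < ms c := fun c => mm_pos hA (Wp_neg he' U c) z
  have hRms : Integrable (fun c => R c * ms c) (mu ι) := by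
    refine hmsi.mono' ((hRm.mul ((measurable_mm z).comp (measurable_Wp γ _ U))).aestronglyMeasurable)
      (Filter.Eventually.of_forall fun c => ?_)
    rw [Real.norm_of_nonneg (mul_nonneg (hR0 c) (hms0 c).le)]
    exact mul_le_of_le_one_left (hms0 c).le (hR1 c)
  -- the first moment
  have hq : EEp γ e U (fun W => w * Op.KS A W S z) = ∫ c, R c * ms c ∂(mu ι) := by
    have h1 : EEp γ e U (fun W => w * Op.KS A W S z) =
        ∫ c, R c * mm A (Wp γ e U c) z ∂(mu ι) := by
      unfold EEp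
      refine integral_congr_ae (Filter.Eventually.of_forall fun c => ?_)
      show w * Op.KS A (Wp γ e U c) S z = RR A w S z (Wp γ e U c) * mm A (Wp γ e U c) z
      unfold RR
      rw [div_mul_cancel₀]
      exact (mm_pos hA (Wp_neg he U c) z).ne'
    rw [h1]
    have hi : Integrable (fun c => R c * mm A (Wp γ e U c) z) (mu ι) := by
      refine ((adm_mm hA z).integrable he γ U).mono'
        ((hRm.mul ((measurable_mm z).comp (measurable_Wp γ _ U))).aestronglyMeasurable)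
        (Filter.Eventually.of_forall fun c => ?_)
      have hm := mm_pos hA (Wp_neg (γ := γ) he U c) z
      rw [Real.norm_of_nonneg (mul_nonneg (hR0 c) hm.le)]
      exact mul_le_of_le_one_left hm.le (hR1 c)
    rw [integral_resample z _ hi]
    refine integral_congr_ae (Filter.Eventually.of_forall fun c => ?_)
    have h2 : ∀ t, R (Function.update c z t) = R c := by
      intro t
      show RR A w S z (Wp γ e U (Function.update c z t)) = RR A w S z (Wp γ e U c)
      rw [Wp_update_c]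
      exact RR_shift hA (Wp_neg he U c) hz _
    simp only [h2]
    rw [integral_const_mul, integral_mm_update hA U he heγ z c]
  -- pointwise
  have hpt : ∀ c, R c ≤ X ^ 2 / γ * (R c * ms c) +
      2 * (1 - X * mt A X z (Wp γ (Function.update e z γ) U c)) := by
    intro c
    have hWs := Wp_neg (γ := γ) he' U c
    have h1 := one_sub_mt_nonneg hA hWs hX.le z
    rcases le_total (X * ‖Gr A (Wp γ (Function.update e z γ) U c) z z‖) 1 with h | h
    · have h2 := half_le_one_sub_mt hA hWs hX.le z h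
      have h3 : 0 ≤ X ^ 2 / γ * (R c * ms c) :=
        mul_nonneg (by positivity) (mul_nonneg (hR0 c) (hms0 c).le)
      linarith [hR1 c]
    · have h2 : γ * ‖Gr A (Wp γ (Function.update e z γ) U c) z z‖ ^ 2 ≤ ms c := by
        have := e_mul_KK_le hA hWs z z
        rw [Wp_im, Function.update_self, neg_neg] at this
        exact this
      have h3 : (1 : ℝ) ≤ X ^ 2 / γ * ms c := by
        have h4 : 1 ≤ (X * ‖Gr A (Wp γ (Function.update e z γ) U c) z z‖) ^ 2 :=
          one_le_pow₀ h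
        rw [mul_pow] at h4
        calc (1 : ℝ) ≤ X ^ 2 * ‖Gr A (Wp γ (Function.update e z γ) U c) z z‖ ^ 2 := h4
          _ = X ^ 2 / γ * (γ * ‖Gr A (Wp γ (Function.update e z γ) U c) z z‖ ^ 2) := by
              field_simp
          _ ≤ _ := mul_le_mul_of_nonneg_left h2 (by positivity)
      have h5 : R c ≤ X ^ 2 / γ * (R c * ms c) := by
        calc R c = R c * 1 := (mul_one _).symm
          _ ≤ R c * (X ^ 2 / γ * ms c) := mul_le_mul_of_nonneg_left h3 (hR0 c)
          _ = _ := by ring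
      linarith
  have hmti : Integrable (fun c => 1 - X * mt A X z (Wp γ (Function.update e z γ) U c)) (mu ι) :=
    (integrable_const _).sub (((adm_mt hA hX.le z).integrable he' γ U).const_mul _)
  have hfin : ∫ c, R c ∂(mu ι) ≤ ∫ c, (X ^ 2 / γ * (R c * ms c) +
      2 * (1 - X * mt A X z (Wp γ (Function.update e z γ) U c))) ∂(mu ι) :=
    integral_mono hRi ((hRms.const_mul _).add (hmti.const_mul _)) hpt
  rw [integral_add (hRms.const_mul _) (hmti.const_mul _), integral_const_mul, integral_const_mul,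
    ← hq] at hfin
  have h6 := EEp_one_sub_mt_le hA hγ U he' heγ' z hX hC0
  unfold EEp at h6
  have h7 : EEp γ e U (fun W => RR A w S z W) = ∫ c, R c ∂(mu ι) := rfl
  rw [h7]
  linarith

/-- **weak type bound** -/
theorem prob_bound (hA : A.IsSymm) {γ : ℝ} (hγ : 0 < γ) {e : ι → ℝ} (U : ι → ℝ)
    (he : ∀ x, 0 < e x) (heγ : ∀ x, e x ≤ γ) {S : Finset ι} (hS : ∀ a ∈ S, e a = γ) {z : ι}
    (hz : z ∉ S) {X C0 : ℝ} (hX : 0 < X) (hC0 : 1 ≤ C0 * ‖Gr A (W0 γ U) z z‖) :
    EEp γ e U (fun W => RR A γ S z W) ≤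
      X ^ 2 / γ * EEp γ e U (fun W => γ * Op.KS A W S z) + 2 * (C0 / X) :=
  prob_bound_weight hA hγ U he heγ hγ.le (fun a ha => (hS a ha).ge) hz hX hC0

end P365L.Op
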