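import Vale.Agent.P365.Open.OneLog
import Vale.Agent.P365.Open.OneSite

set_option linter.all false

/-!
# P365, block OPEN: logarithmic observables in an absorption profile.

* `LK A w b0 W = log (b0 + ∑_{x,y} w x y K_xy)` increases in mean when absorptions are lowered
  (fixed weights `w`);
* `Lm A b0 x W = log (b0 + m_x)` decreases in mean when absorptions are lowered.
-/

namespace P365L

open MeasureTheory ProbabilityTheory Complex P365L.Poi P365F P365O
open scoped ENNReal NNReal Real ComplexConjugate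

variable {ι : Type*} [Fintype ι] [DecidableEq ι] {A : Matrix ι ι ℝ}

/-- `log (b0 + ∑ w_xy K_xy)` -/
noncomputable def LK (A : Matrix ι ι ℝ) (w : ι → ι → ℝ) (b0 : ℝ) (W : ι → ℂ) : ℝ :=
  Real.log (b0 + ∑ x, ∑ y, w x y * KK A W x y)

/-- `log (b0 + m_x)` -/
noncomputable def Lm (A : Matrix ι ι ℝ) (b0 : ℝ) (x : ι) (W : ι → ℂ) : ℝ :=
  Real.log (b0 + mm A W x)

theorem measurable_KK (x y : ι) : Measurable fun W : ι → ℂ => KK A W x y := by
  unfold KK
  exact ((measurable_Gr (fun W => W) (fun z => measurable_pi_apply z) x y).norm).pow_const 2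

theorem measurable_mm (x : ι) : Measurable fun W : ι → ℂ => mm A W x := by
  unfold mm
  exact Complex.measurable_im.comp
    (measurable_Gr (fun W => W) (fun z => measurable_pi_apply z) x x)

theorem KK_le (hA : A.IsSymm) {η : ℝ} (hη : 0 < η) {W : ι → ℂ} (hW : ∀ x, (W x).im ≤ -η)
    (x y : ι) : KK A W x y ≤ (1 / η) ^ 2 := by
  unfold KK
  exact pow_le_pow_left₀ (norm_nonneg _) (norm_Gr_le hA hη hW x y) 2

theorem mm_le (hA : A.IsSymm) {η : ℝ} (hη : 0 < η) {W : ι → ℂ} (hW : ∀ x, (W x).im ≤ -η)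
    (x : ι) : mm A W x ≤ 1 / η := by
  unfold mm
  exact (le_abs_self _).trans ((Complex.abs_im_le_norm _).trans (norm_Gr_le hA hη hW x x))

theorem adm_KK (hA : A.IsSymm) (x y : ι) : Adm fun W : ι → ℂ => KK A W x y :=
  ⟨measurable_KK x y, fun η hη => ⟨(1 / η) ^ 2, fun W hW => by
    rw [abs_of_nonneg (KK_nonneg _ _)]; exact KK_le hA hη hW x y⟩⟩

theorem adm_mm (hA : A.IsSymm) (x : ι) : Adm fun W : ι → ℂ => mm A W x :=
  ⟨measurable_mm x, fun η hη => ⟨1 / η, fun W hW => by
    rw [abs_of_nonneg (mm_pos hA (fun y => by linarith [hW y]) x).le]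
    exact mm_le hA hη hW x⟩⟩

omit [Fintype ι] [DecidableEq ι] in
theorem Adm.add {F G : (ι → ℂ) → ℝ} (hF : Adm F) (hG : Adm G) : Adm fun W => F W + G W := by
  refine ⟨hF.meas.add hG.meas, fun η hη => ?_⟩
  obtain ⟨C, hC⟩ := hF.bdd η hη
  obtain ⟨D, hD⟩ := hG.bdd η hη
  exact ⟨C + D, fun W hW => (abs_add_le _ _).trans (add_le_add (hC W hW) (hD W hW))⟩

omit [Fintype ι] [DecidableEq ι] in
theorem Adm.mul {F G : (ι → ℂ) → ℝ} (hF : Adm F) (hG : Adm G) : Adm fun W => F W * G W := by
  refine ⟨hF.meas.mul hG.meas, fun η hη => ?_⟩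
  obtain ⟨C, hC⟩ := hF.bdd η hη
  obtain ⟨D, hD⟩ := hG.bdd η hη
  refine ⟨C * D, fun W hW => ?_⟩
  rw [abs_mul]
  exact mul_le_mul (hC W hW) (hD W hW) (abs_nonneg _) ((abs_nonneg _).trans (hC W hW))

omit [Fintype ι] [DecidableEq ι] in
theorem adm_const (a : ℝ) : Adm fun _ : ι → ℂ => a :=
  ⟨measurable_const, fun _ _ => ⟨|a|, fun _ _ => le_rfl⟩⟩

omit [Fintype ι] [DecidableEq ι] in
theorem Adm.const_mul {F : (ι → ℂ) → ℝ} (hF : Adm F) (a : ℝ) : Adm fun W => a * F W :=
  (adm_const a).mul hF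

omit [Fintype ι] [DecidableEq ι] in
theorem Adm.neg {F : (ι → ℂ) → ℝ} (hF : Adm F) : Adm fun W => -F W := by
  have h := hF.const_mul (-1)
  simpa using h

omit [Fintype ι] [DecidableEq ι] in
theorem Adm.sub {F G : (ι → ℂ) → ℝ} (hF : Adm F) (hG : Adm G) : Adm fun W => F W - G W := by
  have h := hF.add hG.neg
  simpa [sub_eq_add_neg] using h

omit [Fintype ι] [DecidableEq ι] in
theorem Adm.sum {κ : Type*} (J : Finset κ) {F : κ → (ι → ℂ) → ℝ} (hF : ∀ j ∈ J, Adm (F j)) :
    Adm fun W => ∑ j ∈ J, F j W := by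
  classical
  induction J using Finset.induction_on with
  | empty => simpa using (adm_const (ι := ι) 0)
  | insert j J hj ih =>
    simp only [Finset.sum_insert hj]
    exact (hF j (Finset.mem_insert_self _ _)).add
      (ih fun i hi => hF i (Finset.mem_insert_of_mem hi))

omit [Fintype ι] [DecidableEq ι] in
theorem Adm.pow {F : (ι → ℂ) → ℝ} (hF : Adm F) (k : ℕ) : Adm fun W => F W ^ k := by
  induction k with
  | zero => simpa using (adm_const (ι := ι) 1)
  | succ k ih =>
    simp only [pow_succ]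
    exact ih.mul hF

omit [Fintype ι] [DecidableEq ι] in
/-- logarithm of `b0 +` an admissible observable that is nonnegative on `{Im W < 0}` -/
theorem Adm.log_add {F : (ι → ℂ) → ℝ} (hF : Adm F) (hF0 : ∀ W : ι → ℂ, (∀ x, (W x).im < 0) → 0 ≤ F W)
    {b0 : ℝ} (hb : 0 < b0) : Adm fun W => Real.log (b0 + F W) := by
  refine ⟨(hF.meas.const_add b0).log, fun η hη => ?_⟩
  obtain ⟨C, hC⟩ := hF.bdd η hη
  refine ⟨|Real.log b0| + |Real.log (b0 + C)|, fun W hW => ?_⟩
  have h0 := hF0 W fun x => by linarith [hW x]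
  have hFC : F W ≤ C := (le_abs_self _).trans (hC W hW)
  have h1 : Real.log b0 ≤ Real.log (b0 + F W) := Real.log_le_log hb (by linarith)
  have h2 : Real.log (b0 + F W) ≤ Real.log (b0 + C) := Real.log_le_log (by linarith) (by linarith)
  rw [abs_le]
  constructor
  · linarith [neg_abs_le (Real.log b0), abs_nonneg (Real.log (b0 + C))]
  · linarith [le_abs_self (Real.log (b0 + C)), abs_nonneg (Real.log b0)]

theorem adm_sumK (hA : A.IsSymm) (w : ι → ι → ℝ) :
    Adm fun W : ι → ℂ => ∑ x, ∑ y, w x y * KK A W x y :=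
  Adm.sum _ fun x _ => Adm.sum _ fun y _ => (adm_KK hA x y).const_mul _

theorem adm_LK (hA : A.IsSymm) {w : ι → ι → ℝ} (hw : ∀ x y, 0 ≤ w x y) {b0 : ℝ} (hb : 0 < b0) :
    Adm (LK A w b0) :=
  (adm_sumK hA w).log_add (fun W _ => Finset.sum_nonneg fun x _ => Finset.sum_nonneg fun y _ =>
    mul_nonneg (hw x y) (KK_nonneg _ _)) hb

theorem adm_Lm (hA : A.IsSymm) {b0 : ℝ} (hb : 0 < b0) (x : ι) : Adm (Lm A b0 x) :=
  (adm_mm hA x).log_add (fun W hW => (mm_pos hA hW x).le) hb

/-! ### one kick -/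

theorem hg_of' (hA : A.IsSymm) {W : ι → ℂ} (hW : ∀ x, (W x).im < 0) {z : ι} {h : ℝ}
    (hz : h < -(W z).im) : h * ‖Gr A W z z‖ ^ 2 < (Gr A W z z).im :=
  hK_lt hA hW hz

/-- **(P1)** `log (b0 + ∑ w K)` increases in mean under a kick -/
theorem kickUp_LK (hA : A.IsSymm) {w : ι → ι → ℝ} (hw : ∀ x y, 0 ≤ w x y) {b0 : ℝ}
    (hb : 0 < b0) : KickUp Set.univ (LK A w b0) := by
  intro z _ h hh W hW hz
  have h1 := one_site_logsum (Finset.univ : Finset (ι × ι)) (fun p => w p.1 p.2)
    (fun p _ => hw p.1 p.2) (fun p => Gr A W p.1 p.2)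
    (fun p => Gr A W p.1 z * Gr A W z p.2) hb hh (hg_of' hA hW hz)
  have e1 : ∀ f : ι × ι → ℝ, ∑ p ∈ (Finset.univ : Finset (ι × ι)), f p = ∑ x, ∑ y, f (x, y) :=
    fun f => Fintype.sum_prod_type f
  simp only [e1] at h1
  unfold LK KK
  simp only [Gr_kick hA hW hz]
  exact h1

theorem integral_mm_kick (hA : A.IsSymm) {W : ι → ℂ} (hW : ∀ x, (W x).im < 0) {z : ι} {h : ℝ}
    (hh : 0 < h) (hz : h < -(W z).im) (x : ι) :
    Integrable (fun t => mm A (kickW z h W t) x) nu ∧
    ∫ t, mm A (kickW z h W t) x ∂nu = mm A W x := by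
  have hg := hg_of' hA hW hz
  have e1 : ∀ t : ℝ, mm A (kickW z h W t) x = mm A W x -
      ((-I * (Gr A W x z * Gr A W z x)) * tz h (Gr A W z z) t).re := by
    intro t
    unfold mm
    rw [Gr_kick hA hW hz, Complex.sub_im]
    congr 1
    have : -I * (Gr A W x z * Gr A W z x) * tz h (Gr A W z z) t =
        -I * (Gr A W x z * Gr A W z x * tz h (Gr A W z z) t) := by ring
    rw [this]
    simp
  simp only [e1]
  have i2 := integrable_re_mul_tz hh hg (-I * (Gr A W x z * Gr A W z x))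
  refine ⟨(integrable_const _).sub i2, ?_⟩
  rw [integral_sub (integrable_const _) i2, integral_re_mul_tz hh hg]
  simp

/-- **(P2)** `log (b0 + m_x)` decreases in mean under a kick -/
theorem kickUp_neg_Lm (hA : A.IsSymm) {b0 : ℝ} (hb : 0 < b0) (x : ι) :
    KickUp Set.univ (fun W => -Lm A b0 x W) := by
  intro z _ h hh W hW hz
  obtain ⟨i1, v1⟩ := integral_mm_kick hA hW hh hz x
  have hm := mm_pos hA hW x
  have hpos : ∀ t, 0 < mm A (kickW z h W t) x := fun t =>
    mm_pos hA (fun y => kickW_neg hW hz t y) x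
  have hup : ∀ t, Real.log (b0 + mm A (kickW z h W t) x) ≤
      Real.log (b0 + mm A W x) + (mm A (kickW z h W t) x - mm A W x) / (b0 + mm A W x) := by
    intro t
    have h0 : 0 < b0 + mm A W x := by linarith
    have h1 : 0 < b0 + mm A (kickW z h W t) x := by linarith [hpos t]
    have h2 := Real.log_le_sub_one_of_pos (div_pos h1 h0)
    rw [Real.log_div h1.ne' h0.ne'] at h2
    have h3 : (b0 + mm A (kickW z h W t) x) / (b0 + mm A W x) - 1 =
        (mm A (kickW z h W t) x - mm A W x) / (b0 + mm A W x) := by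
      field_simp
      ring
    linarith
  have i3 : Integrable (fun t => Real.log (b0 + mm A W x) +
      (mm A (kickW z h W t) x - mm A W x) / (b0 + mm A W x)) nu :=
    (integrable_const _).add ((i1.sub (integrable_const _)).div_const _)
  have i4 : Integrable (fun t => Real.log (b0 + mm A (kickW z h W t) x)) nu := by
    refine Integrable.mono' (i3.norm.add (integrable_const |Real.log b0|)) ?_
      (Filter.Eventually.of_forall fun t => ?_)
    · have : Measurable fun t : ℝ => kickW z h W t := by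
        unfold kickW
        refine measurable_pi_lambda _ fun y => ?_
        by_cases hy : y = z
        · subst hy
          simp only [Function.update_self]
          fun_prop
        · simp only [Function.update_of_ne hy]
          exact measurable_const
      exact (((measurable_mm x).comp this).const_add b0).log.aestronglyMeasurable
    · have h1 : Real.log b0 ≤ Real.log (b0 + mm A (kickW z h W t) x) :=
        Real.log_le_log hb (by linarith [hpos t])
      rw [Real.norm_eq_abs, abs_le, Pi.add_apply]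
      constructor
      · have := neg_abs_le (Real.log b0)
        have h5 := norm_nonneg (Real.log (b0 + mm A W x) +
          (mm A (kickW z h W t) x - mm A W x) / (b0 + mm A W x))
        linarith
      · have h5 := le_abs_self (Real.log (b0 + mm A W x) +
          (mm A (kickW z h W t) x - mm A W x) / (b0 + mm A W x))
        rw [← Real.norm_eq_abs] at h5
        linarith [hup t, abs_nonneg (Real.log b0)]
  have h6 : ∫ t, Real.log (b0 + mm A (kickW z h W t) x) ∂nu ≤ Real.log (b0 + mm A W x) := by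
    refine (integral_mono i4 i3 hup).trans (le_of_eq ?_)
    have i5 : Integrable (fun t => (mm A (kickW z h W t) x - mm A W x) / (b0 + mm A W x)) nu :=
      (i1.sub (integrable_const _)).div_const _
    rw [integral_add (integrable_const _) i5, integral_div,
      integral_sub i1 (integrable_const _), v1]
    simp
  show -Lm A b0 x W ≤ ∫ t, -Lm A b0 x (kickW z h W t) ∂nu
  rw [integral_neg]
  unfold Lm
  linarith

/-! ### profiles -/

/-- **(C')** lowering absorptions increases `E log (b0 + ∑ w K)` (fixed weights) -/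
theorem EEp_LK_mono (hA : A.IsSymm) {w : ι → ι → ℝ} (hw : ∀ x y, 0 ≤ w x y) {b0 : ℝ}
    (hb : 0 < b0) {γ : ℝ} {e e' : ι → ℝ} (U : ι → ℝ) (he' : ∀ x, 0 < e' x)
    (hle : ∀ x, e' x ≤ e x) (heγ : ∀ x, e x ≤ γ) :
    EEp γ e U (LK A w b0) ≤ EEp γ e' U (LK A w b0) :=
  EEp_mono (adm_LK hA hw hb) (kickUp_LK hA hw hb) U he' hle heγ fun x hx =>
    absurd (Set.mem_univ x) hx

/-- **(B')** lowering absorptions decreases `E log (b0 + m_x)` -/
theorem EEp_Lm_anti (hA : A.IsSymm) {b0 : ℝ} (hb : 0 < b0) (x : ι) {γ : ℝ} {e e' : ι → ℝ}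
    (U : ι → ℝ) (he' : ∀ x, 0 < e' x) (hle : ∀ x, e' x ≤ e x) (heγ : ∀ x, e x ≤ γ) :
    EEp γ e' U (Lm A b0 x) ≤ EEp γ e U (Lm A b0 x) := by
  have h := EEp_mono (adm_Lm hA hb x).neg (kickUp_neg_Lm hA hb x) (γ := γ) U he' hle heγ
    fun y hy => absurd (Set.mem_univ y) hy
  unfold EEp at h ⊢
  rw [integral_neg, integral_neg] at h
  linarith

/-- weights of `∑_y e'_y K_xy` -/
noncomputable def rowW (e' : ι → ℝ) (x : ι) : ι → ι → ℝ := fun a y => if a = x then e' y else 0

theorem sum_rowW (e' : ι → ℝ) (x : ι) (W : ι → ℂ) :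
    ∑ a, ∑ y, rowW e' x a y * KK A W a y = ∑ y, e' y * KK A W x y := by
  rw [Finset.sum_eq_single x]
  · simp [rowW]
  · intro a _ ha
    simp [rowW, ha]
  · intro h
    exact absurd (Finset.mem_univ x) h

/-- **(P4)** lower bound for `log (b0 + m_x)` in the lower profile `e'` by the observable
`log (b0 + ∑_y f_y K_xy)`, `0 ≤ f ≤ e'`, in the higher profile `e`. -/
theorem EEp_Lm_lower (hA : A.IsSymm) {b0 : ℝ} (hb : 0 < b0) (x : ι) {γ : ℝ} {e e' f : ι → ℝ}
    (U : ι → ℝ) (he' : ∀ x, 0 < e' x) (hle : ∀ x, e' x ≤ e x) (heγ : ∀ x, e x ≤ γ)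
    (hf : ∀ x, 0 ≤ f x) (hfe : ∀ x, f x ≤ e' x) :
    EEp γ e U (fun W => Real.log (b0 + ∑ y, f y * KK A W x y)) ≤ EEp γ e' U (Lm A b0 x) := by
  have hw : ∀ a y, 0 ≤ rowW f x a y := by
    intro a y
    unfold rowW
    split_ifs
    · exact hf y
    · exact le_rfl
  have h1 := EEp_LK_mono hA hw hb U he' hle heγ
  have h2 : LK A (rowW f x) b0 = fun W => Real.log (b0 + ∑ y, f y * KK A W x y) := by
    funext W
    unfold LK
    rw [sum_rowW]
  rw [h2] at h1
  refine h1.trans ?_
  have hAdm : Adm fun W => Real.log (b0 + ∑ y, f y * KK A W x y) := by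
    rw [← h2]
    exact adm_LK hA hw hb
  refine integral_mono (hAdm.integrable he' γ U) ((adm_Lm hA hb x).integrable he' γ U) fun c => ?_
  simp only [Lm]
  have hneg : ∀ y, (Wp γ e' U c y).im < 0 := fun y => by rw [Wp_im]; linarith [he' y]
  refine Real.log_le_log ?_ ?_
  · have : 0 ≤ ∑ y, f y * KK A (Wp γ e' U c) x y :=
      Finset.sum_nonneg fun y _ => mul_nonneg (hf y) (KK_nonneg _ _)
    linarith
  · rw [mm_eq hA hneg]
    refine add_le_add le_rfl (Finset.sum_le_sum fun y _ => ?_)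
    refine mul_le_mul_of_nonneg_right ?_ (KK_nonneg _ _)
    rw [Wp_im, neg_neg]
    exact hfe y

end P365L
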