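import Vale.Agent.P365.Open.Mom
import Vale.Agent.P365.Open.Prof
import Vale.Agent.P365.Open.Energy

/-!
# P365, block OPEN: the chain of profiles at one site.

For a fixed background `U`, disjoint sets `X`, `Y`, a site `z ∈ Y`, `0 < e0 ≤ b ≤ 1`, `b ≤ γ`:
`E_{const b} log (b + m_z)` is bounded below by the moments of `γ K_zX` in the profile
`γ` on `X ∪ Y`, `e0` elsewhere, minus a loss controlled by `E (γ K_zX)` in the profile
`γ` on `X`, `b` elsewhere.
-/

set_option linter.all false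

namespace P365L.Op

open MeasureTheory ProbabilityTheory Complex P365L P365L.Poi P365F P365O
open scoped ENNReal NNReal Real ComplexConjugate

variable {ι : Type*} [Fintype ι] [DecidableEq ι] {A : Matrix ι ι ℝ} {W : ι → ℂ}

theorem adm_KS (hA : A.IsSymm) (S : Finset ι) (z : ι) : Adm fun W : ι → ℂ => Op.KS A W S z :=
  Adm.sum S fun a _ => P365L.adm_KK hA z a

theorem sum_ind (S : Finset ι) (r : ℝ) (z : ι) (W : ι → ℂ) :
    ∑ y, (if y ∈ S then r else 0) * KK A W z y = r * Op.KS A W S z := by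
  unfold Op.KS
  rw [Finset.mul_sum]
  simp only [ite_mul, zero_mul]
  rw [← Finset.sum_filter]
  congr 1
  ext x
  simp

theorem adm_RR (hA : A.IsSymm) {γ : ℝ} (hγ : 0 ≤ γ) (S : Finset ι) (z : ι) :
    Adm fun W : ι → ℂ => RR A γ S z W where
  meas := measurable_RR γ S z
  bdd := fun η hη => ⟨γ / η, fun W hW => by
    have hW0 : ∀ x, (W x).im < 0 := fun x => (hW x).trans_lt (by linarith)
    have hm := mm_pos hA hW0 z
    rw [abs_of_nonneg (RR_nonneg hA hγ hW0 S z)]
    unfold RR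
    rw [div_le_div_iff₀ hm hη]
    have h1 : η * Op.KS A W S z ≤ mm A W z := by
      rw [mm_eq hA hW0, Op.KS, Finset.mul_sum]
      refine (Finset.sum_le_sum fun a _ =>
        mul_le_mul_of_nonneg_right (show η ≤ -(W a).im by linarith [hW a]) (KK_nonneg _ _)).trans ?_
      exact Finset.sum_le_sum_of_subset_of_nonneg (Finset.subset_univ _) fun y _ _ =>
        mul_nonneg (by linarith [hW0 y]) (KK_nonneg _ _)
    calc γ * Op.KS A W S z * η = γ * (η * Op.KS A W S z) := by ring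
      _ ≤ γ * mm A W z := mul_le_mul_of_nonneg_left h1 hγ⟩

/-- the intermediate profile: `γ` on `X`, `b` on `Y`, `e0` elsewhere -/
noncomputable def pr3 (γ b e0 : ℝ) (X Y : Finset ι) (x : ι) : ℝ :=
  if x ∈ X then γ else if x ∈ Y then b else e0

theorem chain_site (hA : A.IsSymm) {γ b e0 : ℝ} (hγ : 0 < γ) (he0 : 0 < e0) (heb : e0 ≤ b)
    (hbγ : b ≤ γ) (hb1 : b ≤ 1) (U : ι → ℝ) {X Y : Finset ι} (hXY : Disjoint X Y) {z : ι}
    (hz : z ∈ Y) {t lam Q C0 : ℝ} (hbt : b ≤ t) (hlam : 0 < lam) (hQ : 0 < Q)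
    (hC0 : 1 ≤ C0 * ‖Gr A (W0 γ U) z z‖) :
    Real.log b + (2 * Real.log (t / b) / lam) *
        (EEp γ (pr γ e0 (X ∪ Y)) U (fun W => γ * Op.KS A W X z) - t -
          EEp γ (pr γ e0 (X ∪ Y)) U (fun W => (γ * Op.KS A W X z) ^ 2) / (2 * lam)) -
        (Real.log 2 + 2 * (Real.log 2 + 2 * Real.log (1 / b)) *
          (Q ^ 2 / γ * EEp γ (pr γ b X) U (fun W => γ * Op.KS A W X z) + 2 * (C0 / Q))) ≤
      EEp γ (fun _ => b) U (Lm A b z) := by
  have hb : 0 < b := he0.trans_le heb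
  have hzX : z ∉ X := fun h => Finset.disjoint_left.1 hXY h hz
  have hlb : 0 ≤ Real.log (1 / b) := Real.log_nonneg (by rw [le_div_iff₀ hb]; linarith)
  have hl2 : 0 ≤ Real.log 2 := Real.log_nonneg one_le_two
  -- profiles
  have hp1 : ∀ x, 0 < pr γ b X x := pr_pos hγ hb X
  have hp1γ : ∀ x, pr γ b X x ≤ γ := pr_le hbγ X
  have hp0 : ∀ x, 0 < pr γ e0 (X ∪ Y) x := pr_pos hγ he0 _
  have hp0γ : ∀ x, pr γ e0 (X ∪ Y) x ≤ γ := pr_le (heb.trans hbγ) _
  have hp3 : ∀ x, 0 < pr3 γ b e0 X Y x := by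
    intro x
    unfold pr3
    split_ifs <;> assumption
  have hp31 : ∀ x, pr3 γ b e0 X Y x ≤ pr γ b X x := by
    intro x
    unfold pr3 pr
    split_ifs
    · exact le_rfl
    · exact le_rfl
    · exact heb
  have hp30 : ∀ x, pr3 γ b e0 X Y x ≤ pr γ e0 (X ∪ Y) x := by
    intro x
    unfold pr3 pr
    by_cases h1 : x ∈ X
    · rw [if_pos h1, if_pos (Finset.mem_union_left _ h1)]
    · by_cases h2 : x ∈ Y
      · rw [if_neg h1, if_pos h2, if_pos (Finset.mem_union_right _ h2)]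
        exact hbγ
      · rw [if_neg h1, if_neg h2, if_neg (by simp [h1, h2])]
  -- step 1: from the constant profile to `M'`
  have s1 : EEp γ (pr γ b X) U (fun W => Real.log (b + ∑ y, (if y ∈ Xᶜ then b else 0) * KK A W z y)) ≤
      EEp γ (fun _ => b) U (Lm A b z) := by
    refine EEp_Lm_lower hA hb z U (fun _ => hb) ?_ hp1γ ?_ ?_
    · intro x
      unfold pr
      split_ifs
      · exact hbγ
      · exact le_rfl
    · intro x
      split_ifs
      · exact hb.le
      · exact le_rfl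
    · intro x
      split_ifs
      · exact le_rfl
      · exact hb.le
  -- step 2: pointwise loss
  have hAL : Adm fun W : ι → ℂ => Real.log (b + ∑ y, (if y ∈ Xᶜ then b else 0) * KK A W z y) := by
    simp only [sum_ind]
    exact ((adm_KS hA Xᶜ z).const_mul b).log_add
      (fun W _ => mul_nonneg hb.le (Op.KS_nonneg _ _)) hb
  have s2 : EEp γ (pr γ b X) U (fun W => Lm A b z W -
        (Real.log 2 + (2 * (Real.log 2 + 2 * Real.log (1 / b))) * RR A γ X z W)) ≤
      EEp γ (pr γ b X) U (fun W => Real.log (b + ∑ y, (if y ∈ Xᶜ then b else 0) * KK A W z y)) := by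
    refine EEp_le hp1 ((adm_Lm hA hb z).sub ((adm_const _).add ((adm_RR hA hγ.le X z).const_mul _)))
      hAL fun W hW => ?_
    have hW0 : ∀ x, (W x).im < 0 := fun x => by rw [hW]; linarith [hp1 x]
    have hWX : ∀ x ∈ X, -(W x).im = γ := fun x hx => by rw [hW, neg_neg, pr_mem hx]
    have hWXc : ∀ x ∉ X, -(W x).im = b := fun x hx => by rw [hW, neg_neg, pr_notMem hx]
    have hm1 : mm A W z ≤ 1 / b := by
      have := mm_le_inv hA hW0 z
      rwa [hWXc z hzX] at this
    have h := loss_le' hA hW0 hγ.le hb hb1 hWX hWXc z hm1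
    rw [sum_ind]
    unfold Lm RR
    linarith
  have s2' : EEp γ (pr γ b X) U (fun W => Lm A b z W -
        (Real.log 2 + (2 * (Real.log 2 + 2 * Real.log (1 / b))) * RR A γ X z W)) =
      EEp γ (pr γ b X) U (Lm A b z) - (Real.log 2 + (2 * (Real.log 2 + 2 * Real.log (1 / b))) *
        EEp γ (pr γ b X) U (fun W => RR A γ X z W)) := by
    rw [EEp_sub hp1 (adm_Lm hA hb z) ((adm_const _).add ((adm_RR hA hγ.le X z).const_mul _)),
      EEp_add hp1 (adm_const _) ((adm_RR hA hγ.le X z).const_mul _), EEp_mul, EEp_const]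
  -- step 3: raise the absorption between `X` and `Y`
  have s3 : EEp γ (pr3 γ b e0 X Y) U (Lm A b z) ≤ EEp γ (pr γ b X) U (Lm A b z) :=
    EEp_Lm_anti hA hb z U hp3 hp31 hp1γ
  -- step 4: lower the absorption on `Y`
  have s4 : EEp γ (pr γ e0 (X ∪ Y)) U
        (fun W => Real.log (b + ∑ y, (if y ∈ X then γ else 0) * KK A W z y)) ≤
      EEp γ (pr3 γ b e0 X Y) U (Lm A b z) := by
    refine EEp_Lm_lower hA hb z U hp3 hp30 hp0γ ?_ ?_
    · intro x
      split_ifs
      · exact hγ.le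
      · exact le_rfl
    · intro x
      unfold pr3
      split_ifs
      · exact le_rfl
      · exact hb.le
      · exact he0.le
  -- step 5: pointwise Paley–Zygmund
  have hAX : Adm fun W : ι → ℂ => γ * Op.KS A W X z := (adm_KS hA X z).const_mul γ
  have s5 : EEp γ (pr γ e0 (X ∪ Y)) U (fun W => Real.log b + (2 * Real.log (t / b) / lam) *
        (γ * Op.KS A W X z - t - (1 / (2 * lam)) * (γ * Op.KS A W X z) ^ 2)) ≤
      EEp γ (pr γ e0 (X ∪ Y)) U
        (fun W => Real.log (b + ∑ y, (if y ∈ X then γ else 0) * KK A W z y)) := by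
    refine EEp_le hp0 ((adm_const _).add (Adm.const_mul ((hAX.sub (adm_const _)).sub
      ((hAX.pow 2).const_mul _)) _)) ?_ fun W hW => ?_
    · simp only [sum_ind]
      exact hAX.log_add (fun W _ => mul_nonneg hγ.le (Op.KS_nonneg _ _)) hb
    · rw [sum_ind]
      have h := log_ge' hb hbt hlam (mul_nonneg hγ.le (Op.KS_nonneg (A := A) (W := W) X z))
      have e : (γ * Op.KS A W X z) ^ 2 / (2 * lam) =
          (1 / (2 * lam)) * (γ * Op.KS A W X z) ^ 2 := by ring
      rw [e] at h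
      exact h
  have s5' : EEp γ (pr γ e0 (X ∪ Y)) U (fun W => Real.log b + (2 * Real.log (t / b) / lam) *
        (γ * Op.KS A W X z - t - (1 / (2 * lam)) * (γ * Op.KS A W X z) ^ 2)) =
      Real.log b + (2 * Real.log (t / b) / lam) *
        (EEp γ (pr γ e0 (X ∪ Y)) U (fun W => γ * Op.KS A W X z) - t -
          EEp γ (pr γ e0 (X ∪ Y)) U (fun W => (γ * Op.KS A W X z) ^ 2) / (2 * lam)) := by
    have e1 := EEp_mul (γ := γ) (e := pr γ e0 (X ∪ Y)) (U := U)
      (F := fun W => γ * Op.KS A W X z - t - (1 / (2 * lam)) * (γ * Op.KS A W X z) ^ 2)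
      (2 * Real.log (t / b) / lam)
    have e2 := EEp_mul (γ := γ) (e := pr γ e0 (X ∪ Y)) (U := U)
      (F := fun W => (γ * Op.KS A W X z) ^ 2) (1 / (2 * lam))
    rw [EEp_add hp0 (adm_const _) (Adm.const_mul ((hAX.sub (adm_const _)).sub
      ((hAX.pow 2).const_mul _)) _), e1, EEp_sub hp0 (hAX.sub (adm_const _))
      ((hAX.pow 2).const_mul _), EEp_sub hp0 hAX (adm_const _), e2, EEp_const, EEp_const]
    ring
  -- step 6: the weak type bound
  have s6 := prob_bound hA hγ U hp1 hp1γ (S := X) (fun a ha => pr_mem ha) hzX hQ hC0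
  have s7 := mul_le_mul_of_nonneg_left s6
    (show 0 ≤ 2 * (Real.log 2 + 2 * Real.log (1 / b)) by positivity)
  rw [s2'] at s2
  rw [s5'] at s5
  linarith

end P365L.Op
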