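import Vale.Agent.P365.Open.Layer

set_option linter.all false

/-!
# P365, open conductance: quenched layer facts in the form used by the assembly.
-/

namespace P365O

open MeasureTheory ProbabilityTheory Complex P365L P365L.Poi P365F
open scoped ENNReal NNReal Real ComplexConjugate

variable {N : ℕ} [NeZero N]

/-- **(L2')** cut-off energy: every profile -/
theorem L2' {γ : ℝ} (hγ : 0 < γ) {e : Tor N → ℝ} (U : Tor N → ℝ) (he : ∀ x, 0 < e x)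
    (heγ : ∀ x, e x ≤ γ) {l r1 : ℕ} (hl : 1 ≤ l) (hr1 : l ≤ 3 * (r1 - l)) :
    EEp γ e U (fun W => Trm (AT N) W (ball N l) (ext N r1)) ≤ 500 / γ ^ 2 := by
  obtain ⟨w, rfl⟩ : ∃ w, r1 = l + w := ⟨r1 - l, by omega⟩
  have hw : 0 < w := by omega
  have hwl : l ≤ 3 * w := by omega
  have hw' : (0 : ℝ) < w := by exact_mod_cast hw
  have h2 := trm_le (AT_symm N) hγ U he heγ (disjoint_ball_ext (N := N)
    (show l < l + w by omega)) (cut l w)
    (fun x hx => cut_eq_one (mem_ball.1 hx)) (fun y hy => cut_eq_zero hw (mem_ext.1 hy))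
  simp only [AT_sq] at h2
  have h3 := cut_energy_le (N := N) (l := l) hw
  have h4 : 8 * (2 * ((l : ℝ) + w) + 1) ^ 2 / (w : ℝ) ^ 2 ≤ 1000 := by
    rw [div_le_iff₀ (by positivity)]
    have h5 : (l : ℝ) ≤ 3 * w := by exact_mod_cast hwl
    have h8 : (1 : ℝ) ≤ w := by exact_mod_cast hw
    have h6 : 2 * ((l : ℝ) + w) + 1 ≤ 10 * w := by linarith
    have h7 : (2 * ((l : ℝ) + w) + 1) ^ 2 ≤ (10 * w) ^ 2 :=
      pow_le_pow_left₀ (by positivity) h6 2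
    nlinarith [h7]
  refine h2.trans ?_
  have h5 : 1 / (2 * γ ^ 2) * ∑ x : Tor N, ∑ y, AT N x y * (cut l w x - cut l w y) ^ 2 ≤
      1 / (2 * γ ^ 2) * 1000 := mul_le_mul_of_nonneg_left (h3.trans h4) (by positivity)
  refine h5.trans (le_of_eq ?_)
  field_simp
  norm_num

/-- **(L1)** second moments, summed over the layers -/
theorem L1 {γ e0 : ℝ} (hγ : 0 < γ) (h0 : 0 < e0) (h0γ : e0 ≤ γ / 2) (U : Tor N → ℝ)
    {l r1 r2 : ℕ} (hl : 1 ≤ l) (hr1 : l ≤ 3 * (r1 - l)) :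
    ∑ r ∈ Finset.Ico r1 r2, ∑ z ∈ layer N r, EEp γ (pr γ e0 (ball N l ∪ ext N r)) U
      (fun W => (∑ a ∈ ball N l, KK (AT N) W z a) ^ 2) ≤ 1000 / γ ^ 6 := by
  obtain ⟨w, rfl⟩ : ∃ w, r1 = l + w := ⟨r1 - l, by omega⟩
  have hw : 0 < w := by omega
  have hwl : l ≤ 3 * w := by omega
  have hw' : (0 : ℝ) < w := by exact_mod_cast hw
  have hpos : ∀ s : ℕ, ∀ x : Tor N, 0 < prl γ e0 l s x := fun s => pr_pos hγ h0 _
  have hadm : ∀ z : Tor N, Adm (fun W => KX l z W ^ 2) := fun z => adm_pow (Adm_KX l z) 2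
  have h3 := sum_sq_le (N := N) h0 (by linarith) U (l := l) hw (r2 - (l + w)) (γ := γ)
  have h4 : 8 * (2 * ((l : ℝ) + w) + 1) ^ 2 / (w : ℝ) ^ 2 ≤ 1000 := by
    rw [div_le_iff₀ (by positivity)]
    have h5 : (l : ℝ) ≤ 3 * w := by exact_mod_cast hwl
    have h8 : (1 : ℝ) ≤ w := by exact_mod_cast hw
    have h6 : 2 * ((l : ℝ) + w) + 1 ≤ 10 * w := by linarith
    have h7 : (2 * ((l : ℝ) + w) + 1) ^ 2 ≤ (10 * w) ^ 2 :=
      pow_le_pow_left₀ (by positivity) h6 2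
    nlinarith [h7]
  have h5 := h3.trans (mul_le_mul_of_nonneg_left h4 (show 0 ≤ 1 / (2 * γ ^ 2) by positivity))
  have e1 : ∑ r ∈ Finset.Ico (l + w) r2, ∑ z ∈ layer N r, EEp γ (pr γ e0 (ball N l ∪ ext N r)) U
      (fun W => (∑ a ∈ ball N l, KK (AT N) W z a) ^ 2) =
      ∑ j ∈ Finset.range (r2 - (l + w)), EEp γ (prl γ e0 l (l + w + j)) U
        (fun W => ∑ z ∈ layer N (l + w + j), KX l z W ^ 2) := by
    rw [Finset.sum_Ico_eq_sum_range]
    refine Finset.sum_congr rfl fun j _ => ?_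
    rw [EEp_sum (hpos (l + w + j)) _ fun z _ => hadm z]
    rfl
  rw [e1]
  set Q := ∑ j ∈ Finset.range (r2 - (l + w)), EEp γ (prl γ e0 l (l + w + j)) U
        (fun W => ∑ z ∈ layer N (l + w + j), KX l z W ^ 2) with hQ
  have hQ0 : 0 ≤ Q := Finset.sum_nonneg fun j _ => EEp_nonneg fun W _ =>
    Finset.sum_nonneg fun z _ => sq_nonneg _
  have h6 : γ / 2 * γ ^ 3 * Q ≤ (γ - e0) * γ ^ 3 * Q := by
    refine mul_le_mul_of_nonneg_right ?_ hQ0
    exact mul_le_mul_of_nonneg_right (by linarith) (by positivity)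
  rw [le_div_iff₀ (by positivity)]
  have h7 : γ / 2 * γ ^ 3 * Q ≤ 1 / (2 * γ ^ 2) * 1000 := h6.trans h5
  have h8 : Q * γ ^ 6 = 2 * γ ^ 2 * (γ / 2 * γ ^ 3 * Q) := by ring
  rw [h8]
  calc 2 * γ ^ 2 * (γ / 2 * γ ^ 3 * Q) ≤ 2 * γ ^ 2 * (1 / (2 * γ ^ 2) * 1000) :=
        mul_le_mul_of_nonneg_left h7 (by positivity)
    _ = 1000 := by field_simp

/-- **(L2)** first moments: every layer carries the transmission -/
theorem L2 {γ e0 : ℝ} (h0 : 0 < e0) (h0γ : e0 ≤ γ) (U : Tor N → ℝ) {l r r2 : ℕ} (hlr : l < r)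
    (hr : r ≤ r2) :
    EEp γ (pr γ e0 (ball N l ∪ ext N r2)) U (fun W => Trm (AT N) W (ball N l) (ext N r2)) ≤
      (γ ^ 2 + 16) * ∑ z ∈ layer N r, EEp γ (pr γ e0 (ball N l ∪ ext N r)) U
        (fun W => ∑ a ∈ ball N l, KK (AT N) W z a) := by
  have hγ : 0 < γ := h0.trans_le h0γ
  have hpos : ∀ s : ℕ, ∀ x : Tor N, 0 < prl γ e0 l s x := fun s => pr_pos hγ h0 _
  obtain ⟨k, rfl⟩ : ∃ k, r2 = r + k := ⟨r2 - r, by omega⟩
  refine (trm_anti h0 h0γ U hlr k).trans ?_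
  have h2 : EEp γ (prl (N := N) γ e0 l r) U (fun W => Trm (AT N) W (ball N l) (ext N r)) ≤
      EEp γ (prl (N := N) γ e0 l r) U (fun W => (γ ^ 2 + 16) * ∑ z ∈ layer N r, KX l z W) :=
    EEp_le (hpos r) (Adm_Trm (AT_symm N) _ _) (adm_cmul (Adm_sum _ fun z _ => Adm_KX l z) _)
      fun W hW => Trm_le_layer hγ h0 hlr hW
  rw [EEp_mul, EEp_sum (hpos r) _ fun z _ => Adm_KX l z] at h2
  exact h2

end P365O
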