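import Mathlib.Analysis.SpecialFunctions.Log.Basic
import Mathlib.Tactic

/-!
# P365, block OPEN: the final arithmetic.
-/

namespace P365L.Op

theorem num_gain {c2 θ C1 l m T n t lam Λ : ℝ} (hc2 : 0 < c2) (hθ : 0 < θ) (hC1 : 0 < C1)
    (hl : 0 < l) (hm : l / 2 ≤ m) (hT : θ < T) (hn16 : n ≤ 16 * l ^ 2) (hΛ : 0 ≤ Λ)
    (ht : t = c2 * θ / 64 / l) (hlam : lam = 4 * C1 / (c2 * θ * l)) :
    Λ * l ^ 2 * (c2 ^ 2 * θ ^ 2 / (16 * C1)) ≤
      (2 * Λ / lam) * (m * c2 * T - n * t - C1 / (2 * lam)) := by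
  have hlam0 : 0 < lam := by rw [hlam]; positivity
  have hbr : c2 * θ * l / 8 ≤ m * c2 * T - n * t - C1 / (2 * lam) := by
    have e1 : c2 * θ * l / 2 ≤ m * c2 * T := by
      have : l / 2 * (c2 * θ) ≤ m * (c2 * T) := by
        refine mul_le_mul hm ?_ (by positivity) (by linarith)
        exact mul_le_mul_of_nonneg_left hT.le hc2.le
      linarith
    have e2 : n * t ≤ c2 * θ * l / 4 := by
      have ht0 : 0 ≤ t := by rw [ht]; positivity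
      have : n * t ≤ 16 * l ^ 2 * t := mul_le_mul_of_nonneg_right hn16 ht0
      have e3 : 16 * l ^ 2 * t = c2 * θ * l / 4 := by
        rw [ht]
        field_simp
        norm_num
      linarith
    have e4 : C1 / (2 * lam) = c2 * θ * l / 8 := by
      rw [hlam]
      field_simp
      norm_num
    linarith
  have e1 : (2 * Λ / lam) * (c2 * θ * l / 8) = Λ * l ^ 2 * (c2 ^ 2 * θ ^ 2 / (16 * C1)) := by
    rw [hlam]
    field_simp
    ring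
  rw [← e1]
  exact mul_le_mul_of_nonneg_left hbr (by positivity)

theorem num_comb {l n L Λ c' δ C5 q1 q2 l2 G b3 : ℝ} (hl : 0 < l) (hn : 0 ≤ n)
    (hn16 : n ≤ 16 * l ^ 2) (hL : 0 ≤ L) (hl2 : 0 ≤ l2) (hδ : 0 ≤ δ) (hq2 : 0 ≤ q2)
    (hG : Λ * l ^ 2 * c' ≤ G) (hb3 : b3 = l ^ 2 * q1)
    (h : n * -L + G - (n * l2 + 2 * (l2 + 2 * L) * (b3 + n * (2 * q2))) ≤
      n * (-(1 - δ) * L + C5)) :
    Λ * c' ≤ 16 * (δ * L) + 16 * (|C5| + l2) + 2 * l2 * (q1 + 32 * q2) +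
      4 * L * (q1 + 32 * q2) := by
  have hr1 : n * (2 * q2) ≤ 16 * l ^ 2 * (2 * q2) := mul_le_mul_of_nonneg_right hn16 (by linarith)
  have hr2 : b3 + n * (2 * q2) ≤ l ^ 2 * (q1 + 32 * q2) := by
    rw [hb3]
    have : l ^ 2 * (q1 + 32 * q2) = l ^ 2 * q1 + 16 * l ^ 2 * (2 * q2) := by ring
    linarith
  have hr3 : 2 * (l2 + 2 * L) * (b3 + n * (2 * q2)) ≤
      2 * (l2 + 2 * L) * (l ^ 2 * (q1 + 32 * q2)) :=
    mul_le_mul_of_nonneg_left hr2 (by linarith)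
  have hr4 : n * (δ * L + |C5| + l2) ≤ 16 * l ^ 2 * (δ * L + |C5| + l2) := by
    refine mul_le_mul_of_nonneg_right hn16 ?_
    have := mul_nonneg hδ hL
    have := abs_nonneg C5
    linarith
  have hC5 : n * C5 ≤ n * |C5| := mul_le_mul_of_nonneg_left (le_abs_self _) hn
  have e2 : n * (-(1 - δ) * L + C5) = -(n * L) + n * (δ * L) + n * C5 := by ring
  have e3 : n * (δ * L + |C5| + l2) = n * (δ * L) + n * |C5| + n * l2 := by ring
  have e4 : n * -L = -(n * L) := by ring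
  rw [e2, e4] at h
  rw [e3] at hr4
  have hl2p : 0 < l ^ 2 := by positivity
  refine le_of_mul_le_mul_left ?_ hl2p
  have e5 : l ^ 2 * (Λ * c') = Λ * l ^ 2 * c' := by ring
  have e6 : l ^ 2 * (16 * (δ * L) + 16 * (|C5| + l2) + 2 * l2 * (q1 + 32 * q2) +
      4 * L * (q1 + 32 * q2)) = 16 * l ^ 2 * (δ * L + |C5| + l2) +
      2 * (l2 + 2 * L) * (l ^ 2 * (q1 + 32 * q2)) := by ring
  rw [e5, e6]
  linarith

theorem num_fin {c' lg s L Λ δ C5 q1 q2 l2 : ℝ} (hc' : 0 < c') (hL : 0 ≤ L)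
    (hL2 : L ≤ 2 * lg) (hΛ : Λ = lg + s) (hδ : δ = c' / 256) (hl2 : 0 ≤ l2)
    (hq : q1 + 32 * q2 ≤ c' / 32) (hq0 : 0 ≤ q1 + 32 * q2)
    (h : Λ * c' ≤ 16 * (δ * L) + 16 * (|C5| + l2) + 2 * l2 * (q1 + 32 * q2) +
      4 * L * (q1 + 32 * q2)) :
    c' * lg ≤ 2 * (c' * |s| + 16 * (|C5| + l2) + 2 * l2 * (q1 + 32 * q2)) := by
  have h4L : 4 * L * (q1 + 32 * q2) ≤ 4 * L * (c' / 32) :=
    mul_le_mul_of_nonneg_left hq (by linarith)
  have hLc : c' * L ≤ c' * (2 * lg) := mul_le_mul_of_nonneg_left hL2 hc'.le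
  have hδL : 16 * (δ * L) = c' * L / 16 := by rw [hδ]; ring
  have e1 : -(c' * |s|) ≤ c' * s := by
    have := mul_le_mul_of_nonneg_left (neg_abs_le s) hc'.le
    linarith
  have e2 : Λ * c' = c' * lg + c' * s := by rw [hΛ]; ring
  have e6 : 0 ≤ 16 * (|C5| + l2) := by
    have := abs_nonneg C5
    linarith
  have e7 : 0 ≤ 2 * l2 * (q1 + 32 * q2) := by positivity
  have e8 : 0 ≤ c' * |s| := by positivity
  rw [e2, hδL] at h
  have e9 : 4 * L * (c' / 32) = c' * L / 8 := by ring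
  rw [e9] at h4L
  linarith

/-- The inequality of the chain of profiles (summed over `n` sites, at scale `l`, `b = k / l²`)
forces `T ≤ θ` once `l` is large. -/
theorem numeric {γ c2 C1 C3 C0 θ : ℝ} (hγ : 0 < γ) (hc2 : 0 < c2) (hC1 : 0 < C1) (hC3 : 0 < C3)
    (hC0 : 0 < C0) (hθ : 0 < θ) (C5 : ℝ → ℝ) :
    ∃ (δ k : ℝ) (l0 : ℕ), 0 < δ ∧ 1 ≤ k ∧ 2 ≤ l0 ∧ ∀ l : ℕ, l0 ≤ l →
      k / (l : ℝ) ^ 2 ≤ 1 ∧ k / (l : ℝ) ^ 2 ≤ γ / 2 ∧
      ∀ (n m T : ℝ), 0 ≤ n → n ≤ 16 * (l : ℝ) ^ 2 → (l : ℝ) / 2 ≤ m →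
      (∀ t lam Q : ℝ, k / (l : ℝ) ^ 2 ≤ t → 0 < lam → 0 < Q →
        n * Real.log (k / (l : ℝ) ^ 2) + (2 * Real.log (t / (k / (l : ℝ) ^ 2)) / lam) *
          (m * c2 * T - n * t - C1 / (2 * lam)) - (n * Real.log 2 +
          2 * (Real.log 2 + 2 * Real.log (1 / (k / (l : ℝ) ^ 2))) *
            (Q ^ 2 * (C3 / (k / (l : ℝ) ^ 2)) + n * (2 * (C0 / Q)))) ≤
        n * (-(1 - δ) * Real.log (1 / (k / (l : ℝ) ^ 2)) + C5 δ)) →
      T ≤ θ := by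
  -- constants
  obtain ⟨c', hc'⟩ : ∃ c' : ℝ, c' = c2 ^ 2 * θ ^ 2 / (16 * C1) := ⟨_, rfl⟩
  have hc'0 : 0 < c' := by rw [hc']; positivity
  obtain ⟨Q, hQ⟩ : ∃ Q : ℝ, Q = 2048 * C0 / c' := ⟨_, rfl⟩
  have hQ0 : 0 < Q := by rw [hQ]; positivity
  obtain ⟨k, hk1, hk2⟩ : ∃ k : ℝ, 1 ≤ k ∧ 64 * Q ^ 2 * C3 / c' ≤ k :=
    ⟨max 1 (64 * Q ^ 2 * C3 / c'), le_max_left _ _, le_max_right _ _⟩
  have hk0 : 0 < k := by linarith
  obtain ⟨δ, hδ⟩ : ∃ δ : ℝ, δ = c' / 256 := ⟨_, rfl⟩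
  have hδ0 : 0 < δ := by rw [hδ]; positivity
  obtain ⟨s, hs⟩ : ∃ s : ℝ, s = c2 * θ / 64 := ⟨_, rfl⟩
  have hs0 : 0 < s := by rw [hs]; positivity
  obtain ⟨Cf, hCf⟩ : ∃ Cf : ℝ, Cf = c' * |Real.log (s / k)| + 16 * (|C5 δ| + Real.log 2) +
      2 * Real.log 2 * (Q ^ 2 * C3 / k + 32 * (C0 / Q)) := ⟨_, rfl⟩
  obtain ⟨l1, hl1⟩ := exists_nat_ge (k / s)
  obtain ⟨l2, hl2⟩ := exists_nat_gt (Real.exp (2 * Cf / c'))
  obtain ⟨l3, hl3⟩ := exists_nat_ge (k + 2 * k / γ)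
  refine ⟨δ, k, l1 + l2 + l3 + 2, hδ0, hk1, by omega, fun l hl => ?_⟩
  have hlr : ((l1 + l2 + l3 + 2 : ℕ) : ℝ) ≤ l := by exact_mod_cast hl
  push_cast at hlr
  have h10 : (0 : ℝ) ≤ l1 := Nat.cast_nonneg _
  have h20 : (0 : ℝ) ≤ l2 := Nat.cast_nonneg _
  have h30 : (0 : ℝ) ≤ l3 := Nat.cast_nonneg _
  generalize (l : ℝ) = l at *
  have hl2' : (2 : ℝ) ≤ l := by linarith
  have hl0 : (0 : ℝ) < l := by linarith
  have hlsq : l ≤ l ^ 2 := by nlinarith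
  have hkγ : 0 ≤ 2 * k / γ := by positivity
  have hb1 : k / l ^ 2 ≤ 1 := by
    rw [div_le_one (by positivity)]
    linarith
  have hbγ : k / l ^ 2 ≤ γ / 2 := by
    rw [div_le_iff₀ (by positivity)]
    have h1 : 2 * k / γ ≤ l ^ 2 := by linarith
    rw [div_le_iff₀ hγ] at h1
    linarith
  refine ⟨hb1, hbγ, fun n m T hn hn16 hm h => ?_⟩
  by_contra hT
  push Not at hT
  have hl2ne : l ^ 2 ≠ 0 := by positivity
  obtain ⟨L, hL⟩ : ∃ L : ℝ, L = Real.log (1 / (k / l ^ 2)) := ⟨_, rfl⟩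
  have hLeq : L = 2 * Real.log l - Real.log k := by
    rw [hL, one_div, inv_div, Real.log_div hl2ne hk0.ne', Real.log_pow]
    push_cast
    ring
  have hLb : Real.log (k / l ^ 2) = -L := by
    rw [hL, one_div, Real.log_inv, neg_neg]
  have hlogk : 0 ≤ Real.log k := Real.log_nonneg hk1
  have hL0 : 0 ≤ L := by
    rw [hL]
    refine Real.log_nonneg ?_
    rw [le_div_iff₀ (by positivity)]
    linarith
  have hL2 : L ≤ 2 * Real.log l := by linarith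
  obtain ⟨t, ht⟩ : ∃ t : ℝ, t = c2 * θ / 64 / l := ⟨_, rfl⟩
  obtain ⟨lam, hlam⟩ : ∃ lam : ℝ, lam = 4 * C1 / (c2 * θ * l) := ⟨_, rfl⟩
  have hlam0 : 0 < lam := by rw [hlam]; positivity
  have hbt : k / l ^ 2 ≤ t := by
    rw [ht, ← hs, div_le_div_iff₀ (by positivity) hl0]
    have h1 : k ≤ s * l := by
      have : k / s ≤ l := by linarith
      rwa [div_le_iff₀ hs0, mul_comm] at this
    calc k * l ≤ (s * l) * l := mul_le_mul_of_nonneg_right h1 hl0.le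
      _ = s * l ^ 2 := by ring
  have hΛ : Real.log (t / (k / l ^ 2)) = Real.log l + Real.log (s / k) := by
    rw [ht, ← hs]
    have h1 : s / l / (k / l ^ 2) = l * (s / k) := by
      field_simp
    rw [h1, Real.log_mul hl0.ne' (by positivity)]
  have hΛ0 : 0 ≤ Real.log (t / (k / l ^ 2)) := by
    refine Real.log_nonneg ?_
    rw [le_div_iff₀ (by positivity)]
    linarith
  have hG := num_gain hc2 hθ hC1 hl0 hm hT hn16 hΛ0 ht hlam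
  rw [← hc'] at hG
  have hmain := h t lam Q hbt hlam0 hQ0
  rw [← hL, hLb] at hmain
  have hb3 : Q ^ 2 * (C3 / (k / l ^ 2)) = l ^ 2 * (Q ^ 2 * C3 / k) := by
    field_simp
  have hl2log : 0 ≤ Real.log 2 := Real.log_nonneg one_le_two
  have hq20 : 0 ≤ C0 / Q := by positivity
  have hcomb := num_comb hl0 hn hn16 hL0 hl2log hδ0.le hq20 hG hb3 hmain
  have hq1 : 32 * (C0 / Q) = c' / 64 := by
    rw [hQ]
    field_simp
    norm_num
  have hq2 : Q ^ 2 * C3 / k ≤ c' / 64 := by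
    rw [div_le_iff₀ hk0]
    rw [div_le_iff₀ hc'0] at hk2
    linarith
  have hq3 : 0 ≤ Q ^ 2 * C3 / k := by positivity
  have hfin := num_fin hc'0 hL0 hL2 hΛ hδ hl2log (by linarith) (by linarith) hcomb
  rw [← hCf] at hfin
  have hexp : 2 * Cf / c' < Real.log l := by
    rw [Real.lt_log_iff_exp_lt hl0]
    linarith
  rw [div_lt_iff₀ hc'0] at hexp
  linarith

end P365L.Op
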