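import Vale.Agent.P365.Open.Chain
import Vale.Agent.P365.Open.Layer2
import Vale.Agent.P365.Open.Num
import Vale.Agent.P365.Torus.Stat

/-!
# P365, block OPEN: assembly on the torus.

`open_main`: the annealed transmission from the ball of radius `l` to the exterior of the ball of
radius `2 l` is at most `θ` for all large `l`, given the slope bound `LOC5` at the single
scale `b = k / l²`.
-/

set_option linter.all false

namespace P365L.Op

open MeasureTheory ProbabilityTheory Complex P365L P365L.Poi P365F P365O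
open scoped ENNReal NNReal Real ComplexConjugate

variable {N : ℕ} [NeZero N]

/-- number of pairs -/
def npair (N : ℕ) [NeZero N] (r1 r2 : ℕ) : ℕ := ∑ r ∈ Finset.Ico r1 r2, (layer N r).card

theorem npair_le {r1 l : ℕ} : npair N r1 (2 * l) ≤ 16 * l ^ 2 := by
  have h1 : npair N r1 (2 * l) = ((Finset.Ico r1 (2 * l)).biUnion (fun r => layer N r)).card := by
    rw [Finset.card_biUnion]
    · rfl
    · intro r _ s _ hrs
      rw [Function.onFun, Finset.disjoint_left]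
      intro x hx hx'
      rw [mem_layer] at hx hx'
      exact hrs (hx.symm.trans hx')
  rw [h1]
  rcases Nat.eq_zero_or_pos l with rfl | hl
  · simp
  · have h2 : (Finset.Ico r1 (2 * l)).biUnion (fun r => layer N r) ⊆ ball N (2 * l - 1) := by
      intro x hx
      rw [Finset.mem_biUnion] at hx
      obtain ⟨r, hr, hx⟩ := hx
      rw [Finset.mem_Ico] at hr
      rw [mem_layer] at hx
      rw [mem_ball]
      omega
    refine (Finset.card_le_card h2).trans ((card_ball_le _).trans ?_)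
    have h3 : 2 * (2 * l - 1) + 1 ≤ 4 * l := by omega
    calc (2 * (2 * l - 1) + 1) ^ 2 ≤ (4 * l) ^ 2 := Nat.pow_le_pow_left h3 2
      _ = 16 * l ^ 2 := by ring

theorem disjoint_layers {r s : ℕ} (h : r ≠ s) : Disjoint (layer N r) (layer N s) := by
  rw [Finset.disjoint_left]
  intro x hx hx'
  rw [mem_layer] at hx hx'
  exact h (hx.symm.trans hx')

/-- the third moment sum: `∑ over the layers of E (γ K_zX) ≤ (500/γ²)/b` in the profile `γ` on `X`,
`b` elsewhere -/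
theorem S3_le {γ b : ℝ} (hγ : 0 < γ) (hb : 0 < b) (hbγ : b ≤ γ) (U : Tor N → ℝ) {l r1 r2 : ℕ}
    (hl : 1 ≤ l) (hr1 : l ≤ 3 * (r1 - l)) :
    ∑ r ∈ Finset.Ico r1 r2, ∑ z ∈ layer N r,
      EEp γ (pr γ b (ball N l)) U (fun W => γ * Op.KS (AT N) W (ball N l) z) ≤
        (500 / γ ^ 2) / b := by
  have hA := AT_symm N
  have hp : ∀ x, 0 < pr γ b (ball N l) x := pr_pos hγ hb _
  have hpγ : ∀ x, pr γ b (ball N l) x ≤ γ := pr_le hbγ _
  have h0 := L2' hγ U hp hpγ hl hr1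
  have hlr : l < r1 := by omega
  rw [le_div_iff₀ hb]
  refine le_trans ?_ h0
  have hadm : ∀ z : Tor N, Adm fun W : Tor N → ℂ => γ * Op.KS (AT N) W (ball N l) z := fun z =>
    (adm_KS hA _ z).const_mul γ
  have h1 : ∑ r ∈ Finset.Ico r1 r2, ∑ z ∈ layer N r,
      EEp γ (pr γ b (ball N l)) U (fun W => γ * Op.KS (AT N) W (ball N l) z) =
      EEp γ (pr γ b (ball N l)) U (fun W => ∑ r ∈ Finset.Ico r1 r2, ∑ z ∈ layer N r,
        γ * Op.KS (AT N) W (ball N l) z) := by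
    rw [EEp_sum hp _ fun r _ => Adm.sum _ fun z _ => hadm z]
    exact Finset.sum_congr rfl fun r _ => (EEp_sum hp _ fun z _ => hadm z).symm
  rw [h1, mul_comm, ← EEp_mul]
  refine EEp_le hp (Adm.const_mul (Adm.sum _ fun r _ => Adm.sum _ fun z _ => hadm z) _)
    (Adm_Trm hA _ _) fun W hW => ?_
  have hW0 : ∀ x, (W x).im < 0 := fun x => by rw [hW]; linarith [hp x]
  have hU : (Finset.Ico r1 r2).biUnion (fun r => layer N r) ⊆ ext N r1 := by
    intro x hx
    rw [Finset.mem_biUnion] at hx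
    obtain ⟨r, hr, hx⟩ := hx
    rw [Finset.mem_Ico] at hr
    rw [mem_layer] at hx
    rw [mem_ext]
    omega
  have h2 : ∑ r ∈ Finset.Ico r1 r2, ∑ z ∈ layer N r, γ * Op.KS (AT N) W (ball N l) z =
      ∑ z ∈ (Finset.Ico r1 r2).biUnion (fun r => layer N r), γ * Op.KS (AT N) W (ball N l) z := by
    rw [Finset.sum_biUnion]
    intro r _ s _ hrs
    exact disjoint_layers hrs
  have h3 : ∑ z ∈ (Finset.Ico r1 r2).biUnion (fun r => layer N r),
        γ * Op.KS (AT N) W (ball N l) z ≤ ∑ z ∈ ext N r1, γ * Op.KS (AT N) W (ball N l) z :=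
    Finset.sum_le_sum_of_subset_of_nonneg hU fun z _ _ => mul_nonneg hγ.le (Op.KS_nonneg _ _)
  rw [h2]
  refine (mul_le_mul_of_nonneg_left h3 hb.le).trans (le_of_eq ?_)
  unfold Trm
  rw [Finset.sum_comm, Finset.mul_sum]
  refine Finset.sum_congr rfl fun z hz => ?_
  have hzX : z ∉ ball N l := by
    rw [mem_ball]
    rw [mem_ext] at hz
    omega
  unfold Op.KS
  rw [Finset.mul_sum, Finset.mul_sum]
  refine Finset.sum_congr rfl fun a ha => ?_
  rw [hW, hW, neg_neg, neg_neg, pr_mem ha, pr_notMem hzX, KK_symm hA z a]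
  ring

theorem sum_lin (r1 r2 : ℕ) (F1 F2 F3 : ℕ → Tor N → ℝ) (α β κ μ : ℝ) :
    ∑ r ∈ Finset.Ico r1 r2, ∑ z ∈ layer N r, (α + β * F1 r z + κ * F2 r z + μ * F3 r z) =
      α * npair N r1 r2 + β * (∑ r ∈ Finset.Ico r1 r2, ∑ z ∈ layer N r, F1 r z) +
        κ * (∑ r ∈ Finset.Ico r1 r2, ∑ z ∈ layer N r, F2 r z) +
        μ * (∑ r ∈ Finset.Ico r1 r2, ∑ z ∈ layer N r, F3 r z) := by
  simp only [Finset.sum_add_distrib, ← Finset.mul_sum]
  congr 3
  simp only [Finset.sum_const, nsmul_eq_mul]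
  rw [npair]
  push_cast
  rw [← Finset.sum_mul, mul_comm]

/-- the chain summed over all pairs `(r, z)`, `r1 ≤ r < r2`, `z` in the layer `r` -/
theorem chain_sum {γ b e0 B : ℝ} (hγ : 0 < γ) (he0 : 0 < e0) (heb : e0 ≤ b)
    (hbγ : b ≤ γ / 2) (hb1 : b ≤ 1) (U : Tor N → ℝ) (hU : ∀ x, |U x| ≤ B) {l r1 r2 : ℕ}
    (hl : 1 ≤ l) (hr1 : l ≤ 3 * (r1 - l)) (hr12 : r1 ≤ r2) {t lam Q : ℝ} (hbt : b ≤ t)
    (hlam : 0 < lam) (hQ : 0 < Q) :
    (npair N r1 r2 : ℝ) * Real.log b + (2 * Real.log (t / b) / lam) *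
        (((r2 : ℝ) - r1) * (γ / (γ ^ 2 + 16)) *
            EEp γ (pr γ e0 (ball N l ∪ ext N r2)) U (fun W => Trm (AT N) W (ball N l) (ext N r2)) -
          (npair N r1 r2 : ℝ) * t - (1000 / γ ^ 4) / (2 * lam)) -
        ((npair N r1 r2 : ℝ) * Real.log 2 + 2 * (Real.log 2 + 2 * Real.log (1 / b)) *
          (Q ^ 2 * ((500 / γ ^ 3) / b) +
            (npair N r1 r2 : ℝ) * (2 * ((2 * (4 + (B ^ 2 + γ ^ 2)) / γ) / Q)))) ≤
      ∑ r ∈ Finset.Ico r1 r2, ∑ z ∈ layer N r, EEp γ (fun _ => b) U (Lm (AT N) b z) := by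
  have hA := AT_symm N
  have hb : 0 < b := he0.trans_le heb
  have hγ2 : 0 < γ ^ 2 := by positivity
  have hlb : 0 ≤ Real.log (1 / b) := Real.log_nonneg (by rw [le_div_iff₀ hb]; linarith)
  have hl2 : 0 ≤ Real.log 2 := Real.log_nonneg one_le_two
  have hlt : 0 ≤ Real.log (t / b) := Real.log_nonneg (by rw [le_div_iff₀ hb]; linarith)
  set C0 : ℝ := 2 * (4 + (B ^ 2 + γ ^ 2)) / γ with hC0def
  have hC0 : ∀ z, 1 ≤ C0 * ‖Gr (AT N) (W0 γ U) z z‖ := by
    intro z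
    have hW0 : ∀ x, (W0 γ U x).im ≤ -γ := fun x => (W0_im γ U x).le
    have hd : ∑ y, AT N z y ^ 2 ≤ 4 := by
      simp only [AT_sq]
      exact row_sum_le z
    have h1 := Gr_self_lower hA hγ hW0 z hd
    refine h1.trans (mul_le_mul_of_nonneg_right ?_ (norm_nonneg _))
    rw [hC0def]
    refine div_le_div_of_nonneg_right ?_ hγ.le
    have h2 : ‖W0 γ U z‖ ^ 2 = U z ^ 2 + γ ^ 2 := by
      rw [Complex.sq_norm, Complex.normSq_apply]
      unfold W0
      simp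
      ring
    have h3 : U z ^ 2 ≤ B ^ 2 := by
      rw [← sq_abs (U z)]
      exact pow_le_pow_left₀ (abs_nonneg _) (hU z) 2
    rw [h2]
    linarith
  -- the chain at one site
  have hsite : ∀ r ∈ Finset.Ico r1 r2, ∀ z ∈ layer N r,
      Real.log b + (2 * Real.log (t / b) / lam) *
        (EEp γ (pr γ e0 (ball N l ∪ ext N r)) U (fun W => γ * Op.KS (AT N) W (ball N l) z) - t -
          EEp γ (pr γ e0 (ball N l ∪ ext N r)) U
            (fun W => (γ * Op.KS (AT N) W (ball N l) z) ^ 2) / (2 * lam)) -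
        (Real.log 2 + 2 * (Real.log 2 + 2 * Real.log (1 / b)) *
          (Q ^ 2 / γ * EEp γ (pr γ b (ball N l)) U
            (fun W => γ * Op.KS (AT N) W (ball N l) z) + 2 * (C0 / Q))) ≤
      EEp γ (fun _ => b) U (Lm (AT N) b z) := by
    intro r hr z hz
    rw [Finset.mem_Ico] at hr
    exact chain_site hA hγ he0 heb (by linarith) hb1 U
      (disjoint_ball_ext (show l < r by omega)) (mem_ext.2 (mem_layer.1 hz).ge) hbt hlam hQ (hC0 z)
  refine le_trans ?_ (Finset.sum_le_sum fun r hr => Finset.sum_le_sum fun z hz => hsite r hr z hz)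
  -- names for the sums
  set S1 : ℝ := ∑ r ∈ Finset.Ico r1 r2, ∑ z ∈ layer N r,
    EEp γ (pr γ e0 (ball N l ∪ ext N r)) U (fun W => γ * Op.KS (AT N) W (ball N l) z) with hS1
  set S2 : ℝ := ∑ r ∈ Finset.Ico r1 r2, ∑ z ∈ layer N r,
    EEp γ (pr γ e0 (ball N l ∪ ext N r)) U (fun W => (γ * Op.KS (AT N) W (ball N l) z) ^ 2) with hS2
  set S3 : ℝ := ∑ r ∈ Finset.Ico r1 r2, ∑ z ∈ layer N r,
    EEp γ (pr γ b (ball N l)) U (fun W => γ * Op.KS (AT N) W (ball N l) z) with hS3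
  set n : ℝ := (npair N r1 r2 : ℝ) with hn
  have hexp : ∑ r ∈ Finset.Ico r1 r2, ∑ z ∈ layer N r,
      (Real.log b + (2 * Real.log (t / b) / lam) *
        (EEp γ (pr γ e0 (ball N l ∪ ext N r)) U (fun W => γ * Op.KS (AT N) W (ball N l) z) - t -
          EEp γ (pr γ e0 (ball N l ∪ ext N r)) U
            (fun W => (γ * Op.KS (AT N) W (ball N l) z) ^ 2) / (2 * lam)) -
        (Real.log 2 + 2 * (Real.log 2 + 2 * Real.log (1 / b)) *
          (Q ^ 2 / γ * EEp γ (pr γ b (ball N l)) U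
            (fun W => γ * Op.KS (AT N) W (ball N l) z) + 2 * (C0 / Q)))) =
      n * Real.log b + (2 * Real.log (t / b) / lam) * (S1 - n * t - S2 / (2 * lam)) -
        (n * Real.log 2 + 2 * (Real.log 2 + 2 * Real.log (1 / b)) *
          (Q ^ 2 / γ * S3 + n * (2 * (C0 / Q)))) := by
    have h := sum_lin (N := N) r1 r2
      (fun r z => EEp γ (pr γ e0 (ball N l ∪ ext N r)) U
        (fun W => γ * Op.KS (AT N) W (ball N l) z))
      (fun r z => EEp γ (pr γ e0 (ball N l ∪ ext N r)) U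
        (fun W => (γ * Op.KS (AT N) W (ball N l) z) ^ 2))
      (fun r z => EEp γ (pr γ b (ball N l)) U (fun W => γ * Op.KS (AT N) W (ball N l) z))
      (Real.log b - (2 * Real.log (t / b) / lam) * t - Real.log 2 -
        2 * (Real.log 2 + 2 * Real.log (1 / b)) * (2 * (C0 / Q)))
      (2 * Real.log (t / b) / lam) (-((2 * Real.log (t / b) / lam) / (2 * lam)))
      (-(2 * (Real.log 2 + 2 * Real.log (1 / b)) * (Q ^ 2 / γ)))
    rw [← hS1, ← hS2, ← hS3, ← hn] at h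
    have e : n * Real.log b + (2 * Real.log (t / b) / lam) * (S1 - n * t - S2 / (2 * lam)) -
        (n * Real.log 2 + 2 * (Real.log 2 + 2 * Real.log (1 / b)) *
          (Q ^ 2 / γ * S3 + n * (2 * (C0 / Q)))) =
      (Real.log b - (2 * Real.log (t / b) / lam) * t - Real.log 2 -
        2 * (Real.log 2 + 2 * Real.log (1 / b)) * (2 * (C0 / Q))) * n +
      (2 * Real.log (t / b) / lam) * S1 + (-((2 * Real.log (t / b) / lam) / (2 * lam))) * S2 +
      (-(2 * (Real.log 2 + 2 * Real.log (1 / b)) * (Q ^ 2 / γ))) * S3 := by ring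
    rw [e, ← h]
    refine Finset.sum_congr rfl fun r _ => Finset.sum_congr rfl fun z _ => ?_
    ring
  rw [hexp]
  -- bounds of the three sums
  have b1 : ((r2 : ℝ) - r1) * (γ / (γ ^ 2 + 16)) *
      EEp γ (pr γ e0 (ball N l ∪ ext N r2)) U (fun W => Trm (AT N) W (ball N l) (ext N r2)) ≤ S1 := by
    set T : ℝ := EEp γ (pr γ e0 (ball N l ∪ ext N r2)) U
      (fun W => Trm (AT N) W (ball N l) (ext N r2)) with hT
    have h1 : ∀ r ∈ Finset.Ico r1 r2, γ / (γ ^ 2 + 16) * T ≤ ∑ z ∈ layer N r,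
        EEp γ (pr γ e0 (ball N l ∪ ext N r)) U (fun W => γ * Op.KS (AT N) W (ball N l) z) := by
      intro r hr
      rw [Finset.mem_Ico] at hr
      have h2 := P365O.L2 (N := N) (l := l) (r := r) (r2 := r2) he0 (show e0 ≤ γ by linarith) U
        (by omega) hr.2.le
      have h3 : ∀ z, EEp γ (pr γ e0 (ball N l ∪ ext N r)) U
          (fun W => γ * Op.KS (AT N) W (ball N l) z) =
          γ * EEp γ (pr γ e0 (ball N l ∪ ext N r)) U
            (fun W => ∑ a ∈ ball N l, KK (AT N) W z a) := fun z => EEp_mul _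
      simp only [h3]
      rw [← Finset.mul_sum, div_mul_eq_mul_div, div_le_iff₀ (by positivity)]
      calc γ * T ≤ γ * ((γ ^ 2 + 16) * ∑ z ∈ layer N r,
            EEp γ (pr γ e0 (ball N l ∪ ext N r)) U
              (fun W => ∑ a ∈ ball N l, KK (AT N) W z a)) := mul_le_mul_of_nonneg_left h2 hγ.le
        _ = _ := by ring
    have h4 := Finset.sum_le_sum h1
    rw [Finset.sum_const, Nat.card_Ico, nsmul_eq_mul, Nat.cast_sub hr12] at h4
    rw [hS1]
    calc ((r2 : ℝ) - r1) * (γ / (γ ^ 2 + 16)) * T = ((r2 : ℝ) - r1) * (γ / (γ ^ 2 + 16) * T) := by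
          ring
      _ ≤ _ := h4
  have b2 : S2 ≤ 1000 / γ ^ 4 := by
    have h1 := P365O.L1 (N := N) hγ he0 (heb.trans hbγ) U hl hr1 (r2 := r2)
    have h3 : ∀ r z, EEp γ (pr γ e0 (ball N l ∪ ext N r)) U
        (fun W => (γ * Op.KS (AT N) W (ball N l) z) ^ 2) =
        γ ^ 2 * EEp γ (pr γ e0 (ball N l ∪ ext N r)) U
          (fun W => (∑ a ∈ ball N l, KK (AT N) W z a) ^ 2) := by
      intro r z
      rw [← EEp_mul]
      congr 1
      funext W
      rw [mul_pow]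
      rfl
    rw [hS2]
    simp only [h3, ← Finset.mul_sum]
    calc γ ^ 2 * ∑ r ∈ Finset.Ico r1 r2, ∑ z ∈ layer N r,
          EEp γ (pr γ e0 (ball N l ∪ ext N r)) U
            (fun W => (∑ a ∈ ball N l, KK (AT N) W z a) ^ 2) ≤ γ ^ 2 * (1000 / γ ^ 6) :=
          mul_le_mul_of_nonneg_left h1 (by positivity)
      _ = 1000 / γ ^ 4 := by field_simp
  have b3 : Q ^ 2 / γ * S3 ≤ Q ^ 2 * ((500 / γ ^ 3) / b) := by
    have := S3_le hγ hb (by linarith) U hl hr1 (r2 := r2)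
    calc Q ^ 2 / γ * S3 ≤ Q ^ 2 / γ * ((500 / γ ^ 2) / b) :=
          mul_le_mul_of_nonneg_left this (by positivity)
      _ = _ := by field_simp
  have c1 : (2 * Real.log (t / b) / lam) * (((r2 : ℝ) - r1) * (γ / (γ ^ 2 + 16)) *
            EEp γ (pr γ e0 (ball N l ∪ ext N r2)) U (fun W => Trm (AT N) W (ball N l) (ext N r2)) -
          n * t - (1000 / γ ^ 4) / (2 * lam)) ≤
      (2 * Real.log (t / b) / lam) * (S1 - n * t - S2 / (2 * lam)) := by
    refine mul_le_mul_of_nonneg_left ?_ (by positivity)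
    have : S2 / (2 * lam) ≤ (1000 / γ ^ 4) / (2 * lam) :=
      div_le_div_of_nonneg_right b2 (by positivity)
    linarith
  have c2 : 2 * (Real.log 2 + 2 * Real.log (1 / b)) *
          (Q ^ 2 / γ * S3 + n * (2 * (C0 / Q))) ≤
      2 * (Real.log 2 + 2 * Real.log (1 / b)) *
          (Q ^ 2 * ((500 / γ ^ 3) / b) + n * (2 * (C0 / Q))) :=
    mul_le_mul_of_nonneg_left (by linarith) (by positivity)
  linarith

/-- **OPEN CONDUCTANCE TENDS TO ZERO**, from the slope bound at the scale `b = k / l²` -/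
theorem open_main {γ B θ : ℝ} (hγ : 0 < γ) (hθ : 0 < θ) (C5 : ℝ → ℝ) :
    ∃ (δ k : ℝ) (l0 : ℕ), 0 < δ ∧ 1 ≤ k ∧ 2 ≤ l0 ∧ ∀ l : ℕ, l0 ≤ l →
      k / (l : ℝ) ^ 2 ≤ 1 ∧ k / (l : ℝ) ^ 2 ≤ γ / 2 ∧
      ∀ (ρ : Measure ℝ) [IsProbabilityMeasure ρ], ρ (Set.Icc (-B) B)ᶜ = 0 →
      ∀ (N : ℕ) [NeZero N],
        EU ρ γ (fun _ : Tor N => k / (l : ℝ) ^ 2) (Lm (AT N) (k / (l : ℝ) ^ 2) 0) ≤
          -(1 - δ) * Real.log (1 / (k / (l : ℝ) ^ 2)) + C5 δ →
      ∀ e0 : ℝ, 0 < e0 → e0 ≤ k / (l : ℝ) ^ 2 →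
        EU ρ γ (pr γ e0 (ball N l ∪ ext N (2 * l)))
          (fun W => Trm (AT N) W (ball N l) (ext N (2 * l))) ≤ θ := by
  have hc2 : 0 < γ / (γ ^ 2 + 16) := by positivity
  obtain ⟨δ, k, l0, hδ, hk, hl0, H⟩ := numeric (γ := γ) (c2 := γ / (γ ^ 2 + 16))
    (C1 := 1000 / γ ^ 4) (C3 := 500 / γ ^ 3) (C0 := 2 * (4 + (B ^ 2 + γ ^ 2)) / γ) (θ := θ) hγ hc2
    (by positivity) (by positivity) (by positivity) hθ C5
  refine ⟨δ, k, l0, hδ, hk, hl0, fun l hl => ?_⟩
  obtain ⟨hb1, hbγ, H2⟩ := H l hl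
  refine ⟨hb1, hbγ, fun ρ _ hB N _ h5 e0 he0 heb => ?_⟩
  have hA := AT_symm N
  have hl2 : 2 ≤ l := hl0.trans hl
  obtain ⟨b, hbdef⟩ : ∃ b : ℝ, b = k / (l : ℝ) ^ 2 := ⟨_, rfl⟩
  rw [← hbdef] at hb1 hbγ h5 heb H2
  have hb : 0 < b := he0.trans_le heb
  obtain ⟨r1, hr1⟩ : ∃ r1 : ℕ, r1 = l + l / 2 := ⟨_, rfl⟩
  have hr1l : l ≤ 3 * (r1 - l) := by omega
  have hr12 : r1 ≤ 2 * l := by omega
  have hp2 : ∀ x, 0 < pr γ e0 (ball N l ∪ ext N (2 * l)) x := pr_pos hγ he0 _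
  refine H2 (npair N r1 (2 * l)) ((2 * l : ℕ) - r1) _ (Nat.cast_nonneg _) ?_ ?_ ?_
  · exact_mod_cast npair_le
  · have : (l : ℝ) ≤ 2 * ((2 * l : ℕ) - r1 : ℝ) := by
      have h1 : l + 2 * r1 ≤ 2 * (2 * l) := by omega
      have h2 : ((l + 2 * r1 : ℕ) : ℝ) ≤ ((2 * (2 * l) : ℕ) : ℝ) := by exact_mod_cast h1
      push_cast at h2 ⊢
      linarith
    linarith
  intro t lam Q hbt hlam hQ
  -- integrate the quenched inequality
  have hAL : ∀ z, Adm (Lm (AT N) b z) := fun z => adm_Lm hA hb z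
  have hiT := integrable_EEp ρ (Adm_Trm hA (ball N l) (ext N (2 * l))) hp2 γ
  have hiL : Integrable (fun U => ∑ r ∈ Finset.Ico r1 (2 * l), ∑ z ∈ layer N r,
      EEp γ (fun _ => b) U (Lm (AT N) b z)) (Measure.pi fun _ : Tor N => ρ) :=
    integrable_finset_sum _ fun r _ => integrable_finset_sum _ fun z _ =>
      integrable_EEp ρ (hAL z) (fun _ => hb) γ
  set n : ℝ := (npair N r1 (2 * l) : ℝ) with hn
  set m : ℝ := ((2 * l : ℕ) : ℝ) - r1 with hm
  set g : ℝ := γ / (γ ^ 2 + 16) with hg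
  set V : ℝ := 2 * Real.log (t / b) / lam with hV
  set R : ℝ := n * Real.log 2 + 2 * (Real.log 2 + 2 * Real.log (1 / b)) *
          (Q ^ 2 * ((500 / γ ^ 3) / b) +
            n * (2 * ((2 * (4 + (B ^ 2 + γ ^ 2)) / γ) / Q))) with hR
  have hint := integral_mono_ae
    (μ := Measure.pi fun _ : Tor N => ρ)
    (f := fun U => (n * Real.log b + V * (-(n * t) - (1000 / γ ^ 4) / (2 * lam)) - R) +
      (V * (m * g)) * EEp γ (pr γ e0 (ball N l ∪ ext N (2 * l))) U
        (fun W => Trm (AT N) W (ball N l) (ext N (2 * l))))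
    (g := fun U => ∑ r ∈ Finset.Ico r1 (2 * l), ∑ z ∈ layer N r,
      EEp γ (fun _ => b) U (Lm (AT N) b z))
    ((integrable_const _).add (hiT.const_mul _)) hiL (by
      filter_upwards [ae_bounded ρ hB] with U hU
      have h := chain_sum hγ he0 heb hbγ hb1 U hU (by omega : 1 ≤ l) hr1l hr12 hbt hlam hQ
      refine le_trans (le_of_eq ?_) h
      ring)
  rw [integral_add (integrable_const _) (hiT.const_mul _), integral_const_mul,
    integral_finset_sum _ fun r _ => integrable_finset_sum _ fun z _ =>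
      integrable_EEp ρ (hAL z) (fun _ => hb) γ] at hint
  have hcov : Cov fun (z : Tor N) (W : Tor N → ℂ) => Lm (AT N) b z W := by
    intro a x W
    show Real.log (b + mm (AT N) (sh a W) x) = Real.log (b + mm (AT N) W (x + a))
    rw [mm_sh (TI_AT N)]
  have hsum : ∑ r ∈ Finset.Ico r1 (2 * l), ∫ U, ∑ z ∈ layer N r,
      EEp γ (fun _ => b) U (Lm (AT N) b z) ∂(Measure.pi fun _ : Tor N => ρ) =
      n * EU ρ γ (fun _ : Tor N => b) (Lm (AT N) b 0) := by
    have h1 : ∀ r, ∫ U, ∑ z ∈ layer N r,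
        EEp γ (fun _ => b) U (Lm (AT N) b z) ∂(Measure.pi fun _ : Tor N => ρ) =
        ((layer N r).card : ℝ) * EU ρ γ (fun _ : Tor N => b) (Lm (AT N) b 0) := by
      intro r
      rw [integral_finset_sum _ fun z _ => integrable_EEp ρ (hAL z) (fun _ => hb) γ]
      have h2 : ∀ z ∈ layer N r, ∫ U, EEp γ (fun _ => b) U (Lm (AT N) b z)
          ∂(Measure.pi fun _ : Tor N => ρ) = EU ρ γ (fun _ : Tor N => b) (Lm (AT N) b 0) :=
        fun z _ => EU_cov ρ γ b hcov z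
      rw [Finset.sum_congr rfl h2, Finset.sum_const, nsmul_eq_mul]
    simp only [h1]
    rw [← Finset.sum_mul, hn, npair]
    push_cast
    rfl
  rw [hsum] at hint
  have hn0 : 0 ≤ n := Nat.cast_nonneg _
  have h6 := mul_le_mul_of_nonneg_left h5 hn0
  simp only [integral_const, probReal_univ, one_smul] at hint
  refine le_trans (le_of_eq ?_) (hint.trans h6)
  rw [hR]
  unfold EU
  ring

end P365L.Op
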