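import Mathlib.Analysis.SpecialFunctions.Integrals.PosLogEqCircleAverage
import Vale.Agent.P365.Open.Defs

set_option linter.all false

/-!
# P365: the Cauchy law is the uniform law on the circle.

`φ(t) = π - 2 arctan t` maps the standard Cauchy law to the uniform law on `(0, 2π)`, and
`exp(i φ(t)) = (t + i)/(t - i)`.
-/

namespace P365L

open MeasureTheory ProbabilityTheory Complex Set
open scoped ENNReal NNReal Real

/-- the angle -/
noncomputable def cphi (t : ℝ) : ℝ := π - 2 * Real.arctan t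

theorem cphi_measurable : Measurable cphi := by
  unfold cphi
  exact measurable_const.sub (measurable_const.mul Real.continuous_arctan.measurable)

theorem cphi_injective : Function.Injective cphi := by
  intro s t h
  unfold cphi at h
  have : Real.arctan s = Real.arctan t := by linarith
  exact Real.arctan_injective this

theorem cphi_image : cphi '' univ = Ioo 0 (2 * π) := by
  ext x
  constructor
  · rintro ⟨t, _, rfl⟩
    unfold cphi
    have h1 := Real.arctan_lt_pi_div_two t
    have h2 := Real.neg_pi_div_two_lt_arctan t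
    exact ⟨by linarith, by linarith⟩
  · rintro ⟨h1, h2⟩
    refine ⟨Real.tan ((π - x) / 2), mem_univ _, ?_⟩
    unfold cphi
    rw [Real.arctan_tan (by linarith) (by linarith)]
    ring

theorem cphi_hasDeriv (t : ℝ) : HasDerivAt cphi (-(2 * (1 / (1 + t ^ 2)))) t := by
  unfold cphi
  exact ((Real.hasDerivAt_arctan t).const_mul 2).const_sub π

theorem map_cphi : nu.map cphi = ENNReal.ofReal (2 * π)⁻¹ • volume.restrict (Ioo 0 (2 * π)) := by
  refine Measure.ext_of_lintegral _ fun f hf => ?_
  rw [lintegral_map hf cphi_measurable, lintegral_smul_measure]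
  have h1 : nu = volume.withDensity (cauchyPDF 0 1) :=
    cauchyMeasure_of_scale_ne_zero 0 one_ne_zero
  have h2 := lintegral_withDensity_eq_lintegral_mul volume (measurable_cauchyPDF 0 1)
    (hf.comp cphi_measurable)
  simp only [Function.comp_def] at h2
  rw [h1, h2, ← cphi_image,
    lintegral_image_eq_lintegral_abs_deriv_mul MeasurableSet.univ
      (fun x _ => (cphi_hasDeriv x).hasDerivWithinAt) cphi_injective.injOn, Measure.restrict_univ,
    smul_eq_mul, ← lintegral_const_mul' _ _ ENNReal.ofReal_ne_top]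
  refine lintegral_congr fun t => ?_
  simp only [Pi.mul_apply, Function.comp_apply, cauchyPDF]
  rw [← mul_assoc, ← ENNReal.ofReal_mul (by positivity)]
  congr 2
  rw [cauchyPDFReal_def, abs_neg, abs_of_nonneg (by positivity)]
  simp only [NNReal.coe_one, mul_one, sub_zero, one_pow]
  have : (1 + t ^ 2) ≠ 0 := by positivity
  have h3 : (t ^ 2 + 1) ≠ 0 := by positivity
  field_simp
  ring

theorem cphi_embedding : MeasurableEmbedding cphi :=
  cphi_measurable.measurableEmbedding cphi_injective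

theorem circle_cphi (t : ℝ) : circleMap 0 1 (cphi t) = ((t : ℂ) + I) / ((t : ℂ) - I) := by
  have hden : (t : ℂ) - I ≠ 0 := cau_sub_ne (by simp) t
  rw [circleMap, zero_add, Complex.ofReal_one, one_mul, cphi]
  rw [eq_div_iff hden]
  set φ := Real.arctan t with hφ
  have hc : Real.cos φ ≠ 0 := (Real.cos_arctan_pos t).ne'
  have ht : t = Real.sin φ / Real.cos φ := by
    rw [← Real.tan_eq_sin_div_cos, hφ, Real.tan_arctan]
  have h1 : cexp (((π - 2 * φ : ℝ) : ℂ) * I) = -(cexp (-(φ * I))) ^ 2 := by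
    push_cast
    rw [sub_mul, Complex.exp_sub, Complex.exp_pi_mul_I, ← Complex.exp_nat_mul, neg_div, one_div,
      ← Complex.exp_neg]
    congr 2
    push_cast
    ring
  have h2 : cexp (-(φ * I)) = Real.cos φ - Real.sin φ * I := by
    rw [← neg_mul, Complex.exp_mul_I]
    simp [Complex.cos_neg, Complex.sin_neg, sub_eq_add_neg]
  rw [h1, h2, ht]
  have hc' : (Real.cos φ : ℂ) ≠ 0 := Complex.ofReal_ne_zero.2 hc
  have hsc : (Real.sin φ : ℂ) ^ 2 + (Real.cos φ : ℂ) ^ 2 = 1 := by
    have := Real.sin_sq_add_cos_sq φ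
    exact_mod_cast this
  have hI := Complex.I_sq
  rw [Complex.ofReal_div]
  generalize (Real.sin φ : ℂ) = s at hsc ⊢
  generalize (Real.cos φ : ℂ) = c at hsc hc' ⊢
  have key : -(c - s * I) ^ 2 * (s - c * I) = s + c * I := by
    linear_combination (I * c + s) * hsc +
      (-s * (1 + (s ^ 2 + c ^ 2 - 1)) - I * (c - s * I) * s ^ 2 - s * (c - s * I) ^ 2) * hI
  have e1 : s / c - I = (s - c * I) / c := by field_simp
  have e2 : s / c + I = (s + c * I) / c := by field_simp
  rw [e1, e2, ← key]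
  ring

theorem nu_integral_circle {E : Type*} [NormedAddCommGroup E] [NormedSpace ℝ E] (F : ℂ → E) :
    ∫ t, F (((t : ℂ) + I) / ((t : ℂ) - I)) ∂nu = Real.circleAverage F 0 1 := by
  have h1 : ∫ t, F (((t : ℂ) + I) / ((t : ℂ) - I)) ∂nu =
      ∫ t, F (circleMap 0 1 (cphi t)) ∂nu := by
    simp only [circle_cphi]
  rw [h1, ← cphi_embedding.integral_map (fun x => F (circleMap 0 1 x)), map_cphi,
    integral_smul_measure, ENNReal.toReal_ofReal (by positivity), Real.circleAverage_def,
    intervalIntegral.integral_of_le (by positivity)]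
  congr 1
  exact (integral_Ioc_eq_integral_Ioo).symm

theorem nu_integrable_circle {E : Type*} [NormedAddCommGroup E] [NormedSpace ℝ E] {F : ℂ → E}
    (hF : CircleIntegrable F 0 1) :
    Integrable (fun t : ℝ => F (((t : ℂ) + I) / ((t : ℂ) - I))) nu := by
  have h1 : (fun t : ℝ => F (((t : ℂ) + I) / ((t : ℂ) - I))) =
      (fun x => F (circleMap 0 1 x)) ∘ cphi := by
    funext t
    simp only [Function.comp_apply, circle_cphi]
  rw [h1, ← cphi_embedding.integrable_map_iff, map_cphi]
  refine Integrable.smul_measure ?_ ENNReal.ofReal_ne_top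
  have h2 : IntervalIntegrable (fun x => F (circleMap 0 1 x)) volume 0 (2 * π) := hF
  rw [intervalIntegrable_iff_integrableOn_Ioc_of_le (by positivity)] at h2
  exact h2.mono_set Ioo_subset_Ioc_self

/-- the average of `log ‖p - r u‖` over the unit circle -/
theorem avg_log_affine {p : ℂ} (hp : p ≠ 0) (r : ℂ) :
    Real.circleAverage (fun u => Real.log ‖p - r * u‖) 0 1 =
      Real.log ‖p‖ + Real.posLog (‖r‖ / ‖p‖) := by
  by_cases hr : r = 0
  · subst hr
    have h : (fun u : ℂ => Real.log ‖p - 0 * u‖) = fun _ => Real.log ‖p‖ := by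
      funext u; simp
    rw [h, Real.circleAverage_const]
    simp [Real.posLog]
  · have hrn : 0 < ‖r‖ := norm_pos_iff.2 hr
    have hpn : 0 < ‖p‖ := norm_pos_iff.2 hp
    set k : ℂ := (‖r‖ : ℂ) / r with hk
    have hk1 : ‖k‖ = 1 := by
      rw [hk, norm_div, Complex.norm_real, Real.norm_of_nonneg hrn.le, div_self hrn.ne']
    have h1 : (fun u : ℂ => Real.log ‖p - r * u‖) =
        fun u : ℂ => (fun z : ℂ => Real.log ‖z - k * p‖) ((‖r‖ : ℝ) * u + 0) := by
      funext u
      simp only []
      congr 1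
      have h2 : (‖r‖ : ℂ) * u + 0 - k * p = -(k * (p - r * u)) := by
        rw [hk]; field_simp; ring
      rw [h2, norm_neg, norm_mul, hk1, one_mul]
    have h3 : Real.circleAverage (fun z : ℂ => Real.log ‖z - k * p‖) 0 ‖r‖ =
        Real.circleAverage (fun u : ℂ => (fun z : ℂ => Real.log ‖z - k * p‖) ((‖r‖ : ℝ) * u + 0))
          0 1 := Real.circleAverage_eq_circleAverage_zero_one
    rw [h1, ← h3, circleAverage_log_norm_sub_const_eq_log_radius_add_posLog hrn.ne', zero_sub,
      norm_neg, norm_mul, hk1, one_mul]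
    have h4 := Real.posLog_sub_posLog_inv (x := ‖r‖ / ‖p‖)
    rw [inv_div, Real.log_div hrn.ne' hpn.ne'] at h4
    rw [inv_mul_eq_div]
    linarith

/-! ### the kick multiplier in circle form -/

/-- `S = 1 + 2 i h g` -/
noncomputable def Sg (h : ℝ) (g : ℂ) : ℂ := 1 + 2 * h * I * g

theorem Sg_norm_lt {h : ℝ} (hh : 0 < h) {g : ℂ} (hg : h * ‖g‖ ^ 2 < g.im) : ‖Sg h g‖ < 1 := by
  have h1 : ‖Sg h g‖ ^ 2 = 1 - 4 * h * (g.im - h * ‖g‖ ^ 2) := by
    rw [Complex.sq_norm, Complex.sq_norm, Complex.normSq_apply, Complex.normSq_apply, Sg]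
    have e1 : (1 + 2 * (h : ℂ) * I * g).re = 1 - 2 * h * g.im := by simp [sub_eq_add_neg]
    have e2 : (1 + 2 * (h : ℂ) * I * g).im = 2 * h * g.re := by simp
    rw [e1, e2]
    ring
  have h2 : ‖Sg h g‖ ^ 2 < 1 := by
    rw [h1]
    have : 0 < 4 * h * (g.im - h * ‖g‖ ^ 2) := by
      have : 0 < g.im - h * ‖g‖ ^ 2 := by linarith
      positivity
    linarith
  nlinarith [norm_nonneg (Sg h g)]

theorem tz_circle {h : ℝ} (hh : 0 < h) {g : ℂ} (hg : h * ‖g‖ ^ 2 < g.im) (t : ℝ) :
    tz h g t = (fun u : ℂ => -(2 * h * I * u) / (1 - Sg h g * u))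
      (((t : ℂ) + I) / ((t : ℂ) - I)) := by
  have hden : (t : ℂ) - I ≠ 0 := cau_sub_ne (by simp) t
  have h2 := den_ne_zero hh hg t
  simp only []
  unfold tz Sg
  have h3 : 1 - (1 + 2 * (h : ℂ) * I * g) * (((t : ℂ) + I) / ((t : ℂ) - I)) =
      -(2 * I * (1 + h * ((t : ℂ) + I) * g)) / ((t : ℂ) - I) := by
    field_simp
    ring
  rw [h3]
  have hI := Complex.I_ne_zero
  field_simp

theorem den_circle_ne {h : ℝ} (hh : 0 < h) {g : ℂ} (hg : h * ‖g‖ ^ 2 < g.im) {u : ℂ}
    (hu : ‖u‖ ≤ 1) : 1 - Sg h g * u ≠ 0 := by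
  intro h0
  have h1 : Sg h g * u = 1 := (sub_eq_zero.1 h0).symm
  have h2 : ‖Sg h g * u‖ = 1 := by rw [h1, norm_one]
  rw [norm_mul] at h2
  have h3 := Sg_norm_lt hh hg
  have h4 : ‖Sg h g‖ * ‖u‖ ≤ ‖Sg h g‖ * 1 := mul_le_mul_of_nonneg_left hu (norm_nonneg _)
  linarith

/-- the logarithmic average of an affine function of the kick multiplier -/
theorem integral_log_affine {h : ℝ} (hh : 0 < h) {g : ℂ} (hg : h * ‖g‖ ^ 2 < g.im) {p : ℂ}
    (hp : p ≠ 0) (q : ℂ) :
    Integrable (fun t => Real.log ‖p - q * tz h g t‖) nu ∧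
    ∫ t, Real.log ‖p - q * tz h g t‖ ∂nu =
      Real.log ‖p‖ + Real.posLog (‖p * Sg h g - 2 * h * I * q‖ / ‖p‖) := by
  set r : ℂ := p * Sg h g - 2 * h * I * q with hr
  have e1 : ∀ u : ℂ, ‖u‖ = 1 → p - q * (-(2 * h * I * u) / (1 - Sg h g * u)) =
      (p - r * u) / (1 - Sg h g * u) := by
    intro u hu
    have h1 := den_circle_ne hh hg hu.le
    rw [hr, eq_div_iff h1, sub_mul, mul_assoc q, div_mul_cancel₀ _ h1]
    ring
  have hcay : ∀ t : ℝ, ‖((t : ℂ) + I) / ((t : ℂ) - I)‖ = 1 := by
    intro t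
    rw [← circle_cphi, norm_circleMap_zero]
    simp
  have hint1 : CircleIntegrable (fun u => Real.log ‖p - r * u‖) 0 1 :=
    MeromorphicOn.circleIntegrable_log_norm fun z _ => by fun_prop
  have hint2 : CircleIntegrable (fun u => Real.log ‖1 - Sg h g * u‖) 0 1 :=
    MeromorphicOn.circleIntegrable_log_norm fun z _ => by fun_prop
  have i1 := nu_integrable_circle hint1
  have i2 := nu_integrable_circle hint2
  have key : ∀ᵐ t ∂nu, Real.log ‖p - q * tz h g t‖ =
      (fun u => Real.log ‖p - r * u‖) (((t : ℂ) + I) / ((t : ℂ) - I)) -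
      (fun u => Real.log ‖1 - Sg h g * u‖) (((t : ℂ) + I) / ((t : ℂ) - I)) := by
    have hnull : nu {t : ℝ | p - r * (((t : ℂ) + I) / ((t : ℂ) - I)) = 0} = 0 := by
      have hsub : ({t : ℝ | p - r * (((t : ℂ) + I) / ((t : ℂ) - I)) = 0}).Subsingleton := by
        intro s hs t ht
        simp only [Set.mem_setOf_eq] at hs ht
        have hr0 : r ≠ 0 := by
          rintro h0
          rw [h0, zero_mul, sub_zero] at hs
          exact hp hs
        have h1 : ((s : ℂ) + I) / ((s : ℂ) - I) = ((t : ℂ) + I) / ((t : ℂ) - I) := by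
          have h2 : r * (((s : ℂ) + I) / ((s : ℂ) - I)) = r * (((t : ℂ) + I) / ((t : ℂ) - I)) := by
            rw [← sub_eq_zero.1 hs, ← sub_eq_zero.1 ht]
          exact mul_left_cancel₀ hr0 h2
        have hds : (s : ℂ) - I ≠ 0 := cau_sub_ne (by simp) s
        have hdt : (t : ℂ) - I ≠ 0 := cau_sub_ne (by simp) t
        rw [div_eq_div_iff hds hdt] at h1
        have h3 : (2 * I) * ((s : ℂ) - t) = 0 := by linear_combination -h1
        have h4 : (s : ℂ) - t = 0 := by
          rcases mul_eq_zero.1 h3 with h | h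
          · exact absurd h (by simp)
          · exact h
        exact_mod_cast sub_eq_zero.1 h4
      have hvol : (volume : Measure ℝ) {t : ℝ | p - r * (((t : ℂ) + I) / ((t : ℂ) - I)) = 0} = 0 :=
        hsub.measure_zero _
      have hac : nu ≪ (volume : Measure ℝ) := by
        have h1 : nu = volume.withDensity (cauchyPDF 0 1) :=
          cauchyMeasure_of_scale_ne_zero 0 one_ne_zero
        rw [h1]
        exact withDensity_absolutelyContinuous _ _
      exact hac hvol
    have hae : ∀ᵐ t : ℝ ∂nu, ¬ (p - r * (((t : ℂ) + I) / ((t : ℂ) - I)) = 0) := by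
      rw [ae_iff]
      simpa using hnull
    filter_upwards [hae] with t ht
    rw [tz_circle hh hg t]
    simp only []
    rw [e1 _ (hcay t), norm_div, Real.log_div (norm_ne_zero_iff.2 ht)
      (norm_ne_zero_iff.2 (den_circle_ne hh hg (hcay t).le))]
  have hS : Real.circleAverage (fun u => Real.log ‖1 - Sg h g * u‖) 0 1 = 0 := by
    rw [avg_log_affine one_ne_zero, norm_one, Real.log_one, div_one, zero_add,
      Real.posLog_eq_zero_iff, abs_of_nonneg (norm_nonneg _)]
    exact (Sg_norm_lt hh hg).le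
  constructor
  · exact (i1.sub i2).congr (key.mono fun t ht => ht.symm)
  · rw [integral_congr_ae key, integral_sub i1 i2, nu_integral_circle (fun u => Real.log ‖p - r * u‖),
      nu_integral_circle (fun u => Real.log ‖1 - Sg h g * u‖), hS, sub_zero, avg_log_affine hp]

end P365L
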