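import Vale.Agent.P365.Open.Energy
import Vale.Agent.P365.Open.Prof
import Vale.Agent.P365.Torus.Stat

set_option linter.all false

/-!
# P365, open conductance: the layer estimate on the torus.

`X = ball N l`, `Y_r = {nrm ≥ r}`, profile `(r)`: `γ` on `X ∪ Y_r`, `e0` elsewhere.
If the transmission `X → Y_{2l}` is at least `θ`, then the average over the pairs `(r, z)`,
`3l/2 ≤ r < 2l`, `nrm z = r`, of `E_(r) log (b + γ ∑_{a∈X} K_za)` is at least
`-(2 - c θ²) log l - C_θ`.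
-/

namespace P365O

open MeasureTheory ProbabilityTheory Complex P365L P365L.Poi P365F
open scoped ENNReal NNReal Real ComplexConjugate

variable {N : ℕ} [NeZero N]

/-- the sites at distance at least `r` -/
def ext (N : ℕ) [NeZero N] (r : ℕ) : Finset (Tor N) := Finset.univ.filter fun x => r ≤ nrm x

theorem mem_ext {r : ℕ} {x : Tor N} : x ∈ ext N r ↔ r ≤ nrm x := by simp [ext]

theorem ext_succ (r : ℕ) : ext N (r + 1) ⊆ ext N r := by
  intro x hx
  rw [mem_ext] at hx ⊢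
  omega

theorem ext_anti {r s : ℕ} (h : r ≤ s) : ext N s ⊆ ext N r := by
  intro x hx
  rw [mem_ext] at hx ⊢
  omega

theorem ext_sdiff (r : ℕ) : ext N r \ ext N (r + 1) = layer N r := by
  ext x
  rw [Finset.mem_sdiff, mem_ext, mem_ext, mem_layer]
  omega

theorem ext_eq (r : ℕ) : ext N r = layer N r ∪ ext N (r + 1) := by
  ext x
  rw [Finset.mem_union, mem_ext, mem_ext, mem_layer]
  omega

theorem disjoint_layer_ext (r : ℕ) : Disjoint (layer N r) (ext N (r + 1)) := by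
  rw [Finset.disjoint_left]
  intro x h1 h2
  rw [mem_layer] at h1
  rw [mem_ext] at h2
  omega

theorem disjoint_ball_ext {l r : ℕ} (h : l < r) : Disjoint (ball N l) (ext N r) := by
  rw [Finset.disjoint_left]
  intro x h1 h2
  rw [mem_ball] at h1
  rw [mem_ext] at h2
  omega

/-- the profile of step `r` -/
noncomputable def prl (γ e0 : ℝ) (l r : ℕ) : Tor N → ℝ := pr γ e0 (ball N l ∪ ext N r)

/-- `X_z = ∑_{a ∈ ball l} K_za` -/
noncomputable def KX (l : ℕ) (z : Tor N) (W : Tor N → ℂ) : ℝ :=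
  ∑ a ∈ ball N l, KK (AT N) W z a

theorem KX_nonneg (l : ℕ) (z : Tor N) (W : Tor N → ℂ) : 0 ≤ KX l z W :=
  Finset.sum_nonneg fun a _ => KK_nonneg _ _

theorem Adm_KX (l : ℕ) (z : Tor N) : Adm (KX (N := N) l z) :=
  Adm_sum _ fun a _ => Adm_KK (AT_symm N) z a

theorem abs_row_le (x : Tor N) : ∑ y, |AT N x y| ≤ 4 := by
  have h : ∀ y, |AT N x y| = AT N x y := fun y => abs_of_nonneg (AT_nonneg x y)
  simp only [h]
  exact row_sum_le x

/-- transmission through a layer -/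
theorem Trm_le_layer {γ e0 : ℝ} (hγ : 0 < γ) (h0 : 0 < e0) {l r : ℕ} (hlr : l < r)
    {W : Tor N → ℂ} (hW : ∀ x, (W x).im = -prl γ e0 l r x) :
    Trm (AT N) W (ball N l) (ext N r) ≤ (γ ^ 2 + 16) * ∑ z ∈ layer N r, KX l z W := by
  have hA := AT_symm N
  have hneg : ∀ x, (W x).im < 0 := fun x => by
    rw [hW]
    have := pr_pos hγ h0 (ball N l ∪ ext N r) x
    unfold prl
    linarith
  have hX : ∀ x ∈ ball N l, -(W x).im = γ := fun x hx => by
    rw [hW, neg_neg, prl, pr_mem (Finset.mem_union_left _ hx)]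
  have hY : ∀ x ∈ ext N r, -(W x).im = γ := fun x hx => by
    rw [hW, neg_neg, prl, pr_mem (Finset.mem_union_right _ hx)]
  have h1 : ∀ a ∈ ball N l, ∑ y ∈ ext N r, KK (AT N) W y a ≤
      (1 + 16 / γ ^ 2) * ∑ y ∈ layer N r, KK (AT N) W y a := by
    intro a ha
    have h2 := exterior_le (W := W) hA hneg hγ (Y' := ext N (r + 1)) (S := layer N r) (a := a)
      (d := 4) (fun x hx => (hY x (ext_succ r hx)).ge)
      (fun h => by
        rw [mem_ball] at ha
        rw [mem_ext] at h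
        omega)
      (fun x hx y hy hxy => by
        rw [mem_ext] at hx hy
        rw [mem_layer]
        have := nrm_adj' hxy
        omega)
      abs_row_le (disjoint_layer_ext r)
    rw [ext_eq r, Finset.sum_union (disjoint_layer_ext r), add_mul, one_mul]
    have h3 : (4 : ℝ) ^ 2 = 16 := by norm_num
    rw [h3] at h2
    linarith
  have h4 : Trm (AT N) W (ball N l) (ext N r) =
      γ ^ 2 * ∑ a ∈ ball N l, ∑ y ∈ ext N r, KK (AT N) W y a := by
    unfold Trm
    rw [Finset.mul_sum]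
    refine Finset.sum_congr rfl fun x hx => ?_
    rw [Finset.mul_sum]
    refine Finset.sum_congr rfl fun y hy => ?_
    rw [hX x hx, hY y hy, KK_symm hA x y]
    ring
  have h5 : ∑ z ∈ layer N r, KX l z W = ∑ a ∈ ball N l, ∑ y ∈ layer N r, KK (AT N) W y a := by
    unfold KX
    rw [Finset.sum_comm]
  rw [h4, h5]
  have h6 : (γ ^ 2 + 16) * ∑ a ∈ ball N l, ∑ y ∈ layer N r, KK (AT N) W y a =
      γ ^ 2 * ∑ a ∈ ball N l, (1 + 16 / γ ^ 2) * ∑ y ∈ layer N r, KK (AT N) W y a := by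
    rw [← Finset.mul_sum, ← mul_assoc]
    congr 1
    field_simp
  rw [h6]
  exact mul_le_mul_of_nonneg_left (Finset.sum_le_sum h1) (by positivity)

/-- the transmission decreases with `r` (quenched) -/
theorem trm_anti {γ e0 : ℝ} (h0 : 0 < e0) (h0γ : e0 ≤ γ) (U : Tor N → ℝ) {l r : ℕ} (hlr : l < r)
    (k : ℕ) :
    EEp γ (prl γ e0 l (r + k)) U (fun W => Trm (AT N) W (ball N l) (ext N (r + k))) ≤
      EEp γ (prl γ e0 l r) U (fun W => Trm (AT N) W (ball N l) (ext N r)) := by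
  have hγ : 0 < γ := h0.trans_le h0γ
  induction k with
  | zero => exact le_rfl
  | succ k ih =>
    refine le_trans ?_ ih
    have h1 := sweep (AT_symm N) h0 h0γ U (X := ball N l) (disjoint_ball_ext (N := N)
      (show l < r + k by omega)) (ext_succ (r + k))
    have h2 : 0 ≤ (γ - e0) * γ ^ 3 * EEp γ (pr γ e0 (ball N l ∪ ext N (r + k))) U
        (fun W => ∑ z ∈ ext N (r + k) \ ext N (r + k + 1), (∑ a ∈ ball N l, KK (AT N) W z a) ^ 2) :=
      mul_nonneg (mul_nonneg (by linarith) (by positivity))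
        (EEp_nonneg fun W _ => Finset.sum_nonneg fun z _ => sq_nonneg _)
    have h3 : r + (k + 1) = r + k + 1 := by ring
    rw [h3]
    unfold prl
    linarith

/-- sum over the layers of the second moments (quenched) -/
theorem sum_sq_le {γ e0 : ℝ} (h0 : 0 < e0) (h0γ : e0 ≤ γ) (U : Tor N → ℝ) {l w : ℕ}
    (hw : 0 < w) (n : ℕ) :
    (γ - e0) * γ ^ 3 * ∑ j ∈ Finset.range n, EEp γ (prl γ e0 l (l + w + j)) U
        (fun W => ∑ z ∈ layer N (l + w + j), KX l z W ^ 2) ≤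
      1 / (2 * γ ^ 2) * (8 * (2 * (l + w) + 1) ^ 2 / (w : ℝ) ^ 2) := by
  have hγ : 0 < γ := h0.trans_le h0γ
  have hA := AT_symm N
  have h1 := sweep_layers hA h0 h0γ U (X := ball N l) (fun r => ext N (l + w + r))
    (fun r => disjoint_ball_ext (by omega)) (fun r => ext_succ (l + w + r)) 0 n
  have h2 := trm_le hA hγ U (e := pr γ e0 (ball N l ∪ ext N (l + w))) (pr_pos hγ h0 _)
    (pr_le h0γ _) (disjoint_ball_ext (N := N) (show l < l + w by omega)) (cut l w)
    (fun x hx => cut_eq_one (mem_ball.1 hx)) (fun y hy => cut_eq_zero hw (mem_ext.1 hy))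
  simp only [AT_sq] at h2
  have h3 := cut_energy_le (N := N) (l := l) hw
  have h4 : 0 ≤ EEp γ (pr γ e0 (ball N l ∪ ext N (l + w + (0 + n)))) U
      (fun W => Trm (AT N) W (ball N l) (ext N (l + w + (0 + n)))) :=
    EEp_nonneg fun W hW => Finset.sum_nonneg fun x _ => Finset.sum_nonneg fun y _ =>
      ee_KK_nonneg (fun x => by rw [hW]; linarith [pr_pos hγ h0 (ball N l ∪ ext N (l + w + (0 + n))) x]) x y
  have h5 : 1 / (2 * γ ^ 2) * ∑ x : Tor N, ∑ y, AT N x y * (cut l w x - cut l w y) ^ 2 ≤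
      1 / (2 * γ ^ 2) * (8 * (2 * (l + w) + 1) ^ 2 / (w : ℝ) ^ 2) :=
    mul_le_mul_of_nonneg_left h3 (by positivity)
  have h6 : ∀ j, ext N (l + w + (0 + j)) \ ext N (l + w + (0 + j + 1)) = layer N (l + w + j) := by
    intro j
    have : l + w + (0 + j + 1) = l + w + (0 + j) + 1 := by ring
    rw [this, ext_sdiff, zero_add]
  simp only [h6] at h1
  simp only [zero_add, add_zero] at h1 h4
  unfold prl KX
  linarith

/-! ### averaged over the background -/

theorem EU_le_EU (ρ : Measure ℝ) [IsProbabilityMeasure ρ] {γ γ' : ℝ} {e e' : Tor N → ℝ}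
    {F G : (Tor N → ℂ) → ℝ} (hF : Adm F) (hG : Adm G) (he : ∀ x, 0 < e x) (he' : ∀ x, 0 < e' x)
    (h : ∀ U, EEp γ e U F ≤ EEp γ' e' U G) : EU ρ γ e F ≤ EU ρ γ' e' G :=
  integral_mono (integrable_EEp ρ hF he γ) (integrable_EEp ρ hG he' γ') h

theorem EU_mono' (ρ : Measure ℝ) [IsProbabilityMeasure ρ] {γ : ℝ} {e : Tor N → ℝ}
    {F G : (Tor N → ℂ) → ℝ} (hF : Adm F) (hG : Adm G) (he : ∀ x, 0 < e x)
    (h : ∀ W : Tor N → ℂ, (∀ x, (W x).im = -e x) → F W ≤ G W) : EU ρ γ e F ≤ EU ρ γ e G :=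
  EU_le_EU ρ hF hG he he fun U => EEp_le he hF hG h

theorem EU_const (ρ : Measure ℝ) [IsProbabilityMeasure ρ] {γ : ℝ} {e : Tor N → ℝ} (r : ℝ) :
    EU ρ γ e (fun _ => r) = r := by
  unfold EU
  simp only [EEp_const]
  simp

/-- first moments: every layer carries at least `θ/(γ²+16)` -/
theorem first_moment (ρ : Measure ℝ) [IsProbabilityMeasure ρ] {γ e0 θ : ℝ} (h0 : 0 < e0)
    (h0γ : e0 ≤ γ) {l r : ℕ} (hlr : l < r) (k : ℕ)
    (hθ : θ ≤ EU ρ γ (prl (N := N) γ e0 l (r + k))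
      (fun W => Trm (AT N) W (ball N l) (ext N (r + k)))) :
    θ / (γ ^ 2 + 16) ≤ ∑ z ∈ layer N r, EU ρ γ (prl γ e0 l r) (KX l z) := by
  have hγ : 0 < γ := h0.trans_le h0γ
  have hpos : ∀ s : ℕ, ∀ x : Tor N, 0 < prl γ e0 l s x := fun s => pr_pos hγ h0 _
  have h1 : EU ρ γ (prl (N := N) γ e0 l (r + k))
      (fun W => Trm (AT N) W (ball N l) (ext N (r + k))) ≤
      EU ρ γ (prl (N := N) γ e0 l r) (fun W => Trm (AT N) W (ball N l) (ext N r)) :=
    EU_le_EU ρ (Adm_Trm (AT_symm N) _ _) (Adm_Trm (AT_symm N) _ _) (hpos _) (hpos _)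
      fun U => trm_anti h0 h0γ U hlr k
  have h2 : EU ρ γ (prl (N := N) γ e0 l r) (fun W => Trm (AT N) W (ball N l) (ext N r)) ≤
      EU ρ γ (prl (N := N) γ e0 l r) (fun W => (γ ^ 2 + 16) * ∑ z ∈ layer N r, KX l z W) :=
    EU_mono' ρ (Adm_Trm (AT_symm N) _ _) (adm_cmul (Adm_sum _ fun z _ => Adm_KX l z) _) (hpos _)
      fun W hW => Trm_le_layer hγ h0 hlr hW
  rw [EU_smul, EU_finset_sum ρ _ (fun z => Adm_KX l z) (hpos _)] at h2
  rw [div_le_iff₀ (by positivity)]
  linarith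

/-- second moments: the sum over all layers is bounded -/
theorem second_moment (ρ : Measure ℝ) [IsProbabilityMeasure ρ] {γ e0 : ℝ} (h0 : 0 < e0)
    (h0γ : e0 ≤ γ / 2) {l w : ℕ} (hw : 0 < w) (hwl : (l : ℝ) ≤ 3 * w) (hl : 2 ≤ l)
    (hwl' : 2 * w ≤ l) (n : ℕ) :
    ∑ j ∈ Finset.range n, ∑ z ∈ layer N (l + w + j),
      EU ρ γ (prl γ e0 l (l + w + j)) (fun W => KX l z W ^ 2) ≤ 1000 / γ ^ 6 := by
  have hγ : 0 < γ := by linarith
  have hpos : ∀ s : ℕ, ∀ x : Tor N, 0 < prl γ e0 l s x := fun s => pr_pos hγ h0 _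
  have hadm : ∀ z : Tor N, Adm (fun W => KX l z W ^ 2) := fun z => adm_pow (Adm_KX l z) 2
  have hw' : (0 : ℝ) < w := by exact_mod_cast hw
  have h1 : ∑ j ∈ Finset.range n, ∑ z ∈ layer N (l + w + j),
      EU ρ γ (prl γ e0 l (l + w + j)) (fun W => KX l z W ^ 2) =
      ∫ U, ∑ j ∈ Finset.range n, EEp γ (prl γ e0 l (l + w + j)) U
        (fun W => ∑ z ∈ layer N (l + w + j), KX l z W ^ 2) ∂(Measure.pi fun _ : Tor N => ρ) := by
    rw [integral_finset_sum _ fun j _ => integrable_EEp ρ (Adm_sum _ fun z _ => hadm z) (hpos _) γ]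
    refine Finset.sum_congr rfl fun j _ => ?_
    rw [← EU_finset_sum ρ _ hadm (hpos _)]
    rfl
  rw [h1]
  have h2 : ∀ U : Tor N → ℝ, ∑ j ∈ Finset.range n, EEp γ (prl γ e0 l (l + w + j)) U
        (fun W => ∑ z ∈ layer N (l + w + j), KX l z W ^ 2) ≤ 1000 / γ ^ 6 := by
    intro U
    have h3 := sum_sq_le (N := N) h0 (by linarith) U (l := l) hw n (γ := γ)
    have h4 : 8 * (2 * ((l : ℝ) + w) + 1) ^ 2 / (w : ℝ) ^ 2 ≤ 1000 := by
      rw [div_le_iff₀ (by positivity)]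
      have h5 : (2 : ℝ) ≤ l := by exact_mod_cast hl
      have h6 : 2 * ((l : ℝ) + w) + 1 ≤ 10 * w := by
        have h7 : 2 * (w : ℝ) ≤ l := by exact_mod_cast hwl'
        have h8 : (1 : ℝ) ≤ w := by exact_mod_cast hw
        -- `2(l+w)+1 ≤ 6w + 2w + 1 ≤ 9w + ...`
        linarith
      have h7 : (2 * ((l : ℝ) + w) + 1) ^ 2 ≤ (10 * w) ^ 2 :=
        pow_le_pow_left₀ (by positivity) h6 2
      nlinarith [h7]
    have h5 : (γ - e0) * γ ^ 3 * ∑ j ∈ Finset.range n, EEp γ (prl γ e0 l (l + w + j)) U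
        (fun W => ∑ z ∈ layer N (l + w + j), KX l z W ^ 2) ≤ 1 / (2 * γ ^ 2) * 1000 :=
      h3.trans (mul_le_mul_of_nonneg_left h4 (by positivity))
    set Q := ∑ j ∈ Finset.range n, EEp γ (prl γ e0 l (l + w + j)) U
        (fun W => ∑ z ∈ layer N (l + w + j), KX l z W ^ 2) with hQ
    have hQ0 : 0 ≤ Q := Finset.sum_nonneg fun j _ => EEp_nonneg fun W _ =>
      Finset.sum_nonneg fun z _ => sq_nonneg _
    have h6 : γ / 2 * γ ^ 3 * Q ≤ (γ - e0) * γ ^ 3 * Q := by
      refine mul_le_mul_of_nonneg_right ?_ hQ0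
      exact mul_le_mul_of_nonneg_right (by linarith) (by positivity)
    rw [le_div_iff₀ (by positivity)]
    have h7 : γ / 2 * γ ^ 3 * Q ≤ 1 / (2 * γ ^ 2) * 1000 := h6.trans h5
    have h8 : Q * γ ^ 6 = 2 * γ ^ 2 * (γ / 2 * γ ^ 3 * Q) := by ring
    rw [h8]
    calc 2 * γ ^ 2 * (γ / 2 * γ ^ 3 * Q) ≤ 2 * γ ^ 2 * (1 / (2 * γ ^ 2) * 1000) :=
          mul_le_mul_of_nonneg_left h7 (by positivity)
      _ = 1000 := by field_simp
  calc ∫ U, ∑ j ∈ Finset.range n, EEp γ (prl γ e0 l (l + w + j)) U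
        (fun W => ∑ z ∈ layer N (l + w + j), KX l z W ^ 2) ∂(Measure.pi fun _ : Tor N => ρ)
      ≤ ∫ _U : Tor N → ℝ, 1000 / γ ^ 6 ∂(Measure.pi fun _ : Tor N => ρ) :=
        integral_mono (integrable_finset_sum _ fun j _ =>
          integrable_EEp ρ (Adm_sum _ fun z _ => hadm z) (hpos _) γ) (integrable_const _) h2
    _ = 1000 / γ ^ 6 := by simp

/-! ### the pointwise logarithmic inequality -/

/-- `log (b + γ X) ≥ -2 log l + L (2αX - 2ατ - α²X²)`, `L = log l + log s ≥ 0`, `τ = s/(γ l)` -/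
theorem log_ge {γ b l s α X : ℝ} (hγ : 0 < γ) (hl : 1 ≤ l) (hs : 0 < s) (hb : 1 / l ^ 2 ≤ b)
    (hL : 0 ≤ Real.log l + Real.log s) (hα : 0 ≤ α) (hX : 0 ≤ X) :
    -2 * Real.log l + (Real.log l + Real.log s) *
      (2 * α * X - 2 * α * (s / (γ * l)) - α ^ 2 * X ^ 2) ≤ Real.log (b + γ * X) := by
  have hl0 : 0 < l := by linarith
  have hb0 : 0 < b := lt_of_lt_of_le (by positivity) hb
  have hlogb : -2 * Real.log l ≤ Real.log b := by
    have h1 : Real.log (1 / l ^ 2) = -2 * Real.log l := by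
      rw [one_div, Real.log_inv, Real.log_pow]
      push_cast
      ring
    rw [← h1]
    exact Real.log_le_log (by positivity) hb
  set τ := s / (γ * l) with hτ
  have hτ0 : 0 < τ := by positivity
  rcases le_or_gt τ X with h | h
  · have h1 : 2 * α * X - 2 * α * τ - α ^ 2 * X ^ 2 ≤ 1 := by
      nlinarith [sq_nonneg (α * X - 1), mul_nonneg hα hτ0.le]
    have h2 : Real.log s - Real.log l ≤ Real.log (b + γ * X) := by
      rw [← Real.log_div hs.ne' hl0.ne']
      refine Real.log_le_log (by positivity) ?_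
      have h3 : s / l = γ * τ := by
        rw [hτ]
        field_simp
      rw [h3]
      have := mul_le_mul_of_nonneg_left h hγ.le
      linarith
    have h3 := mul_le_mul_of_nonneg_left h1 hL
    linarith
  · have h1 : 2 * α * X - 2 * α * τ - α ^ 2 * X ^ 2 ≤ 0 := by
      have h2 : α * X ≤ α * τ := mul_le_mul_of_nonneg_left h.le hα
      have h3 : 0 ≤ α ^ 2 * X ^ 2 := by positivity
      linarith
    have h2 : Real.log b ≤ Real.log (b + γ * X) :=
      Real.log_le_log hb0 (by linarith [mul_nonneg hγ.le hX])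
    have h3 := mul_le_mul_of_nonneg_left h1 hL
    rw [mul_zero] at h3
    linarith

/-- the log observable in the form used with `EEp_Lm_lower`: `f = γ 1_X` -/
theorem sum_ind_KX (γ : ℝ) (l : ℕ) (z : Tor N) (W : Tor N → ℂ) :
    ∑ y, (if y ∈ ball N l then γ else 0) * KK (AT N) W z y = γ * KX l z W := by
  unfold KX
  rw [Finset.mul_sum]
  simp only [ite_mul, zero_mul]
  rw [Finset.sum_ite_mem, Finset.univ_inter]

theorem Adm_log_KX {γ b : ℝ} (hγ : 0 < γ) (hb : 0 < b) (l : ℕ) (z : Tor N) :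
    Adm (fun W => Real.log (b + γ * KX l z W)) :=
  (adm_cmul (Adm_KX l z) γ).log_add (fun W _ => mul_nonneg hγ.le (KX_nonneg l z W)) hb

/-- numerical part of the gain -/
theorem gain_num {γ θ l n M S1 S2 s c α : ℝ} (hγ : 0 < γ) (hθ0 : 0 < θ)
    (hL : 0 ≤ Real.log l + Real.log s) (hM0 : 0 ≤ M) (hM1 : M ≤ 16 * l * n) (hnR : l ≤ 2 * n)
    (hn0 : 0 < n) (hl0 : 0 < l) (hS1ge : n * (θ / (γ ^ 2 + 16)) ≤ S1) (hS2le : S2 ≤ 1000 / γ ^ 6)
    (hs : s = γ * θ / (32 * (γ ^ 2 + 16))) (hc : c = γ ^ 6 / (128000 * (γ ^ 2 + 16) ^ 2))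
    (hα : α = n * θ * γ ^ 6 / (2000 * (γ ^ 2 + 16))) :
    (-(2 - c * θ ^ 2) * Real.log l - c * θ ^ 2 * |Real.log s|) * M ≤
      -2 * Real.log l * M + (Real.log l + Real.log s) *
        (2 * α * S1 - 2 * α * (s / (γ * l)) * M - α ^ 2 * S2) := by
  have hs0 : 0 < s := by rw [hs]; positivity
  have hc0 : 0 < c := by rw [hc]; positivity
  have hα0 : 0 ≤ α := by rw [hα]; positivity
  have hg1 : (s / (γ * l)) * M ≤ S1 / 2 := by
    have h1 : (s / (γ * l)) * M ≤ (s / (γ * l)) * (16 * l * n) :=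
      mul_le_mul_of_nonneg_left hM1 (by positivity)
    have h2 : (s / (γ * l)) * (16 * l * n) = n * (θ / (γ ^ 2 + 16)) / 2 := by
      rw [hs]
      field_simp
      ring
    linarith
  have hg2 : c * θ ^ 2 * M ≤ 2 * α * S1 - 2 * α * (s / (γ * l)) * M - α ^ 2 * S2 := by
    have h1 : α * (n * (θ / (γ ^ 2 + 16))) ≤ 2 * α * S1 - 2 * α * (s / (γ * l)) * M := by
      have h2 := mul_le_mul_of_nonneg_left hg1 hα0
      have h3 := mul_le_mul_of_nonneg_left hS1ge hα0
      linarith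
    have h2 : α ^ 2 * S2 ≤ α ^ 2 * (1000 / γ ^ 6) :=
      mul_le_mul_of_nonneg_left hS2le (by positivity)
    have h3 : c * θ ^ 2 * M ≤ c * θ ^ 2 * (16 * l * n) :=
      mul_le_mul_of_nonneg_left hM1 (by positivity)
    have h4 : c * θ ^ 2 * (16 * l * n) ≤ c * θ ^ 2 * (32 * n ^ 2) := by
      refine mul_le_mul_of_nonneg_left ?_ (by positivity)
      have := mul_le_mul_of_nonneg_right hnR hn0.le
      linarith
    have h5 : c * θ ^ 2 * (32 * n ^ 2) =
        α * (n * (θ / (γ ^ 2 + 16))) - α ^ 2 * (1000 / γ ^ 6) := by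
      rw [hc, hα]
      field_simp
      ring
    linarith
  have hg3 := mul_le_mul_of_nonneg_left hg2 hL
  have hg4 : (-(2 - c * θ ^ 2) * Real.log l - c * θ ^ 2 * |Real.log s|) * M ≤
      -2 * Real.log l * M + (Real.log l + Real.log s) * (c * θ ^ 2 * M) := by
    have h1 : -|Real.log s| ≤ Real.log s := neg_abs_le _
    have h2 := mul_le_mul_of_nonneg_left h1 (show 0 ≤ c * θ ^ 2 * M by positivity)
    linarith
  linarith

/-- **the layer estimate** -/
theorem layer_log {γ : ℝ} (hγ : 0 < γ) : ∃ c : ℝ, 0 < c ∧ ∀ θ : ℝ, 0 < θ → ∃ C : ℝ, 0 ≤ C ∧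
    ∀ (ρ : Measure ℝ) [IsProbabilityMeasure ρ] (N : ℕ) [NeZero N] (l : ℕ), 2 ≤ l → 4 * l ≤ N →
    ∀ e0 : ℝ, 0 < e0 → e0 ≤ γ / 2 → ∀ b : ℝ, 1 / (l : ℝ) ^ 2 ≤ b →
    θ ≤ EU ρ γ (prl (N := N) γ e0 l (2 * l))
      (fun W => Trm (AT N) W (ball N l) (ext N (2 * l))) →
    (-(2 - c * θ ^ 2) * Real.log l - C) *
        (∑ j ∈ Finset.range (2 * l - (l + l / 2)), ((layer N (l + l / 2 + j)).card : ℝ)) ≤
      ∑ j ∈ Finset.range (2 * l - (l + l / 2)), ∑ z ∈ layer N (l + l / 2 + j),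
        EU ρ γ (prl γ e0 l (l + l / 2 + j)) (fun W => Real.log (b + γ * KX l z W)) := by
  refine ⟨γ ^ 6 / (128000 * (γ ^ 2 + 16) ^ 2), by positivity, fun θ hθ0 => ?_⟩
  set c := γ ^ 6 / (128000 * (γ ^ 2 + 16) ^ 2) with hc
  have hc0 : 0 < c := by positivity
  set s := γ * θ / (32 * (γ ^ 2 + 16)) with hs
  have hs0 : 0 < s := by positivity
  refine ⟨c * θ ^ 2 * |Real.log s|, by positivity, ?_⟩
  intro ρ _ N _ l hl hN e0 h0 h0γ b hb hθ
  have hlR : (2 : ℝ) ≤ l := by exact_mod_cast hl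
  have hl0 : (0 : ℝ) < l := by linarith
  have hlog0 : 0 ≤ Real.log l := Real.log_nonneg (by linarith)
  have hb0 : 0 < b := lt_of_lt_of_le (by positivity) hb
  have hpos : ∀ s : ℕ, ∀ x : Tor N, 0 < prl γ e0 l s x := fun s => pr_pos hγ h0 _
  set w := l / 2 with hw
  have hw0 : 0 < w := by omega
  set n := 2 * l - (l + w) with hn
  have hn1 : l ≤ 2 * n := by omega
  have hnR : (l : ℝ) ≤ 2 * n := by exact_mod_cast hn1
  have hn0 : (0 : ℝ) < n := by linarith
  set M : ℝ := ∑ j ∈ Finset.range n, ((layer N (l + w + j)).card : ℝ) with hM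
  have hM0 : 0 ≤ M := Finset.sum_nonneg fun j _ => Nat.cast_nonneg _
  have hM1 : M ≤ 16 * l * n := by
    have h1 : ∀ j ∈ Finset.range n, ((layer N (l + w + j)).card : ℝ) ≤ 16 * l := by
      intro j hj
      rw [Finset.mem_range] at hj
      have h2 := card_layer_le (N := N) (r := l + w + j) (by omega) (by omega)
      have h3 : (layer N (l + w + j)).card ≤ 16 * l := by omega
      exact_mod_cast h3
    refine (Finset.sum_le_sum h1).trans ?_
    rw [Finset.sum_const, Finset.card_range, nsmul_eq_mul]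
    linarith
  -- trivial lower bound
  have htriv : -2 * Real.log l * M ≤ ∑ j ∈ Finset.range n, ∑ z ∈ layer N (l + w + j),
        EU ρ γ (prl γ e0 l (l + w + j)) (fun W => Real.log (b + γ * KX l z W)) := by
    rw [hM, Finset.mul_sum]
    refine Finset.sum_le_sum fun j _ => ?_
    rw [mul_comm, ← nsmul_eq_mul, ← Finset.sum_const]
    refine Finset.sum_le_sum fun z _ => ?_
    rw [← EU_const (N := N) ρ (γ := γ) (e := prl γ e0 l (l + w + j)) (-2 * Real.log l)]
    refine EU_mono' ρ (Adm_const _) (Adm_log_KX hγ hb0 l z) (hpos _) fun W _ => ?_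
    have h1 : Real.log (1 / (l : ℝ) ^ 2) = -2 * Real.log l := by
      rw [one_div, Real.log_inv, Real.log_pow]
      push_cast
      ring
    rw [← h1]
    exact Real.log_le_log (by positivity) (hb.trans (by
      linarith [mul_nonneg hγ.le (KX_nonneg l z W)]))
  rcases lt_or_ge (Real.log l + Real.log s) 0 with hL | hL
  · refine le_trans ?_ htriv
    refine mul_le_mul_of_nonneg_right ?_ hM0
    have h1 : Real.log l ≤ |Real.log s| := by
      have := neg_le_abs (Real.log s)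
      linarith
    have h2 := mul_le_mul_of_nonneg_left h1 (show 0 ≤ c * θ ^ 2 by positivity)
    linarith
  · -- the main case
    set L := Real.log l + Real.log s with hLdef
    set S1 : ℝ := ∑ j ∈ Finset.range n, ∑ z ∈ layer N (l + w + j),
      EU ρ γ (prl γ e0 l (l + w + j)) (KX l z) with hS1
    set S2 : ℝ := ∑ j ∈ Finset.range n, ∑ z ∈ layer N (l + w + j),
      EU ρ γ (prl γ e0 l (l + w + j)) (fun W => KX l z W ^ 2) with hS2
    have hS1ge : n * (θ / (γ ^ 2 + 16)) ≤ S1 := by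
      have hconst : (n : ℝ) * (θ / (γ ^ 2 + 16)) = ∑ _j ∈ Finset.range n, θ / (γ ^ 2 + 16) := by
        rw [Finset.sum_const, Finset.card_range, nsmul_eq_mul]
      rw [hconst]
      refine Finset.sum_le_sum fun j hj => ?_
      rw [Finset.mem_range] at hj
      obtain ⟨k, hk⟩ : ∃ k, 2 * l = l + w + j + k := ⟨2 * l - (l + w + j), by omega⟩
      rw [hk] at hθ
      exact first_moment ρ h0 (by linarith) (by omega) k hθ
    have hS2le : S2 ≤ 1000 / γ ^ 6 := by
      refine second_moment ρ h0 h0γ hw0 ?_ hl (by omega) n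
      have : l ≤ 3 * w := by omega
      exact_mod_cast this
    set α : ℝ := n * θ * γ ^ 6 / (2000 * (γ ^ 2 + 16)) with hα
    have hα0 : 0 ≤ α := by positivity
    have hmain : -2 * Real.log l * M + L * (2 * α * S1 - 2 * α * (s / (γ * l)) * M - α ^ 2 * S2) ≤
        ∑ j ∈ Finset.range n, ∑ z ∈ layer N (l + w + j),
          EU ρ γ (prl γ e0 l (l + w + j)) (fun W => Real.log (b + γ * KX l z W)) := by
      have h1 : -2 * Real.log l * M + L * (2 * α * S1 - 2 * α * (s / (γ * l)) * M - α ^ 2 * S2) =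
          ∑ j ∈ Finset.range n, ∑ z ∈ layer N (l + w + j),
            ((-2 * Real.log l - L * (2 * α * (s / (γ * l)))) +
              (L * (2 * α)) * EU ρ γ (prl γ e0 l (l + w + j)) (KX l z) +
              (-(L * α ^ 2)) * EU ρ γ (prl γ e0 l (l + w + j)) (fun W => KX l z W ^ 2)) := by
        simp only [Finset.sum_add_distrib, ← Finset.mul_sum, Finset.sum_const, nsmul_eq_mul]
        rw [← Finset.sum_mul, ← hM, ← hS1, ← hS2]
        ring
      rw [h1]
      refine Finset.sum_le_sum fun j _ => Finset.sum_le_sum fun z _ => ?_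
      have hp := hpos (l + w + j)
      rw [← EU_smul, ← EU_smul, ← EU_const (N := N) ρ (γ := γ) (e := prl γ e0 l (l + w + j))
        (-2 * Real.log l - L * (2 * α * (s / (γ * l)))),
        ← EU_add ρ (Adm_const _) (adm_cmul (Adm_KX l z) _) hp,
        ← EU_add ρ (adm_add (Adm_const _) (adm_cmul (Adm_KX l z) _))
          (adm_cmul (adm_pow (Adm_KX l z) 2) _) hp]
      refine EU_mono' ρ (adm_add (adm_add (Adm_const _) (adm_cmul (Adm_KX l z) _))
          (adm_cmul (adm_pow (Adm_KX l z) 2) _)) (Adm_log_KX hγ hb0 l z) hp fun W _ => ?_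
      have h2 := log_ge hγ (show (1 : ℝ) ≤ l by linarith) hs0 hb hL hα0 (KX_nonneg l z W)
      refine le_trans (le_of_eq ?_) h2
      ring
    exact (gain_num hγ hθ0 hL hM0 hM1 hnR hn0 hl0 hS1ge hS2le rfl rfl rfl).trans hmain

end P365O
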