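import Vale.Agent.P365.Open.Circ

set_option linter.all false

/-!
# P365, block OPEN: logarithms under one kick.
-/

namespace P365L

open MeasureTheory ProbabilityTheory Complex P365L.Poi P365F
open scoped ENNReal NNReal Real ComplexConjugate

/-- Cauchy-Schwarz with the constant component `√b0` -/
theorem cs_const {κ : Type*} (J : Finset κ) (w : κ → ℝ) (hw : ∀ j ∈ J, 0 ≤ w j) (a f : κ → ℂ)
    {b0 : ℝ} (hb : 0 < b0) :
    ‖(b0 : ℂ) + ∑ j ∈ J, (w j : ℂ) * (conj (a j) * f j)‖ ^ 2 ≤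
      (b0 + ∑ j ∈ J, w j * ‖a j‖ ^ 2) * (b0 + ∑ j ∈ J, w j * ‖f j‖ ^ 2) := by
  have h1 : ‖(b0 : ℂ) + ∑ j ∈ J, (w j : ℂ) * (conj (a j) * f j)‖ ≤
      b0 + ∑ j ∈ J, w j * (‖a j‖ * ‖f j‖) := by
    refine (norm_add_le _ _).trans ?_
    rw [Complex.norm_real, Real.norm_of_nonneg hb.le]
    refine add_le_add le_rfl ((norm_sum_le _ _).trans (Finset.sum_le_sum fun j hj => ?_))
    rw [norm_mul, norm_mul, Complex.norm_real, Real.norm_of_nonneg (hw j hj), RCLike.norm_conj]
  have h2 : b0 + ∑ j ∈ J, w j * (‖a j‖ * ‖f j‖) =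
      ∑ j ∈ Finset.insertNone J, (Option.elim j (√b0) fun j => √(w j) * ‖a j‖) *
        (Option.elim j (√b0) fun j => √(w j) * ‖f j‖) := by
    rw [Finset.sum_insertNone]
    simp only [Option.elim]
    rw [Real.mul_self_sqrt hb.le]
    congr 1
    refine Finset.sum_congr rfl fun j hj => ?_
    have := Real.mul_self_sqrt (hw j hj)
    linear_combination (-(‖a j‖ * ‖f j‖)) * this
  have h3 := Finset.sum_mul_sq_le_sq_mul_sq (Finset.insertNone J)
    (fun j => (Option.elim j (√b0) fun j => √(w j) * ‖a j‖))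
    (fun j => (Option.elim j (√b0) fun j => √(w j) * ‖f j‖))
  rw [← h2, Finset.sum_insertNone, Finset.sum_insertNone] at h3
  simp only [Option.elim] at h3
  rw [Real.sq_sqrt hb.le] at h3
  have e1 : ∀ g : κ → ℂ, ∑ j ∈ J, (√(w j) * ‖g j‖) ^ 2 = ∑ j ∈ J, w j * ‖g j‖ ^ 2 := fun g =>
    Finset.sum_congr rfl fun j hj => by rw [mul_pow, Real.sq_sqrt (hw j hj)]
  rw [e1, e1] at h3
  exact (pow_le_pow_left₀ (norm_nonneg _) h1 2).trans h3

/-- `log` of a sum of squares of affine functions of the kick multiplier, plus a constant: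
it increases in mean. -/
theorem one_site_logsum {κ : Type*} (J : Finset κ) (w : κ → ℝ) (hw : ∀ j ∈ J, 0 ≤ w j)
    (a b : κ → ℂ) {b0 : ℝ} (hb : 0 < b0) {h : ℝ} (hh : 0 < h) {g : ℂ}
    (hg : h * ‖g‖ ^ 2 < g.im) :
    Real.log (b0 + ∑ j ∈ J, w j * ‖a j‖ ^ 2) ≤
      ∫ t, Real.log (b0 + ∑ j ∈ J, w j * ‖a j - b j * tz h g t‖ ^ 2) ∂nu := by
  set N : ℝ := b0 + ∑ j ∈ J, w j * ‖a j‖ ^ 2 with hN
  have hsum0 : ∀ f : κ → ℂ, 0 ≤ ∑ j ∈ J, w j * ‖f j‖ ^ 2 := fun f =>
    Finset.sum_nonneg fun j hj => mul_nonneg (hw j hj) (sq_nonneg _)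
  have hNpos : 0 < N := by have := hsum0 a; linarith
  set q : ℂ := ∑ j ∈ J, (w j : ℂ) * (conj (a j) * b j) with hq
  have hNq : ∀ t, (b0 : ℂ) + ∑ j ∈ J, (w j : ℂ) * (conj (a j) * (a j - b j * tz h g t)) =
      (N : ℂ) - q * tz h g t := by
    intro t
    rw [hN, hq, Finset.sum_mul]
    push_cast
    rw [add_sub_assoc, ← Finset.sum_sub_distrib]
    congr 1
    refine Finset.sum_congr rfl fun j _ => ?_
    have h1 : conj (a j) * a j = ((‖a j‖ ^ 2 : ℝ) : ℂ) := by
      rw [← Complex.normSq_eq_norm_sq, Complex.normSq_eq_conj_mul_self]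
    push_cast at h1
    linear_combination (w j : ℂ) * h1
  have hNc : (N : ℂ) ≠ 0 := Complex.ofReal_ne_zero.2 hNpos.ne'
  obtain ⟨i1, v1⟩ := integral_log_affine hh hg hNc q
  have hlow : Real.log N ≤ ∫ t, (2 * Real.log ‖(N : ℂ) - q * tz h g t‖ - Real.log N) ∂nu := by
    rw [integral_sub (i1.const_mul 2) (integrable_const _), integral_const_mul, v1]
    have h1 : ‖(N : ℂ)‖ = N := by rw [Complex.norm_real, Real.norm_of_nonneg hNpos.le]
    rw [h1]
    have h2 := Real.posLog_nonneg (x := ‖(N : ℂ) * Sg h g - 2 * h * I * q‖ / N)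
    simp
    linarith
  refine hlow.trans ?_
  -- integrability of the right hand side
  obtain ⟨C, hC⟩ := bounded_tz hh hg
  have hmeas : Measurable fun t => Real.log (b0 + ∑ j ∈ J, w j * ‖a j - b j * tz h g t‖ ^ 2) := by
    have := measurable_tz h g
    fun_prop
  have hub : ∀ t, ∑ j ∈ J, w j * ‖a j - b j * tz h g t‖ ^ 2 ≤
      ∑ j ∈ J, w j * (‖a j‖ + ‖b j‖ * C) ^ 2 := by
    intro t
    refine Finset.sum_le_sum fun j hj => mul_le_mul_of_nonneg_left ?_ (hw j hj)
    refine pow_le_pow_left₀ (norm_nonneg _) ?_ 2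
    refine (norm_sub_le _ _).trans ?_
    rw [norm_mul]
    have := mul_le_mul_of_nonneg_left (hC t) (norm_nonneg (b j))
    linarith
  have hint : Integrable (fun t => Real.log (b0 + ∑ j ∈ J, w j * ‖a j - b j * tz h g t‖ ^ 2))
      nu := by
    refine Integrable.of_bound hmeas.aestronglyMeasurable
      (|Real.log b0| + |Real.log (b0 + ∑ j ∈ J, w j * (‖a j‖ + ‖b j‖ * C) ^ 2)|)
      (Filter.Eventually.of_forall fun t => ?_)
    have h0 := hsum0 fun j => a j - b j * tz h g t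
    have h1 : Real.log b0 ≤ Real.log (b0 + ∑ j ∈ J, w j * ‖a j - b j * tz h g t‖ ^ 2) :=
      Real.log_le_log hb (by linarith)
    have h2 : Real.log (b0 + ∑ j ∈ J, w j * ‖a j - b j * tz h g t‖ ^ 2) ≤
        Real.log (b0 + ∑ j ∈ J, w j * (‖a j‖ + ‖b j‖ * C) ^ 2) :=
      Real.log_le_log (by linarith) (by linarith [hub t])
    rw [Real.norm_eq_abs, abs_le]
    constructor
    · linarith [neg_abs_le (Real.log b0), abs_nonneg (Real.log (b0 + ∑ j ∈ J, w j * (‖a j‖ + ‖b j‖ * C) ^ 2))]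
    · linarith [le_abs_self (Real.log (b0 + ∑ j ∈ J, w j * (‖a j‖ + ‖b j‖ * C) ^ 2)), abs_nonneg (Real.log b0)]
  refine integral_mono_ae ((i1.const_mul 2).sub (integrable_const _)) hint ?_
  -- pointwise comparison away from the (at most one) zero
  have hac : nu ≪ (volume : Measure ℝ) := by
    have h1 : nu = volume.withDensity (cauchyPDF 0 1) :=
      cauchyMeasure_of_scale_ne_zero 0 one_ne_zero
    rw [h1]
    exact withDensity_absolutelyContinuous _ _
  have hsub : ({t : ℝ | (N : ℂ) - q * tz h g t = 0}).Subsingleton := by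
    intro s hs t ht
    simp only [Set.mem_setOf_eq] at hs ht
    have hq0 : q ≠ 0 := by
      rintro h0
      rw [h0, zero_mul, sub_zero] at hs
      exact hNc hs
    have h1 : tz h g s = tz h g t := by
      have h2 : q * tz h g s = q * tz h g t := by
        rw [← sub_eq_zero.1 hs, ← sub_eq_zero.1 ht]
      exact mul_left_cancel₀ hq0 h2
    unfold tz at h1
    rw [div_eq_div_iff (den_ne_zero hh hg s) (den_ne_zero hh hg t)] at h1
    have hhc : (h : ℂ) ≠ 0 := Complex.ofReal_ne_zero.2 hh.ne'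
    have h3 : (h : ℂ) * ((s : ℂ) - t) = 0 := by linear_combination h1
    have h4 := (mul_eq_zero.1 h3).resolve_left hhc
    exact_mod_cast sub_eq_zero.1 h4
  have hae : ∀ᵐ t : ℝ ∂nu, ¬ ((N : ℂ) - q * tz h g t = 0) := by
    rw [ae_iff]
    simpa using hac (hsub.measure_zero _)
  filter_upwards [hae] with t ht
  have h1 := cs_const J w hw a (fun j => a j - b j * tz h g t) hb
  rw [hNq t, ← hN] at h1
  have hpos : 0 < ‖(N : ℂ) - q * tz h g t‖ := norm_pos_iff.2 ht
  have h2 := Real.log_le_log (pow_pos hpos 2) h1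
  have h0 := hsum0 fun j => a j - b j * tz h g t
  rw [Real.log_pow, Real.log_mul hNpos.ne' (by linarith)] at h2
  push_cast at h2
  linarith

end P365L
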