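import Vale.Agent.P365.Open.Thm
import Vale.Agent.P365.Comp.Fm

/-!
# P365: from the slope bound (LOC5) to the fractional moment bound.
-/

set_option linter.all false

namespace P365L.Op

open MeasureTheory ProbabilityTheory Complex P365L P365L.Poi P365F P365O
open scoped ENNReal NNReal Real ComplexConjugate

theorem openThm_of_openEU {γ E : ℝ} (hγ : 0 < γ) (ρ : Measure ℝ) [IsProbabilityMeasure ρ]
    (h : OpenEU γ (ρ.map fun t => t - E)) : Comp.OpenThm γ E ρ := by
  intro θ hθ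
  obtain ⟨l0, hl0⟩ := h (γ ^ 2 * θ) (by positivity)
  refine ⟨l0, fun l hl => ?_⟩
  obtain ⟨N, hN, hMN, e1, he1, H⟩ := hl0 l hl (4 * l + 4)
  refine ⟨N, hN, hMN, e1, he1, fun e0 h0 h1 => ?_⟩
  have hA := AT_symm N
  have hpos : ∀ x : Tor N, 0 < pr γ e0 (ball N l ∪ P365O.ext N (2 * l)) x := pr_pos hγ h0 _
  have h2 := H e0 h0 h1
  rw [EU_map_sub ρ E γ hpos (Adm_Trm hA _ _)] at h2
  simp only [EEp_Trm_eq] at h2
  have h3 : ∀ w : Tor N → ℝ, EEp γ (fun x => if nrm x ≤ l ∨ 2 * l ≤ nrm x then γ else e0)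
      (fun x => w x - E) (fun W => ∑ a ∈ P365L.ball N l, ∑ y ∈ P365O.ext N (2 * l),
        γ ^ 2 * KK (AT N) W a y) =
      γ ^ 2 * EEp γ (Comp.prof N l γ e0) (fun x => w x - E)
        (fun W => Comp.hs (Gr (AT N) W) (P365L.ball N l) (Comp.outr N l)) := by
    intro w
    rw [← EEp_mul]
    have e1 : Comp.prof N l γ e0 = fun x => if nrm x ≤ l ∨ 2 * l ≤ nrm x then γ else e0 := rfl
    rw [e1]
    congr 1
    funext W
    unfold Comp.hs
    rw [Finset.mul_sum]
    refine Finset.sum_congr rfl fun a _ => ?_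
    rw [Finset.mul_sum]
    rfl
  simp only [h3] at h2
  rw [integral_const_mul] at h2
  exact le_of_mul_le_mul_left h2 (by positivity)

/-- **from the slope bound to the input of the composition step** -/
theorem openThm_of_LOC5 {γ B E : ℝ} (hγ : 0 < γ) (ρ : Measure ℝ) [IsProbabilityMeasure ρ]
    (hB : ρ (Set.Icc (-B) B)ᶜ = 0) (h5 : LOC5w γ (ρ.map fun t => t - E)) :
    Comp.OpenThm γ E ρ := by
  have hm : Measurable fun t : ℝ => t - E := by fun_prop
  haveI : IsProbabilityMeasure (ρ.map fun t => t - E) :=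
    Measure.isProbabilityMeasure_map hm.aemeasurable
  exact openThm_of_openEU hγ ρ (openEU hγ _ (map_sub_bounded hB E) h5)

end P365L.Op
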